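import Vale.Agent.P146.Lower.Res.Basic
import Vale.Agent.P146.Lower.Func

/-! P146, polynomial lower bound: continuity and growth of functionals of the deformed weight. -/

open MeasureTheory Finset Real
open Vale.Agent.P150 (gauss)
open Vale.Agent.P168.MP (lin logZ0 ET pw spinAt allBatch BIdx gu Mark)
open Vale.Agent.P157.Par (qlev Prof)

noncomputable section

namespace Vale.Agent.P146.Lower.Res

variable {n : ℕ}

lemma wgt_pos (β s lam : ℝ) (v : Cfg n → ℝ) (g : Edge n → ℝ) (x : Cfg n) : 0 < wgt β s lam v g x :=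
  exp_pos _

lemma continuous_wgt (β : ℝ) {s : ℝ} (hs : 0 < kap s) (lam : ℝ) (v : Cfg n → ℝ) (x : Cfg n) :
    Continuous fun g : Edge n → ℝ => wgt β s lam v g x :=
  continuous_exp.comp (((continuous_const.mul (eb_energy x).1).add
    (continuous_const.mul (eb_pb hs x x).1)).add continuous_const)

lemma continuous_wp (P : Par) [NeZero n] (β : ℝ) {s : ℝ} (hs : 0 < kap s) (lam : ℝ) (v : Cfg n → ℝ)
    (u : P.Grid) (p : List (Mark n P.S (allBatch P.R 2))) :
    Continuous fun g : Edge n → ℝ => P.wp (wgt β s lam v g) u p :=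
  (continuous_wgt β hs lam v _).mul continuous_const

lemma eb_logAvg (β : ℝ) {s : ℝ} (hs : 0 < kap s) (lam : ℝ) (v : Cfg n → ℝ) :
    EB fun g : Edge n → ℝ => log (Vale.Agent.P168.MP.avg (wgt β s lam v g)) := by
  have hX : ∀ x : Cfg n, EB fun g : Edge n → ℝ => β * energy g x + lam * pb s g x x + v x :=
    fun x => (((EB.const β).mul (eb_energy x)).add ((EB.const lam).mul (eb_pb hs x x))).add (EB.const (v x))
  refine EB.of_le (EB.sum univ fun x _ => EB.abs' (hX x)) ?_ fun g => abs_log_avg_le _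
  refine Continuous.log ?_ fun g => (Vale.Agent.P168.MP.avg_pos fun x => wgt_pos β s lam v g x).ne'
  exact (continuous_finsetSum _ fun x _ => continuous_wgt β hs lam v x).div_const _

lemma eb_lz (β : ℝ) {s : ℝ} (hs : 0 < kap s) (t : ℝ) : EB fun g : Edge n → ℝ => lz β s t g :=
  eb_logAvg β hs t 0

lemma eb_logZ0 (P : Par) [NeZero n] (β : ℝ) {s : ℝ} (hs : 0 < kap s) (lam : ℝ) (v : Cfg n → ℝ)
    (u : P.Grid) : EB fun g : Edge n → ℝ => logZ0 P.R (lin P.R) (P.wp (wgt β s lam v g) u) := by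
  refine EB.of_le ((EB.abs' (eb_logAvg β hs lam v)).add (EB.const P.cap)) ?_ fun g => ?_
  · exact Vale.Agent.P157.Par.continuous_logZ0 (continuous_wp P β hs lam v u)
      (fun g p => wp_pos P (fun x => wgt_pos β s lam v g x) u p) P.R
  · have h := (abs_sub_abs_le_abs_sub _ _).trans
      (abs_logZ0_wp_sub_le P (fun x => wgt_pos β s lam v g x) u)
    linarith

/-- a replica expectation of an observable dominated by a function of the disorder -/
lemma eb_ET (P : Par) [NeZero n] (β : ℝ) {s : ℝ} (hs : 0 < kap s) (lam : ℝ) (v : Cfg n → ℝ) (u : P.Grid)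
    {T : List (ℕ × ℕ)}
    {F : (Edge n → ℝ) → List (List (Mark n P.S (allBatch P.R 2))) → ℝ} {G : (Edge n → ℝ) → ℝ}
    (hF : ∀ ps, Continuous fun g => F g ps) (hG : EB G) (h : ∀ g ps, |F g ps| ≤ G g) :
    EB fun g : Edge n → ℝ => ET P.R (lin P.R) (P.wp (wgt β s lam v g) u) T (F g) :=
  EB.of_le hG (Vale.Agent.P157.Par.continuous_ET (continuous_wp P β hs lam v u)
      (fun g p => wp_pos P (fun x => wgt_pos β s lam v g x) u p) P.R T hF) fun g =>
    Vale.Agent.P168.MP.ET_bound (wp_pos P (fun x => wgt_pos β s lam v g x) u) fun ps => h g ps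

lemma qlev_wgt_prof (P : Par) [NeZero n] (β s lam : ℝ) (v : Cfg n → ℝ) (g : Edge n → ℝ) (u : P.Grid) :
    Prof P.R (qlev P.R (P.wp (wgt β s lam v g) u) (spinAt P.R)) 1 ∧
      qlev P.R (P.wp (wgt β s lam v g) u) (spinAt P.R) P.R = 1 :=
  qlev_wp_prof P (fun x => wgt_pos β s lam v g x) u

lemma continuous_qlev (P : Par) [NeZero n] (β : ℝ) {s : ℝ} (hs : 0 < kap s) (lam : ℝ) (v : Cfg n → ℝ)
    (u : P.Grid) (l : ℕ) :
    Continuous fun g : Edge n → ℝ => qlev P.R (P.wp (wgt β s lam v g) u) (spinAt P.R) l :=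
  Vale.Agent.P157.Par.continuous_ET (continuous_wp P β hs lam v u)
    (fun g p => wp_pos P (fun x => wgt_pos β s lam v g x) u p) P.R _ fun _ => continuous_const

lemma eb_vsk (P : Par) [NeZero n] (β : ℝ) {s : ℝ} (hs : 0 < kap s) (lam : ℝ) (v : Cfg n → ℝ)
    (u : P.Grid) : EB fun g : Edge n → ℝ => Vsk β P.R (qlev P.R (P.wp (wgt β s lam v g) u) (spinAt P.R)) := by
  obtain ⟨hc, C, hC⟩ := vsk_cont β P.one_le (X := Edge n → ℝ)
    (fun g => (qlev_wgt_prof P β s lam v g u).1) fun l => continuous_qlev P β hs lam v u l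
  exact EB.of_le (EB.const C) hc hC

end Vale.Agent.P146.Lower.Res
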