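import Vale.Agent.P146.Lower.Res.Tau
import Vale.Agent.P146.Lower.Res.Eb

/-! P146, polynomial lower bound: the drop of the deformed log partition function has variance `O(n / s^8)`. -/

open MeasureTheory Finset Real Matrix
open Vale.Agent.P150 (gauss)

noncomputable section

namespace Vale.Agent.P146.Lower.Res

variable {n : ℕ}

/-- derivative of the test form at a configuration, times `√n` -/
def dpb (s : ℝ) (g : Edge n → ℝ) (e : Edge n) (x : Cfg n) : ℝ :=
  -(2 * ((Gc s g *ᵥ cv x) e.1.1 * (Gc s g *ᵥ cv x) e.1.2)).im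

/-- derivative of the exponent -/
def dX (β s t : ℝ) (g : Edge n → ℝ) (e : Edge n) (x : Cfg n) : ℝ :=
  β * (bond x e / √(n : ℝ)) + t * (dpb s g e x / √(n : ℝ))

/-- gradient of `lz` -/
def dlz (β s t : ℝ) (g : Edge n → ℝ) (e : Edge n) : ℝ :=
  (∑ x, wgt β s t 0 g x * dX β s t g e x) / ∑ x, wgt β s t 0 g x

section

variable {s : ℝ} (hs : 0 < kap s)
include hs

lemma hasDerivAt_pb (g : Edge n → ℝ) (e : Edge n) (x : Cfg n) :
    HasDerivAt (fun r => pb s (Function.update g e r) x x) (dpb s g e x / √(n : ℝ)) (g e) := by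
  have h := HasDerivAt.fun_sum (u := univ) fun a _ => HasDerivAt.fun_sum (u := univ) fun b _ =>
    ((((Complex.imCLM.hasFDerivAt.comp_hasDerivAt (g e) (hasDerivAt_Gc hs g e a b)).neg).const_mul
      (spin (x a))).mul_const (spin (x b)))
  refine h.congr_deriv ?_
  set u := Gc s g *ᵥ cv x with hu
  have e1 : ∀ p q : Fin n, ∑ a, ∑ b, cv x a * (Gc s g a p * Gc s g q b) * cv x b = u p * u q := fun p q => by
    simp only [hu, Matrix.mulVec, dotProduct, sum_mul_sum]
    exact sum_congr rfl fun a _ => sum_congr rfl fun b _ => by rw [Gc_symm hs g a p]; ring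
  have e2 : ∑ a, ∑ b, cv x a * (Gc s g * Ee e * Gc s g) a b * cv x b = 2 * (u e.1.1 * u e.1.2) := by
    simp only [Ee_sandwich, mul_add, add_mul, sum_add_distrib, e1]; ring
  rw [dpb, ← e2, Complex.im_sum, ← sum_neg_distrib, sum_div]
  refine sum_congr rfl fun a _ => ?_
  rw [Complex.im_sum, ← sum_neg_distrib, sum_div]
  refine sum_congr rfl fun b _ => ?_
  simp only [cv, Complex.imCLM_apply, Complex.div_ofReal_im, Complex.mul_im, Complex.ofReal_re,
    Complex.ofReal_im, Complex.mul_re]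
  ring

lemma hasDerivAt_wgt (β t : ℝ) (g : Edge n → ℝ) (e : Edge n) (x : Cfg n) :
    HasDerivAt (fun r => wgt β s t 0 (Function.update g e r) x)
      (wgt β s t 0 g x * dX β s t g e x) (g e) := by
  have h3 := ((((hasDerivAt_energy g e x (g e)).const_mul β).fun_add
    ((hasDerivAt_pb hs g e x).const_mul t)).add_const ((0 : Cfg n → ℝ) x)).exp
  simp only [Function.update_eq_self] at h3
  exact h3

lemma hasDerivAt_lz (β t : ℝ) (g : Edge n → ℝ) (e : Edge n) :
    HasDerivAt (fun r => lz β s t (Function.update g e r)) (dlz β s t g e) (g e) := by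
  have hc : (Fintype.card (Cfg n) : ℝ) ≠ 0 := Nat.cast_ne_zero.2 Fintype.card_ne_zero
  have hp : (0:ℝ) < ∑ x : Cfg n, wgt β s t 0 g x := sum_pos (fun x _ => wgt_pos β s t 0 g x) univ_nonempty
  have h : HasDerivAt (fun r => Vale.Agent.P168.MP.avg (wgt β s t 0 (Function.update g e r)))
      ((∑ x, wgt β s t 0 g x * dX β s t g e x) / (Fintype.card (Cfg n) : ℝ)) (g e) :=
    (HasDerivAt.fun_sum fun x _ => hasDerivAt_wgt hs β t g e x).div_const _
  refine (h.log ?_).congr_deriv ?_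
  · exact (Vale.Agent.P168.MP.avg_pos fun x => wgt_pos β s t 0 _ x).ne'
  · simp only [Function.update_eq_self, Vale.Agent.P168.MP.avg, dlz]
    field_simp

lemma differentiable_lz (β t : ℝ) : Differentiable ℝ (lz (n := n) β s t) := by
  have hw : ∀ x : Cfg n, Differentiable ℝ fun g : Edge n → ℝ => wgt β s t 0 g x := fun x => by
    have hb : Differentiable ℝ fun g : Edge n → ℝ => pb s g x x := by
      simp only [pb, bil, Pm]
      exact Differentiable.fun_sum fun a _ => Differentiable.fun_sum fun b _ =>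
        (((Complex.imCLM.differentiable.comp (differentiable_Gc hs a b)).fun_neg).const_mul _).mul_const _
    have he : Differentiable ℝ fun g : Edge n → ℝ => energy g x := by unfold energy; fun_prop
    exact (((he.const_mul β).fun_add (hb.const_mul t)).add_const _).exp
  refine Differentiable.log ?_ fun g => (Vale.Agent.P168.MP.avg_pos fun x => wgt_pos β s t 0 g x).ne'
  simp only [Vale.Agent.P168.MP.avg, div_eq_mul_inv]
  exact (Differentiable.fun_sum fun x _ => hw x).mul_const _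

lemma sum_dX_sq_le (β t : ℝ) (hn : 1 ≤ n) (g : Edge n → ℝ) (x : Cfg n) :
    ∑ e, dX β s t g e x ^ 2 ≤ (2 * β ^ 2 + 4 * t ^ 2 / kap s ^ 4) * n := by
  have hn0 : (0 : ℝ) < n := by exact_mod_cast hn
  set u := Gc s g *ᵥ cv x with hu
  have hU : ∑ a, ‖u a‖ ^ 2 ≤ n / kap s ^ 2 := by
    have h := pow_le_pow_left₀ (cn_nonneg _) (cn_Gc hs g (cv x)) 2
    rwa [cn_cv, cn_sq, div_pow, Real.sq_sqrt hn0.le] at h
  have hcard : (Fintype.card (Edge n) : ℝ) ≤ n * n := by
    have h := Fintype.card_subtype_le fun p : Fin n × Fin n => p.1 < p.2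
    simp only [Fintype.card_prod, Fintype.card_fin] at h
    exact_mod_cast h
  have h2 := Test.two_sum_edge_le (fun a b => (‖u a‖ * ‖u b‖) ^ 2) (fun a b => by ring) fun a => sq_nonneg _
  have h3 : ∑ a, ∑ b, (‖u a‖ * ‖u b‖) ^ 2 ≤ ((n : ℝ) / kap s ^ 2) ^ 2 := by
    simp only [mul_pow, ← sum_mul_sum]
    rw [sq ((n : ℝ) / kap s ^ 2)]
    exact mul_le_mul hU hU (sum_nonneg fun _ _ => sq_nonneg _) (by positivity)
  have h1 : ∀ e : Edge n, dX β s t g e x ^ 2 ≤
      2 * β ^ 2 / n + 8 * t ^ 2 / n * (‖u e.1.1‖ * ‖u e.1.2‖) ^ 2 := fun e => by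
    refine add_sq_le.trans ?_
    rw [mul_add, mul_pow, div_pow, mul_pow, div_pow, sq_sqrt hn0.le,
      show bond x e ^ 2 = 1 by rw [← sq_abs, abs_bond, one_pow]]
    refine add_le_add (le_of_eq (by ring)) ?_
    have h : dpb s g e x ^ 2 ≤ 4 * (‖u e.1.1‖ * ‖u e.1.2‖) ^ 2 := by
      rw [dpb, neg_sq, ← sq_abs]
      refine (pow_le_pow_left₀ (abs_nonneg _) (Complex.abs_im_le_norm _) 2).trans_eq ?_
      rw [norm_mul, norm_mul, Complex.norm_ofNat]; ring
    have := mul_le_mul_of_nonneg_left h (show 0 ≤ 2 * t ^ 2 / (n : ℝ) by positivity)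
    calc 2 * (t ^ 2 * (dpb s g e x ^ 2 / n)) = 2 * t ^ 2 / n * dpb s g e x ^ 2 := by ring
      _ ≤ _ := this
      _ = _ := by ring
  refine (sum_le_sum fun e _ => h1 e).trans ?_
  rw [sum_add_distrib, sum_const, card_univ, nsmul_eq_mul, ← mul_sum]
  refine (add_le_add (mul_le_mul_of_nonneg_right hcard (by positivity))
    (mul_le_mul_of_nonneg_left (show ∑ e : Edge n, (‖u e.1.1‖ * ‖u e.1.2‖) ^ 2 ≤
      ((n : ℝ) / kap s ^ 2) ^ 2 / 2 by linarith) (by positivity))).trans (le_of_eq ?_)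
  field_simp
  ring

omit hs in
lemma sq_dlz_le (β t : ℝ) (g : Edge n → ℝ) (e : Edge n) :
    dlz β s t g e ^ 2 ≤ (∑ x, wgt β s t 0 g x * dX β s t g e x ^ 2) / ∑ x, wgt β s t 0 g x := by
  set w := fun x => wgt β s t 0 g x
  set D := fun x => dX β s t g e x
  have hw : ∀ x, 0 ≤ w x := fun x => (wgt_pos β s t 0 g x).le
  have hp : (0:ℝ) < ∑ x : Cfg n, w x := sum_pos (fun x _ => wgt_pos β s t 0 g x) univ_nonempty
  have h := sum_mul_sq_le_sq_mul_sq univ (fun x => √(w x)) fun x => √(w x) * D x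
  have e1 : ∑ x, √(w x) * (√(w x) * D x) = ∑ x, w x * D x :=
    sum_congr rfl fun x _ => by rw [← mul_assoc, mul_self_sqrt (hw x)]
  have e2 : ∑ x, √(w x) ^ 2 = ∑ x, w x := sum_congr rfl fun x _ => sq_sqrt (hw x)
  have e3 : ∑ x, (√(w x) * D x) ^ 2 = ∑ x, w x * D x ^ 2 :=
    sum_congr rfl fun x _ => by rw [mul_pow, sq_sqrt (hw x)]
  rw [e1, e2, e3] at h
  show (_ / _) ^ 2 ≤ _
  rw [div_pow, div_le_div_iff₀ (by positivity) hp]
  nlinarith [mul_le_mul_of_nonneg_right h hp.le]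

lemma sum_dlz_sq_le (β t : ℝ) (hn : 1 ≤ n) (g : Edge n → ℝ) :
    ∑ e, dlz β s t g e ^ 2 ≤ (2 * β ^ 2 + 4 * t ^ 2 / kap s ^ 4) * n := by
  refine (sum_le_sum fun e _ => sq_dlz_le β t g e).trans ?_
  rw [← sum_div, sum_comm, div_le_iff₀ (sum_pos (fun x _ => wgt_pos β s t 0 g x) univ_nonempty), mul_sum]
  refine sum_le_sum fun x _ => ?_
  rw [← mul_sum, mul_comm _ (wgt β s t 0 g x)]
  exact mul_le_mul_of_nonneg_left (sum_dX_sq_le hs β t hn g x) (wgt_pos β s t 0 g x).le

lemma eb_dlz (β t : ℝ) (hn : 1 ≤ n) (e : Edge n) : EB fun g => dlz β s t g e := by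
  refine EB.of_le (EB.const (√((2 * β ^ 2 + 4 * t ^ 2 / kap s ^ 4) * n))) ?_ fun g => ?_
  · have hX : ∀ x : Cfg n, Continuous fun g => dX β s t g e x := fun x => by
      have hu : ∀ a, Continuous fun g : Edge n → ℝ => (Gc s g *ᵥ cv x) a := fun a => by
        simp only [Matrix.mulVec, dotProduct]
        exact continuous_finsetSum _ fun b _ => (continuous_Gc hs a b).mul continuous_const
      simp only [dX, dpb]
      exact continuous_const.add (continuous_const.mul
        ((Complex.continuous_im.comp (continuous_const.mul ((hu _).mul (hu _)))).neg.div_const _))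
    exact (continuous_finsetSum _ fun x _ => (continuous_wgt β hs t 0 x).mul (hX x)).div
      (continuous_finsetSum _ fun x _ => continuous_wgt β hs t 0 x)
      fun g => (sum_pos (fun x _ => wgt_pos β s t 0 g x) univ_nonempty).ne'
  · refine Real.abs_le_sqrt ?_
    exact (single_le_sum (f := fun e => dlz β s t g e ^ 2) (fun _ _ => sq_nonneg _) (mem_univ e)).trans
      (sum_dlz_sq_le hs β t hn g)

/-- the drop has variance `O(n / κ^4)` -/
lemma var_drop (β w : ℝ) (hn : 1 ≤ n) :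
    ∫ g : Edge n → ℝ, ((lz β s 0 g - lz β s (-w) g) - drop n β s w) ^ 2 ∂gauss (Edge n) ≤
      (8 * β ^ 2 + 8 * w ^ 2 / kap s ^ 4) * n := by
  refine (poincare_eb (f' := fun g e => dlz β s 0 g e - dlz β s (-w) g e)
    ((eb_lz β hs 0).sub (eb_lz β hs (-w))) (fun e => (eb_dlz hs β 0 hn e).sub (eb_dlz hs β (-w) hn e))
    ((differentiable_lz hs β 0).fun_sub (differentiable_lz hs β (-w)))
    fun g e => (hasDerivAt_lz hs β 0 g e).fun_sub (hasDerivAt_lz hs β (-w) g e)).trans ?_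
  refine (integral_mono (EB.sum univ fun e _ => by
    simpa only [sq] using ((eb_dlz hs β 0 hn e).sub (eb_dlz hs β (-w) hn e)).mul
      ((eb_dlz hs β 0 hn e).sub (eb_dlz hs β (-w) hn e))).integrable (integrable_const _) fun g => ?_).trans_eq
    (by simp : ∫ _ : Edge n → ℝ, (8 * β ^ 2 + 8 * w ^ 2 / kap s ^ 4) * (n : ℝ) ∂gauss (Edge n) = _)
  calc ∑ e, (dlz β s 0 g e - dlz β s (-w) g e) ^ 2
      ≤ ∑ e, (2 * dlz β s 0 g e ^ 2 + 2 * dlz β s (-w) g e ^ 2) :=
        sum_le_sum fun e _ => by nlinarith [sq_nonneg (dlz β s 0 g e + dlz β s (-w) g e)]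
    _ ≤ _ := by
        rw [sum_add_distrib, ← mul_sum, ← mul_sum]
        refine (add_le_add (mul_le_mul_of_nonneg_left (sum_dlz_sq_le hs β 0 hn g) two_pos.le)
          (mul_le_mul_of_nonneg_left (sum_dlz_sq_le hs β (-w) hn g) two_pos.le)).trans (le_of_eq ?_)
        ring

end

end Vale.Agent.P146.Lower.Res
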