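import Vale.Agent.P146.Lower.Res.Field
import Vale.Agent.P146.Lower.Res.Drop
import Vale.Agent.P146.Lower.Anti

/-! P146, polynomial lower bound: the resolvent field against `M arctan ((F - c) / M)`. A free-energy drop makes
the probability of every interval of length `2 M` small, with constants depending on `β` only. -/

open MeasureTheory Finset Real Matrix ProbabilityTheory
open Vale.Agent.P150 (gauss)

noncomputable section

namespace Vale.Agent.P146.Lower.Res

variable {n : ℕ}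

lemma eb_sq_norm_sub {s : ℝ} (hs : 0 < kap s) (x : ℂ) : EB fun g : Edge n → ℝ => ‖tauC s g - x‖ ^ 2 := by
  simp only [Complex.sq_norm, Complex.normSq_apply, Complex.sub_re, Complex.sub_im]
  exact (((eb_re_tauC hs).sub (EB.const _)).mul ((eb_re_tauC hs).sub (EB.const _))).add
    (((eb_im_tauC hs).sub (EB.const _)).mul ((eb_im_tauC hs).sub (EB.const _)))

lemma lz_drop_le (β s w : ℝ) (g : Edge n → ℝ) :
    lz β s 0 g - lz β s (-w) g ≤ w * ∑ x, gibbs β g x * pb s g x x := by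
  have h := gibbs_tangent β g (fun x => pb s g x x) w
  have e0 : wgt β s 0 0 g = fun x : Cfg n => exp (β * energy g x) := funext fun x => by simp [wgt]
  have e1 : wgt β s (-w) 0 g = fun x : Cfg n => exp (β * energy g x - w * pb s g x x) :=
    funext fun x => by simp [wgt, sub_eq_add_neg]
  simpa only [lz, e0, e1] using h

/-- the Gibbs mean of the test against the field -/
lemma field_gibbs {s : ℝ} (hs : 0 < kap s) (hn : 1 ≤ n) (β : ℝ) (g : Edge n → ℝ) :
    ∑ e, fieldR s e g * (β / √(n : ℝ) * Vale.Agent.P146.mean β g e) =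
      β / (2 * n) * (∑ x, gibbs β g x * pb s g x x) - β / 2 * -(tauC s g).im := by
  have hn0 : (0 : ℝ) < n := by exact_mod_cast hn
  have hsym : ∀ a b, Pm s g a b = Pm s g b a := fun a b => by simp only [Pm, Gc_symm hs g a b]
  have htr : (Pm s g).trace = n * -(tauC s g).im := by
    rw [tauC, Complex.div_natCast_im, mul_neg, mul_div_cancel₀ _ hn0.ne', Matrix.trace, Matrix.trace,
      Complex.im_sum, ← sum_neg_distrib]
    rfl
  simp only [pb, Test.bil_self_eq _ hsym, mul_add, sum_add_distrib, ← sum_mul, sum_gibbs, one_mul, htr]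
  rw [show ∑ x : Cfg n, gibbs β g x * (2 * ∑ e : Edge n, Pm s g e.1.1 e.1.2 * bond x e) =
    2 * ∑ e : Edge n, Pm s g e.1.1 e.1.2 * Vale.Agent.P146.mean β g e by
      simp only [mul_sum, Vale.Agent.P146.mean]
      rw [sum_comm]
      exact sum_congr rfl fun e _ => sum_congr rfl fun x _ => by ring]
  have hs' := Real.mul_self_sqrt hn0.le
  rw [show β / (2 * (n : ℝ)) * (n * -(tauC s g).im) = β / 2 * -(tauC s g).im by field_simp,
    add_sub_cancel_left, mul_sum, mul_sum]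
  exact sum_congr rfl fun e _ => by
    rw [fieldR]
    calc Pm s g e.1.1 e.1.2 / √(n : ℝ) * (β / √(n : ℝ) * Vale.Agent.P146.mean β g e)
        = Pm s g e.1.1 e.1.2 * β * Vale.Agent.P146.mean β g e / (√(n : ℝ) * √(n : ℝ)) := by ring
      _ = _ := by rw [hs']; ring

lemma inv_pow_le {s : ℝ} (hs0 : 0 < s) (hs1 : s ≤ 1) (hn : 1 ≤ n) {k : ℕ} (hk : k ≤ 20) :
    1 / (s ^ k * √(n : ℝ)) ≤ 1 / (s ^ 20 * √(n : ℝ)) := by
  have : (0:ℝ) < n := by exact_mod_cast hn
  exact one_div_le_one_div_of_le (by positivity)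
    (mul_le_mul_of_nonneg_right (pow_le_pow_of_le_one hs0.le hs1 hk) (Real.sqrt_nonneg _))

lemma inv_pow_w_le {s w : ℝ} (hs0 : 0 < s) (hw : 0 < w) (hw1 : w ≤ 1) (hn : 1 ≤ n) :
    1 / (s ^ 20 * √(n : ℝ)) ≤ 1 / (w * s ^ 20 * √(n : ℝ)) := by
  have : (0:ℝ) < n := by exact_mod_cast hn
  exact one_div_le_one_div_of_le (by positivity)
    (mul_le_mul_of_nonneg_right (mul_le_of_le_one_left (by positivity) hw1) (Real.sqrt_nonneg _))

lemma abs_im_inv_zeta {s : ℝ} (hs0 : 0 < s) : |((zeta s)⁻¹).im| ≤ s := by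
  rw [Complex.inv_im, normSq_zeta, abs_div, abs_neg, abs_of_pos (show 0 < (1 + s) ^ 2 + s ^ 2 by positivity)]
  simp only [zeta, abs_of_pos hs0]
  exact div_le_self hs0.le (by nlinarith)

section

variable {s : ℝ} (hs0 : 0 < s) (hs1 : s ≤ 1 / 4) (hn : 1 ≤ n) {Ct : ℝ} (hCt : 0 ≤ Ct)
  (hτ2 : ∫ g : Edge n → ℝ, ‖tauC s g - (zeta s)⁻¹‖ ^ 2 ∂gauss (Edge n) ≤ Ct / (s ^ 20 * n))
include hs0 hs1 hn hCt hτ2

/-- the divergence in `L¹` -/
lemma dvg_abs_le : ∫ g, |Test.dvg (fieldR s) g| ∂gauss (Edge n) ≤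
    √(11 / 4 + 5 / 2 * Ct) * (1 / s * (1 + 1 / (s ^ 20 * √(n : ℝ)))) := by
  obtain ⟨hk2, -, hk0⟩ := kap_bounds hs0 hs1
  have hn0 : (0:ℝ) < n := by exact_mod_cast hn
  have hss : s ≤ 1 := by linarith
  have hbi := abs_im_inv_zeta hs0
  set b := (zeta s)⁻¹
  set A := √(11 / 4 + 5 / 2 * Ct) with hA
  set X := 1 / (s ^ 20 * √(n : ℝ)) with hX
  have hX0 : 0 ≤ X := by positivity
  have ebN := eb_sq_norm_sub (n := n) hk0 b
  have hV : ∀ e : Edge n, RPoly s (fieldR s e) := rpoly_fieldR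
  have hDv := (rpoly_dvg hk0 hV).eb hk0
  suffices hdiv : ∫ g, Test.dvg (fieldR s) g ^ 2 ∂gauss (Edge n) ≤ (A * (1 / s * (1 + X))) ^ 2 by
    exact (integral_abs_le_sqrt hDv).trans ((Real.sqrt_le_sqrt hdiv).trans_eq (Real.sqrt_sq (by positivity)))
  refine (integral_dvg_sq_le hk0 hV).trans ?_
  have hpt : ∀ g : Edge n → ℝ, ∑ e, fieldR s e g ^ 2 + ∑ e, ∑ f, Test.pd f (fieldR s e) g ^ 2 ≤
      1 / 4 + 5 / 2 / s ^ 2 + 5 / 2 / s ^ 4 * ‖tauC s g - b‖ ^ 2 := fun g => by
    refine (sum_sq_fieldR_le hk0 hn g).trans ?_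
    set Z := -(tauC s g).im / kap s with hZ
    have hZ2 : Z ^ 2 ≤ 2 / s ^ 2 + 2 / s ^ 4 * ‖tauC s g - b‖ ^ 2 := by
      rw [hZ, div_pow, neg_sq, ← sq_abs]
      have h1 : |(tauC s g).im| ≤ s + ‖tauC s g - b‖ := by
        have h := Complex.abs_im_le_norm (tauC s g - b)
        rw [Complex.sub_im] at h
        linarith [abs_sub_abs_le_abs_sub (tauC s g).im b.im]
      calc |(tauC s g).im| ^ 2 / kap s ^ 2 ≤ (2 * s ^ 2 + 2 * ‖tauC s g - b‖ ^ 2) / (s ^ 2) ^ 2 := by
            gcongr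
            refine (pow_le_pow_left₀ (abs_nonneg _) h1 2).trans (add_sq_le.trans_eq ?_)
            ring
        _ = _ := by field_simp
    calc Z / 2 + Z ^ 2 ≤ 1 / 4 + 5 / 4 * Z ^ 2 := by nlinarith [sq_nonneg (Z - 1)]
      _ ≤ 1 / 4 + 5 / 4 * (2 / s ^ 2 + 2 / s ^ 4 * ‖tauC s g - b‖ ^ 2) := by linarith
      _ = _ := by ring
  refine (integral_mono (eb_sum_sq hk0 hV).integrable
    (((EB.const (1 / 4 + 5 / 2 / s ^ 2)).add ((EB.const (5 / 2 / s ^ 4)).mul ebN)).integrable) hpt).trans ?_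
  rw [integral_add (integrable_const _) (ebN.integrable.const_mul _), integral_const_mul, integral_const]
  simp only [probReal_univ, one_smul]
  have h2 : 1 / (s ^ 24 * n) ≤ (1 / s * X) ^ 2 := by
    rw [hX, mul_pow, div_pow, div_pow, mul_pow, Real.sq_sqrt hn0.le, ← pow_mul, one_pow, div_mul_div_comm,
      one_mul, ← mul_assoc, ← pow_add]
    gcongr 1 / (?_ * _)
    exact pow_le_pow_of_le_one hs0.le hss (by norm_num)
  have h3 : 1 / s ^ 2 ≤ (1 / s) ^ 2 := by rw [div_pow, one_pow]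
  have h4 : (1:ℝ) ≤ (1 / s) ^ 2 := one_le_pow₀ (by rw [le_div_iff₀ hs0]; linarith)
  have h5 : 5 / 2 / s ^ 4 * (Ct / (s ^ 20 * n)) = 5 / 2 * Ct * (1 / (s ^ 24 * n)) := by
    field_simp
  have h6 := mul_le_mul_of_nonneg_left hτ2 (show 0 ≤ 5 / 2 / s ^ 4 by positivity)
  rw [h5] at h6
  have h7 := mul_le_mul_of_nonneg_left h2 (show 0 ≤ 5 / 2 * Ct by positivity)
  rw [mul_pow, hA, Real.sq_sqrt (by positivity)]
  have h8 : (1 / s) ^ 2 + (1 / s * X) ^ 2 ≤ (1 / s * (1 + X)) ^ 2 := by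
    nlinarith [mul_nonneg (sq_nonneg (1 / s)) hX0]
  have h9 := mul_le_mul_of_nonneg_left h8 (show 0 ≤ 11 / 4 + 5 / 2 * Ct by positivity)
  have : 5 / 2 / s ^ 2 = 5 / 2 * (1 / s) ^ 2 := by rw [div_pow, one_pow, mul_one_div]
  linarith [mul_nonneg hCt (sq_nonneg (1 / s)), sq_nonneg (1 / s * X)]

/-- the trace term in `L¹` -/
lemma trace_abs_le {β : ℝ} (hβ : 0 ≤ β) :
    ∫ g : Edge n → ℝ, |β / 2 * -(tauC s g).im| ∂gauss (Edge n) ≤
      β / 2 * (1 + √Ct * (1 / (s ^ 20 * √(n : ℝ)))) := by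
  obtain ⟨-, -, hk0⟩ := kap_bounds hs0 hs1
  have hn0 : (0:ℝ) < n := by exact_mod_cast hn
  have hss : s ≤ 1 := by linarith
  have hbi := abs_im_inv_zeta hs0
  set b := (zeta s)⁻¹
  have ebN := eb_sq_norm_sub (n := n) hk0 b
  set T : (Edge n → ℝ) → ℝ := fun g => β / 2 * -(tauC s g).im with hT
  have hEBT : EB T := by
    simpa [hT] using (EB.const (β / 2)).mul ((EB.const (-1)).mul (eb_im_tauC hk0))
  change ∫ g, |T g| ∂gauss (Edge n) ≤ _
  have hab : ∀ g, |T g| ≤ β / 2 * (1 + |‖tauC s g - b‖|) := fun g => by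
    rw [hT, abs_mul, abs_of_nonneg (show 0 ≤ β / 2 by positivity), abs_neg, abs_norm]
    refine mul_le_mul_of_nonneg_left ?_ (by positivity)
    have h := Complex.abs_im_le_norm (tauC s g - b)
    rw [Complex.sub_im] at h
    linarith [abs_sub_abs_le_abs_sub (tauC s g).im b.im]
  have ebn : EB fun g : Edge n → ℝ => ‖tauC s g - b‖ :=
    EB.of_le ((EB.const (1:ℝ)).add ebN) ((differentiable_tauC hk0).continuous.sub continuous_const).norm
      fun g => by rw [abs_norm]; nlinarith [sq_nonneg (‖tauC s g - b‖ - 1)]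
  refine (integral_mono (EB.abs' hEBT).integrable ((EB.const (β / 2)).mul ((EB.const (1:ℝ)).add (EB.abs' ebn))).integrable
    hab).trans ?_
  rw [integral_const_mul, integral_add (integrable_const _) (EB.abs' ebn).integrable, integral_const]
  simp only [probReal_univ, one_smul]
  refine mul_le_mul_of_nonneg_left (add_le_add le_rfl ?_) (by positivity)
  refine ((integral_abs_le_sqrt ebn).trans (Real.sqrt_le_sqrt hτ2)).trans ?_
  rw [Real.sqrt_div hCt, show s ^ 20 * (n : ℝ) = (s ^ 10) ^ 2 * n by ring, Real.sqrt_mul (by positivity),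
    Real.sqrt_sq (by positivity), div_eq_mul_one_div]
  exact mul_le_mul_of_nonneg_left (inv_pow_le hs0 hss hn (by norm_num)) (Real.sqrt_nonneg _)

end

/-- the deviation of the drop in `L¹` -/
lemma drop_dev_le {β : ℝ} (hβ : 0 ≤ β) {s w : ℝ} (hs0 : 0 < s) (hs1 : s ≤ 1 / 4) (hw : 0 < w) (hw1 : w ≤ 1)
    (hn : 1 ≤ n) :
    β / (2 * n * w) * ∫ g, |lz β s 0 g - lz β s (-w) g - drop n β s w| ∂gauss (Edge n) ≤
      β * √(8 * β ^ 2 + 8) / 2 * (1 / (w * s ^ 20 * √(n : ℝ))) := by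
  obtain ⟨hk2, -, hk0⟩ := kap_bounds hs0 hs1
  have hn0 : (0:ℝ) < n := by exact_mod_cast hn
  have hss : s ≤ 1 := by linarith
  have ebDc : EB fun g : Edge n → ℝ => lz β s 0 g - lz β s (-w) g - drop n β s w :=
    ((eb_lz β hk0 0).sub (eb_lz β hk0 (-w))).sub (EB.const _)
  set k := β / (2 * n * w) with hk
  have hk' : 0 ≤ k := by positivity
  have h := (integral_abs_le_sqrt ebDc).trans (Real.sqrt_le_sqrt (var_drop hk0 β w hn))
  have hvar : (8 * β ^ 2 + 8 * w ^ 2 / kap s ^ 4) * n ≤ (8 * β ^ 2 + 8) / (s ^ 4) ^ 2 * n := by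
    gcongr
    rw [add_div]
    refine add_le_add (le_div_self (by positivity) (by positivity) (pow_le_one₀ (by positivity)
      (pow_le_one₀ hs0.le hss))) ?_
    gcongr
    · exact mul_le_of_le_one_right (by norm_num) (pow_le_one₀ hw.le hw1)
    · rw [← pow_mul, show (4:ℕ) * 2 = 2 * 4 by norm_num, pow_mul]
      exact pow_le_pow_left₀ (by positivity) hk2 4
  have h' := h.trans (Real.sqrt_le_sqrt hvar)
  rw [Real.sqrt_mul (by positivity), Real.sqrt_div (by positivity), Real.sqrt_sq (by positivity)] at h'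
  refine (mul_le_mul_of_nonneg_left h' hk').trans ?_
  have e : k * (√(8 * β ^ 2 + 8) / s ^ 4 * √(n : ℝ)) =
      β * √(8 * β ^ 2 + 8) / 2 * (1 / w * (1 / (s ^ 4 * √(n : ℝ)))) := by
    rw [hk]; field_simp; rw [Real.sq_sqrt hn0.le]
  rw [e]
  refine mul_le_mul_of_nonneg_left ((mul_le_mul_of_nonneg_left (inv_pow_le hs0 hss hn (show 4 ≤ 20 by norm_num))
    (by positivity)).trans_eq ?_)
    (by positivity)
  field_simp

/-- **A drop spreads the free energy** -/
theorem anti_bound {β : ℝ} (hβ : 0 ≤ β) : ∃ C : ℝ, 0 ≤ C ∧ ∀ (n : ℕ), 1 ≤ n → ∀ (s w : ℝ),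
    0 < s → s ≤ 1 / 4 → 0 < w → w ≤ 1 → ∀ c M : ℝ, 0 < M →
      β / (2 * n * w) * drop n β s w * (gauss (Edge n)).real {g | |Vale.Agent.P146.free β g - c| ≤ M} ≤
        C * (M / s * (1 + 1 / (s ^ 20 * √(n : ℝ))) + 1 + 1 / (w * s ^ 20 * √(n : ℝ))) := by
  obtain ⟨Ct, hCt, hτ⟩ := tau_close
  refine ⟨π * √(11 / 4 + 5 / 2 * Ct) + β + β * √Ct + β * √(8 * β ^ 2 + 8), by positivity,
    fun n hn s w hs0 hs1 hw hw1 c M hM0 => ?_⟩
  obtain ⟨hk2, hk1, hk0⟩ := kap_bounds hs0 hs1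
  have hn0 : (0:ℝ) < n := by exact_mod_cast hn
  have hn1 : (1:ℝ) ≤ n := by exact_mod_cast hn
  have hsn : 0 < √(n : ℝ) := Real.sqrt_pos.2 hn0
  have hss : s ≤ 1 := by linarith
  set X := 1 / (s ^ 20 * √(n : ℝ)) with hX
  set Y := 1 / (w * s ^ 20 * √(n : ℝ)) with hY
  have hX0 : 0 ≤ X := by positivity
  have hY0 : 0 ≤ Y := by positivity
  have hXY : X ≤ Y := inv_pow_w_le hs0 hw hw1 hn
  have hτ2 := hτ n hn s hs0 hs1
  have hV : ∀ e : Edge n, RPoly s (fieldR s e) := rpoly_fieldR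
  have hDv := (rpoly_dvg hk0 hV).eb hk0
  have hF : EB (Vale.Agent.P146.free (n := n) β) := eb_dFree β []
  have hm : ∀ e : Edge n, EB fun g => β / √(n : ℝ) * Vale.Agent.P146.mean β g e := fun e => by
    have h : dFree β [e] = fun g : Edge n → ℝ => β / √(n : ℝ) * Vale.Agent.P146.mean β g e := funext fun g => by
      show deriv (fun t => Vale.Agent.P146.free β (Function.update g e t)) (g e) = _
      rw [(hasDerivAt_free β g e (g e)).deriv, Function.update_eq_self]
    exact h ▸ eb_dFree β [e]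
  set u : (Edge n → ℝ) → ℝ := fun g => (Vale.Agent.P146.free β g - c) / M with hu
  set ψ : (Edge n → ℝ) → ℝ := fun g => M * arctan (u g) with hψ
  set ψ' : (Edge n → ℝ) → ℝ := fun g => 1 / (1 + u g ^ 2) with hψ'
  have huc : Continuous u := (hF.1.sub continuous_const).div_const M
  have hψ1 : ∀ g, 0 ≤ ψ' g ∧ ψ' g ≤ 1 := fun g =>
    ⟨by positivity, by rw [hψ', div_le_one (by positivity)]; nlinarith [sq_nonneg (u g)]⟩
  have hψb : ∀ g, |ψ g| ≤ π * M / 2 := fun g => by
    rw [hψ, abs_mul, abs_of_pos hM0]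
    have : |arctan (u g)| ≤ π / 2 := abs_le.2 ⟨(neg_pi_div_two_lt_arctan _).le, (arctan_lt_pi_div_two _).le⟩
    calc M * |arctan (u g)| ≤ M * (π / 2) := mul_le_mul_of_nonneg_left this hM0.le
      _ = _ := by ring
  have ebψ : EB ψ := EB.of_le (EB.const _) (continuous_const.mul (continuous_arctan.comp huc)) hψb
  have ebψ' : EB ψ' := EB.of_le (EB.const 1)
    (continuous_const.div (continuous_const.add (huc.pow 2)) fun g => by positivity)
    fun g => by rw [abs_of_nonneg (hψ1 g).1]; exact (hψ1 g).2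
  -- the test identity
  set G : (Edge n → ℝ) → ℝ := fun g => ∑ x : Cfg n, gibbs β g x * pb s g x x with hG
  set T : (Edge n → ℝ) → ℝ := fun g => β / 2 * -(tauC s g).im with hT
  have hEBT : EB T := by
    simpa [hT] using (EB.const (β / 2)).mul ((EB.const (-1)).mul (eb_im_tauC hk0))
  have hSG : ∀ g, ∑ e, fieldR s e g * (β / √(n : ℝ) * Vale.Agent.P146.mean β g e) = β / (2 * n) * G g - T g :=
    fun g => field_gibbs hk0 hn β g
  have hEBG : EB fun g => β / (2 * n) * G g - T g := by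
    rw [← funext hSG]; exact EB.sum _ fun e _ => ((hV e).eb hk0).mul (hm e)
  have key : ∫ g, Test.dvg (fieldR s) g * ψ g ∂gauss (Edge n) =
      ∫ g, ψ' g * (β / (2 * n) * G g - T g) ∂gauss (Edge n) := by
    rw [integral_dvg_mul hk0 hV ebψ (G' := fun e g => ψ' g * (β / √(n : ℝ) * Vale.Agent.P146.mean β g e))
      (fun e => ebψ'.mul (hm e)) fun e z t => ?_]
    · rw [← integral_finsetSum _ fun e _ => (((hV e).eb hk0).mul (ebψ'.mul (hm e))).integrable]
      refine integral_congr_ae (Filter.Eventually.of_forall fun g => ?_)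
      simp only
      rw [← hSG, mul_sum]
      exact sum_congr rfl fun e _ => by ring
    · have h := ((((hasDerivAt_free β z e t).sub_const c).div_const M).arctan).const_mul M
      refine h.congr_deriv ?_
      simp only [hψ', hu]
      have := hM0.ne'
      field_simp
  -- the right-hand side
  set A := √(11 / 4 + 5 / 2 * Ct) with hA
  have hR : ∫ g, Test.dvg (fieldR s) g * ψ g ∂gauss (Edge n) ≤ π * M / 2 * (A * ((1 / s) * (1 + X))) := by
    refine (integral_mono (hDv.mul ebψ).integrable ((EB.const (π * M / 2)).mul (EB.abs' hDv)).integrable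
      fun g => ?_).trans ?_
    · refine (le_abs_self _).trans ?_
      rw [abs_mul, mul_comm]
      exact mul_le_mul_of_nonneg_right (hψb g) (abs_nonneg _)
    · rw [integral_const_mul]
      exact mul_le_mul_of_nonneg_left (dvg_abs_le hs0 hs1 hn hCt hτ2) (by positivity)
  -- the left-hand side
  set D : (Edge n → ℝ) → ℝ := fun g => lz β s 0 g - lz β s (-w) g with hD
  have ebD : EB D := (eb_lz β hk0 0).sub (eb_lz β hk0 (-w))
  set D₀ := drop n β s w with hD₀
  have ebDc : EB fun g => D g - D₀ := ebD.sub (EB.const _)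
  set k := β / (2 * n * w) with hk
  have hk' : 0 ≤ k := by positivity
  have hdev : k * ∫ g, |D g - D₀| ∂gauss (Edge n) ≤ β * √(8 * β ^ 2 + 8) / 2 * Y :=
    drop_dev_le hβ hs0 hs1 hw hw1 hn
  have hT' : ∫ g, |T g| ∂gauss (Edge n) ≤ β / 2 * (1 + √Ct * Y) :=
    (trace_abs_le hs0 hs1 hn hCt hτ2 hβ).trans (by gcongr)
  have hpt : ∀ g, ψ' g * (k * D₀) ≤
      ψ' g * (β / (2 * n) * G g - T g) + (|T g| + k * |D g - D₀|) := fun g => by
    obtain ⟨p0, p1⟩ := hψ1 g
    have h1 : k * D g ≤ β / (2 * n) * G g := by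
      refine (mul_le_mul_of_nonneg_left (lz_drop_le β s w g) hk').trans (le_of_eq ?_)
      simp only [hk, hG]; field_simp
    have h2 := mul_le_mul_of_nonneg_left h1 p0
    have h3 : ψ' g * T g ≤ |T g| :=
      (le_abs_self _).trans (by rw [abs_mul, abs_of_nonneg p0]; exact mul_le_of_le_one_left (abs_nonneg _) p1)
    have h4 : ψ' g * (k * (D₀ - D g)) ≤ k * |D g - D₀| := by
      refine (le_abs_self _).trans ?_
      rw [abs_mul, abs_of_nonneg p0, abs_mul, abs_of_nonneg hk', abs_sub_comm]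
      exact mul_le_of_le_one_left (by positivity) p1
    linarith
  have i1 := ebψ'.mul hEBG
  have i2 := (EB.abs' hEBT).add ((EB.const k).mul (EB.abs' ebDc))
  have hlow' : (k * D₀) * ∫ g, ψ' g ∂gauss (Edge n) ≤
      π * M / 2 * (A * ((1 / s) * (1 + X))) +
        (β / 2 * (1 + √Ct * Y) + β * √(8 * β ^ 2 + 8) / 2 * Y) := by
    have h := integral_mono (ebψ'.mul (EB.const (k * D₀))).integrable (i1.add i2).integrable hpt
    rw [integral_mul_const, integral_add i1.integrable i2.integrable,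
      integral_add (EB.abs' hEBT).integrable ((EB.const k).mul (EB.abs' ebDc)).integrable, integral_const_mul,
      ← key] at h
    linarith
  have hset : MeasurableSet {g : Edge n → ℝ | |Vale.Agent.P146.free β g - c| ≤ M} :=
    (isClosed_le ((hF.1.sub continuous_const).abs) continuous_const).measurableSet
  have hP : (gauss (Edge n)).real {g | |Vale.Agent.P146.free β g - c| ≤ M} ≤ 2 * ∫ g, ψ' g ∂gauss (Edge n) := by
    rw [← integral_indicator_one hset, ← integral_const_mul]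
    refine integral_mono ((integrable_const 1).indicator hset) (ebψ'.integrable.const_mul 2) fun g => ?_
    by_cases hg : g ∈ {g : Edge n → ℝ | |Vale.Agent.P146.free β g - c| ≤ M}
    · rw [Set.indicator_of_mem hg]
      simp only [Pi.one_apply, hψ']
      rw [mul_one_div, one_le_div (by positivity)]
      have : |u g| ≤ 1 := by
        simp only [hu]; rw [abs_div, abs_of_pos hM0, div_le_one hM0]; exact hg
      nlinarith [sq_abs (u g), abs_nonneg (u g)]
    · rw [Set.indicator_of_notMem hg]; exact mul_nonneg two_pos.le (hψ1 g).1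
  show k * D₀ * _ ≤ _
  have hMs : M * ((1 / s) * (1 + X)) = M / s * (1 + X) := by ring
  have hQ0 : 0 ≤ M / s * (1 + X) := by positivity
  have hfin : 2 * (π * M / 2 * (A * ((1 / s) * (1 + X))) +
        (β / 2 * (1 + √Ct * Y) + β * √(8 * β ^ 2 + 8) / 2 * Y)) ≤
      (π * A + β + β * √Ct + β * √(8 * β ^ 2 + 8)) * (M / s * (1 + X) + 1 + Y) := by
    rw [← hMs] at hQ0 ⊢
    have p1 : 0 ≤ π * A := by positivity
    have p2 : 0 ≤ β * √Ct := by positivity
    have p3 : 0 ≤ β * √(8 * β ^ 2 + 8) := by positivity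
    linarith [mul_nonneg p1 hY0, mul_nonneg hβ hQ0, mul_nonneg hβ hY0, mul_nonneg p2 hQ0, mul_nonneg p3 hQ0]
  refine le_trans ?_ hfin
  rcases le_total (k * D₀) 0 with h | h
  · exact (mul_nonpos_of_nonpos_of_nonneg h measureReal_nonneg).trans (by positivity)
  · have := mul_le_mul_of_nonneg_left hP h
    linarith

end Vale.Agent.P146.Lower.Res
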