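import Vale.Agent.P146.Lower.Res.Defs
import Vale.Agent.P146.Lower.RecMat
import Vale.Agent.P146.Lower.Cheb
import Mathlib.LinearAlgebra.Matrix.ToLinearEquiv
import Mathlib.Analysis.Complex.Basic

/-! P146, polynomial lower bound: the resolvent of the coupling matrix. Bounds depend on the spectral parameter
only, never on the norm of the matrix. -/

open MeasureTheory Finset Real Matrix
open Vale.Agent.P150 (gauss)

noncomputable section

namespace Vale.Agent.P146.Lower.Res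

variable {n : ℕ}

/-! ### the spectral parameter -/

/-- its imaginary part -/
def kap (s : ℝ) : ℝ := (zt s).im

lemma zeta_ne {s : ℝ} (hs : 0 < s) : zeta s ≠ 0 := fun h => by
  have := congrArg Complex.im h
  simp [zeta] at this
  linarith

lemma normSq_zeta (s : ℝ) : Complex.normSq (zeta s) = (1 + s) ^ 2 + s ^ 2 := by
  simp [Complex.normSq_apply, zeta]; ring

lemma kap_eq (s : ℝ) : kap s = s - s / ((1 + s) ^ 2 + s ^ 2) := by
  rw [kap, zt, Complex.add_im, Complex.inv_im, normSq_zeta]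
  simp [zeta]
  ring

lemma kap_bounds {s : ℝ} (hs : 0 < s) (hs1 : s ≤ 1 / 4) :
    s ^ 2 ≤ kap s ∧ kap s ≤ s ∧ 0 < kap s := by
  have hd : 0 < (1 + s) ^ 2 + s ^ 2 := by positivity
  have e : kap s = s * ((2 * s + 2 * s ^ 2) / ((1 + s) ^ 2 + s ^ 2)) := by
    rw [kap_eq]; field_simp; ring
  have h : s ≤ (2 * s + 2 * s ^ 2) / ((1 + s) ^ 2 + s ^ 2) := by
    rw [le_div_iff₀ hd]; nlinarith [mul_pos hs hs]
  have h' : (2 * s + 2 * s ^ 2) / ((1 + s) ^ 2 + s ^ 2) ≤ 1 := by
    rw [div_le_one hd]; nlinarith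
  rw [e]
  exact ⟨(sq s).trans_le (mul_le_mul_of_nonneg_left h hs.le), mul_le_of_le_one_right hs.le h',
    mul_pos hs (hs.trans_le h)⟩

lemma norm_zeta {s : ℝ} (hs : 0 < s) (hs1 : s ≤ 1 / 4) : 1 ≤ ‖zeta s‖ ∧ ‖zeta s‖ ≤ 2 := by
  rw [Complex.norm_def, normSq_zeta]
  exact ⟨Real.one_le_sqrt.2 (by nlinarith), Real.sqrt_le_iff.2 ⟨two_pos.le, by nlinarith⟩⟩

lemma norm_zt {s : ℝ} (hs : 0 < s) (hs1 : s ≤ 1 / 4) : ‖zt s‖ ≤ 3 := by
  refine (norm_add_le _ _).trans ?_
  have h := norm_zeta hs hs1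
  rw [norm_inv]
  have : ‖zeta s‖⁻¹ ≤ 1 := inv_le_one_of_one_le₀ h.1
  linarith

/-! ### complex vectors -/

/-- Euclidean norm -/
def cn (v : Fin n → ℂ) : ℝ := ‖(WithLp.toLp 2 v : EuclideanSpace ℂ (Fin n))‖

/-- a configuration as a complex vector -/
def cv (x : Cfg n) : Fin n → ℂ := fun i => ((spin (x i) : ℝ) : ℂ)

lemma cn_nonneg (v : Fin n → ℂ) : 0 ≤ cn v := norm_nonneg _

lemma cn_sq (v : Fin n → ℂ) : cn v ^ 2 = ∑ i, ‖v i‖ ^ 2 := EuclideanSpace.norm_sq_eq _

lemma cn_cv (x : Cfg n) : cn (cv x) = √(n : ℝ) := by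
  rw [← Real.sqrt_sq (cn_nonneg (cv x)), cn_sq]
  congr 1
  simp [cv, Vale.Agent.P146.abs_spin]

lemma abs_cdot_le (u v : Fin n → ℂ) : ‖u ⬝ᵥ v‖ ≤ cn u * cn v := by
  refine (norm_sum_le _ _).trans ?_
  simp only [norm_mul]
  rw [cn, cn, EuclideanSpace.norm_eq, EuclideanSpace.norm_eq]
  exact Real.sum_mul_le_sqrt_mul_sqrt _ _ _

/-! ### the resolvent -/

lemma Wm_symm' (g : Edge n → ℝ) (a b : Fin n) : Wm g a b = Wm g b a := by
  simp only [Wm]
  congr 1
  rcases lt_trichotomy a b with h | rfl | h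
  · simp [cpl, h, h.not_gt]
  · rfl
  · simp [cpl, h, h.not_gt]

lemma Am_apply (s : ℝ) (A : Matrix (Fin n) (Fin n) ℝ) (a b : Fin n) :
    Am s A a b = (if a = b then zt s else 0) - (A a b : ℂ) := by
  simp [Am, Matrix.one_apply]

lemma Am_mulVec (s : ℝ) (A : Matrix (Fin n) (Fin n) ℝ) (u : Fin n → ℂ) :
    Am s A *ᵥ u = zt s • u - A.map Complex.ofReal *ᵥ u := by
  rw [Am, Matrix.sub_mulVec, Matrix.smul_mulVec, Matrix.one_mulVec]

/-- only the spectral parameter contributes to the imaginary part of the quadratic form -/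
lemma im_form (s : ℝ) {A : Matrix (Fin n) (Fin n) ℝ} (hA : ∀ a b, A a b = A b a) (u : Fin n → ℂ) :
    (star u ⬝ᵥ (Am s A *ᵥ u)).im = kap s * cn u ^ 2 := by
  set X := star u ⬝ᵥ (A.map Complex.ofReal *ᵥ u)
  have hX : (starRingEnd ℂ) X = X := by
    simp only [X, dotProduct, Matrix.mulVec, Matrix.map_apply, map_sum, map_mul, Pi.star_apply, mul_sum,
      Complex.conj_ofReal, RCLike.star_def, Complex.conj_conj]
    rw [sum_comm]
    exact sum_congr rfl fun a _ => sum_congr rfl fun b _ => by rw [hA b a]; ring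
  have h2 : star u ⬝ᵥ u = ((cn u ^ 2 : ℝ) : ℂ) := by
    rw [cn_sq, Complex.ofReal_sum]
    refine sum_congr rfl fun i _ => ?_
    rw [Pi.star_apply, RCLike.star_def, ← Complex.normSq_eq_norm_sq, Complex.normSq_eq_conj_mul_self]
  rw [Am_mulVec, dotProduct_sub, dotProduct_smul, h2, smul_eq_mul, Complex.sub_im, Complex.mul_im,
    Complex.ofReal_re, Complex.ofReal_im]
  rw [Complex.conj_eq_iff_im.1 hX, kap]
  ring

lemma kap_cn_le (s : ℝ) {A : Matrix (Fin n) (Fin n) ℝ} (hA : ∀ a b, A a b = A b a) (u : Fin n → ℂ) :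
    kap s * cn u ^ 2 ≤ cn u * cn (Am s A *ᵥ u) := by
  rw [← im_form s hA]
  refine ((le_abs_self _).trans (Complex.abs_im_le_norm _)).trans ((abs_cdot_le _ _).trans_eq ?_)
  congr 1
  rw [cn, cn, EuclideanSpace.norm_eq, EuclideanSpace.norm_eq]
  simp

lemma cn_Am_ge {s : ℝ} (hs : 0 < kap s) {A : Matrix (Fin n) (Fin n) ℝ} (hA : ∀ a b, A a b = A b a)
    (u : Fin n → ℂ) : kap s * cn u ≤ cn (Am s A *ᵥ u) := by
  rcases (cn_nonneg u).eq_or_lt with h | h
  · rw [← h, mul_zero]; exact cn_nonneg _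
  · have := kap_cn_le s hA u
    refine le_of_mul_le_mul_left ?_ h
    linarith

lemma isUnit_det_Am {s : ℝ} (hs : 0 < kap s) {A : Matrix (Fin n) (Fin n) ℝ} (hA : ∀ a b, A a b = A b a) :
    IsUnit (Am s A).det := by
  rw [isUnit_iff_ne_zero]
  intro h
  obtain ⟨v, hv, hv0⟩ := Matrix.exists_mulVec_eq_zero_iff.2 h
  have := cn_Am_ge hs hA v
  rw [hv0, show cn (0 : Fin n → ℂ) = 0 by simp [cn]] at this
  have h0 : cn v = 0 := le_antisymm (nonpos_of_mul_nonpos_right this hs) (cn_nonneg v)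
  exact hv (by simpa [cn] using h0)

section

variable {s : ℝ} (hs : 0 < kap s)
include hs

/-- the resolvent is a right inverse -/
lemma Am_Gc (g : Edge n → ℝ) : Am s (Wm g) * Gc s g = 1 :=
  Matrix.mul_nonsing_inv _ (isUnit_det_Am hs (Wm_symm' g))

/-- and a left inverse -/
lemma Gc_Am (g : Edge n → ℝ) : Gc s g * Am s (Wm g) = 1 :=
  Matrix.nonsing_inv_mul _ (isUnit_det_Am hs (Wm_symm' g))

/-- symmetry -/
lemma Gc_symm (g : Edge n → ℝ) (a b : Fin n) : Gc s g a b = Gc s g b a := by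
  have hT : (Am s (Wm g))ᵀ = Am s (Wm g) := by
    ext i j
    rw [Matrix.transpose_apply, Am_apply, Am_apply, Wm_symm' g j i]
    split_ifs with h1 h2 h2
    · rfl
    · exact absurd h1.symm h2
    · exact absurd h2.symm h1
    · rfl
  have : (Gc s g)ᵀ = Gc s g := by rw [Gc, Matrix.transpose_nonsing_inv, hT]
  exact congrFun (congrFun this.symm a) b

/-- the resolvent equation on vectors -/
lemma Am_Gc_vec (g : Edge n → ℝ) (v : Fin n → ℂ) : Am s (Wm g) *ᵥ (Gc s g *ᵥ v) = v := by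
  rw [Matrix.mulVec_mulVec, Am_Gc hs, Matrix.one_mulVec]

lemma res_eq (g : Edge n → ℝ) (v : Fin n → ℂ) :
    (Wm g).map Complex.ofReal *ᵥ (Gc s g *ᵥ v) = zt s • (Gc s g *ᵥ v) - v := by
  have h := Am_Gc_vec hs g v
  rw [Am_mulVec] at h
  rw [eq_sub_iff_add_eq, add_comm, ← eq_sub_iff_add_eq]
  exact h.symm

/-- the norm of the resolvent -/
lemma cn_Gc (g : Edge n → ℝ) (v : Fin n → ℂ) : cn (Gc s g *ᵥ v) ≤ cn v / kap s := by
  rw [le_div_iff₀ hs, mul_comm]
  have := cn_Am_ge hs (Wm_symm' g) (Gc s g *ᵥ v)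
  rwa [Am_Gc_vec hs] at this

lemma norm_Gc (g : Edge n → ℝ) (a b : Fin n) : ‖Gc s g a b‖ ≤ 1 / kap s := by
  have h1 : cn (Pi.single b (1:ℂ)) = 1 := by simp [cn]
  have h := cn_Gc hs g (Pi.single b (1:ℂ))
  rw [h1, Matrix.mulVec_single_one] at h
  refine le_trans ?_ h
  exact (PiLp.norm_apply_le (p := 2) (WithLp.toLp 2 (fun i => Gc s g i b) : EuclideanSpace ℂ (Fin n)) a)

omit hs in
/-- the test form as an imaginary part -/
lemma pb_eq (g : Edge n → ℝ) (x y : Cfg n) : pb s g x y = -(cv x ⬝ᵥ (Gc s g *ᵥ cv y)).im := by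
  simp only [pb, bil, Pm, dotProduct, Matrix.mulVec, cv, mul_sum, Complex.im_sum, ← sum_neg_distrib]
  exact sum_congr rfl fun a _ => sum_congr rfl fun b _ => by
    simp [Complex.mul_im]; ring

/-- **positivity, exactly** -/
lemma pb_self (g : Edge n → ℝ) (x : Cfg n) : pb s g x x = kap s * cn (Gc s g *ᵥ cv x) ^ 2 := by
  have hr : star (cv x) = cv x := funext fun i => by simp [cv]
  set u := Gc s g *ᵥ cv x
  have h := im_form s (Wm_symm' g) u
  rw [Am_Gc_vec hs] at h
  rw [← h, pb_eq]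
  have e : star u ⬝ᵥ cv x = (starRingEnd ℂ) (cv x ⬝ᵥ u) := by
    simp only [dotProduct, map_sum, map_mul, Pi.star_apply, RCLike.star_def]
    refine sum_congr rfl fun i _ => ?_
    have := congrFun hr i
    simp only [Pi.star_apply, RCLike.star_def] at this
    rw [this, mul_comm]
  rw [e, Complex.conj_im]

lemma pb_nonneg (g : Edge n → ℝ) (x : Cfg n) : 0 ≤ pb s g x x := by rw [pb_self hs]; positivity

lemma abs_pb_le (g : Edge n → ℝ) (x y : Cfg n) : |pb s g x y| ≤ n / kap s := by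
  rw [pb_eq, abs_neg]
  refine (Complex.abs_im_le_norm _).trans ((abs_cdot_le _ _).trans ?_)
  refine (mul_le_mul_of_nonneg_left (cn_Gc hs g (cv y)) (cn_nonneg _)).trans_eq ?_
  rw [cn_cv, cn_cv, ← mul_div_assoc, Real.mul_self_sqrt (Nat.cast_nonneg _)]

/-- the complex form against the test -/
lemma norm_form_le (g : Edge n → ℝ) (x y : Cfg n) {θ : ℝ} (hθ : 0 < θ) :
    ‖cv x ⬝ᵥ (Gc s g *ᵥ cv y)‖ ≤ θ / 2 * n + pb s g y y / (2 * kap s * θ) := by
  refine (abs_cdot_le _ _).trans ?_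
  rw [cn_cv, pb_self hs, show kap s * cn (Gc s g *ᵥ cv y) ^ 2 / (2 * kap s * θ) =
    cn (Gc s g *ᵥ cv y) ^ 2 / (2 * θ) by field_simp]
  have h0 : 0 ≤ (θ * √(n : ℝ) - cn (Gc s g *ᵥ cv y)) ^ 2 / (2 * θ) := by positivity
  have e : (θ * √(n : ℝ) - cn (Gc s g *ᵥ cv y)) ^ 2 / (2 * θ) =
      θ / 2 * n + cn (Gc s g *ᵥ cv y) ^ 2 / (2 * θ) - √(n : ℝ) * cn (Gc s g *ᵥ cv y) := by
    field_simp
    rw [sub_sq, mul_pow, Real.sq_sqrt (Nat.cast_nonneg _)]
    ring
  linarith

end

/-! ### growth and derivative -/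

lemma continuous_Gc {s : ℝ} (hs : 0 < kap s) (a b : Fin n) :
    Continuous fun g : Edge n → ℝ => Gc s g a b := by
  have hA : Continuous fun g : Edge n → ℝ => Am s (Wm g) := by
    refine continuous_pi fun i => continuous_pi fun j => ?_
    simp only [Am_apply]
    exact continuous_const.sub (Complex.continuous_ofReal.comp ((eb_cpl i j).1.div_const _))
  simp only [Gc, Matrix.inv_def, Matrix.smul_apply, smul_eq_mul, Ring.inverse_eq_inv']
  exact (hA.matrix_det.inv₀ fun g => (isUnit_det_Am hs (Wm_symm' g)).ne_zero).mul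
    (hA.matrix_adjugate.matrix_elem a b)

lemma eb_re_Gc {s : ℝ} (hs : 0 < kap s) (a b : Fin n) : EB fun g : Edge n → ℝ => (Gc s g a b).re :=
  EB.of_le (EB.const (1 / kap s)) (Complex.continuous_re.comp (continuous_Gc hs a b)) fun g =>
    (Complex.abs_re_le_norm _).trans (norm_Gc hs g a b)

lemma eb_im_Gc {s : ℝ} (hs : 0 < kap s) (a b : Fin n) : EB fun g : Edge n → ℝ => (Gc s g a b).im :=
  EB.of_le (EB.const (1 / kap s)) (Complex.continuous_im.comp (continuous_Gc hs a b)) fun g =>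
    (Complex.abs_im_le_norm _).trans (norm_Gc hs g a b)

lemma eb_pb {s : ℝ} (hs : 0 < kap s) (x y : Cfg n) : EB fun g : Edge n → ℝ => pb s g x y :=
  eb_bil (A := fun g => Pm s g) (fun a b => by simpa [Pm] using (EB.const (-1)).mul (eb_im_Gc hs a b)) x y

lemma eb_re_tauC {s : ℝ} (hs : 0 < kap s) : EB fun g : Edge n → ℝ => (tauC s g).re := by
  simp only [tauC, Complex.div_natCast_re, Matrix.trace, Matrix.diag_apply, Complex.re_sum]
  simp only [div_eq_mul_inv]
  exact (EB.sum univ fun a _ => eb_re_Gc hs a a).mul (EB.const _)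

lemma eb_im_tauC {s : ℝ} (hs : 0 < kap s) : EB fun g : Edge n → ℝ => (tauC s g).im := by
  simp only [tauC, Complex.div_natCast_im, Matrix.trace, Matrix.diag_apply, Complex.im_sum]
  simp only [div_eq_mul_inv]
  exact (EB.sum univ fun a _ => eb_im_Gc hs a a).mul (EB.const _)

/-- the unit matrix of a bond -/
def Ee (e : Edge n) : Matrix (Fin n) (Fin n) ℂ :=
  Matrix.single e.1.1 e.1.2 1 + Matrix.single e.1.2 e.1.1 1

lemma Wm_update (s₀ : ℝ) (g : Edge n → ℝ) (e : Edge n) (t : ℝ) :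
    Am s₀ (Wm (Function.update g e t)) = Am s₀ (Wm g) - (((t - g e) / √(n : ℝ) : ℝ) : ℂ) • Ee e := by
  ext a b
  have hne : e.1.1 ≠ e.1.2 := e.2.ne
  have hc : cpl (Function.update g e t) a b = cpl g a b + (t - g e) *
      (if (e.1.1 = a ∧ e.1.2 = b) ∨ (e.1.2 = a ∧ e.1.1 = b) then 1 else 0) := by
    unfold cpl
    split_ifs with h1 h2 h3 h4 <;>
      simp_all [Function.update_apply, Subtype.ext_iff, Prod.ext_iff] <;> grind
  simp only [Am_apply, Matrix.sub_apply, Matrix.smul_apply, smul_eq_mul, Ee, Matrix.add_apply,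
    Matrix.single_apply, Wm, hc]
  split_ifs <;> first | grind | (simp_all <;> push_cast <;> ring)

/-- derivative of an entry in one coupling -/
lemma hasDerivAt_Gc {s : ℝ} (hs : 0 < kap s) (g : Edge n → ℝ) (e : Edge n) (a b : Fin n) :
    HasDerivAt (fun t => Gc s (Function.update g e t) a b)
      ((Gc s g * Ee e * Gc s g) a b / ((√(n : ℝ) : ℝ) : ℂ)) (g e) := by
  set r : ℝ → ℂ := fun t => (((t - g e) / √(n : ℝ) : ℝ) : ℂ)
  have hres : ∀ t, Gc s (Function.update g e t) =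
      Gc s g + r t • (Gc s (Function.update g e t) * Ee e * Gc s g) := fun t => by
    have h1 := Wm_update s g e t
    calc Gc s (Function.update g e t)
        = Gc s (Function.update g e t) * (Am s (Wm g) * Gc s g) := by rw [Am_Gc hs, mul_one]
      _ = Gc s (Function.update g e t) *
            ((Am s (Wm (Function.update g e t)) + r t • Ee e) * Gc s g) := by rw [h1, sub_add_cancel]
      _ = _ := by
        rw [add_mul, mul_add, ← mul_assoc, Gc_Am hs, one_mul, Matrix.smul_mul, Matrix.mul_smul, mul_assoc]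
  have hc : ∀ t, Gc s (Function.update g e t) a b =
      Gc s g a b + r t * (Gc s (Function.update g e t) * Ee e * Gc s g) a b := fun t => by
    have := congrFun (congrFun (hres t) a) b
    simpa [Matrix.add_apply, Matrix.smul_apply] using this
  have hcont : Continuous fun t => (Gc s (Function.update g e t) * Ee e * Gc s g) a b := by
    simp only [Matrix.mul_apply]
    exact continuous_finsetSum _ fun j _ => (continuous_finsetSum _ fun i _ =>
      ((continuous_Gc hs a i).comp (continuous_const.update e continuous_id)).mul continuous_const).mul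
        continuous_const
  rw [hasDerivAt_iff_tendsto_slope]
  have hl := (hcont.div_const ((√(n : ℝ) : ℝ) : ℂ)).tendsto (g e)
  simp only [Function.update_eq_self] at hl
  refine (hl.mono_left nhdsWithin_le_nhds).congr' ?_
  filter_upwards [self_mem_nhdsWithin] with t ht
  have hne : t - g e ≠ 0 := sub_ne_zero.2 ht
  rw [slope_def_module, Function.update_eq_self, hc t, add_sub_cancel_left, Complex.real_smul]
  simp only [r]
  push_cast
  have : ((t:ℂ) - (g e : ℂ)) ≠ 0 := by exact_mod_cast hne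
  field_simp

end Vale.Agent.P146.Lower.Res
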