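import Vale.Agent.P146.Lower.Res.Eb
import Vale.Agent.P146.Lower.Convex

/-! P146, polynomial lower bound: convexity of the perturbed free energy in the deformation, and its distance to
the free energy. -/

open MeasureTheory Finset Real
open Vale.Agent.P150 (gauss)
open Vale.Agent.P168.MP (lin logZ0 ET pw spinAt allBatch BIdx gu Mark tilt mean1)

noncomputable section

namespace Vale.Agent.P146.Lower.Res

variable {n : ℕ}

/-- **Convexity, tangent**: the drop of the perturbed free energy is at least the perturbed mean at `-w` -/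
theorem free_drop_ge (P : Par) (n : ℕ) [NeZero n] (β : ℝ) {s w : ℝ} (hs : 0 < kap s) (hw : 0 ≤ w) :
    w * (n * diag P n β s (-w) 0) ≤ free P n β s 0 - free P n β s (-w) := by
  set E := fun (u : P.Grid) (g : Edge n → ℝ) => ET P.R (lin P.R) (P.wp (wgt β s (-w) 0 g) u) [(0, 0)]
    fun ps => pb s g (spinAt P.R (ps.getD 0 [])) (spinAt P.R (ps.getD 0 [])) / n
  set L := fun (u : P.Grid) (t : ℝ) (g : Edge n → ℝ) => logZ0 P.R (lin P.R) (P.wp (wgt β s t 0 g) u)
  have hn : (n:ℝ) ≠ 0 := Nat.cast_ne_zero.2 (NeZero.ne n)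
  have hpt : ∀ (u : P.Grid) (g : Edge n → ℝ), w * (n * E u g) ≤ L u 0 g - L u (-w) g := fun u g => by
    have hp : ∀ t : ℝ, P.wp (wgt β s t 0 g) u =
        tilt (P.wp (wgt β s 0 0 g) u) (fun p => pb s g (spinAt P.R p) (spinAt P.R p)) t := fun t => funext fun p => by
      simp only [Par.wp, pw, tilt, wgt, Pi.zero_apply, add_zero, zero_mul, exp_add]
      ring
    have h1 := Vale.Agent.P146.Lower.tilt_tangent (ok_wp P (fun x => wgt_pos β s 0 0 g x) u) P.one_le
      (fun p => pb s g (spinAt P.R p) (spinAt P.R p)) (s := -w) (t := 0) (by linarith)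
    rw [← hp, ← hp] at h1
    simp only [mean1, zero_sub, neg_neg] at h1
    refine le_trans (le_of_eq ?_) h1
    simp only [E, ← Vale.Agent.P168.MP.ET_const_mul]
    congr 1
    funext ps
    field_simp
  have ebE : ∀ u : P.Grid, Integrable (E u) (gauss (Edge n)) := fun u =>
    (eb_ET P β hs (-w) 0 u (G := fun _ => (n / kap s) / n) (fun ps => (eb_pb hs _ _).1.div_const _)
      (EB.const _) fun g ps => by
        rw [abs_div, Nat.abs_cast]
        exact div_le_div_of_nonneg_right (abs_pb_le hs g _ _) (Nat.cast_nonneg _)).integrable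
  have hi : ∀ u t, Integrable (L u t) (gauss (Edge n)) := fun u t => (eb_logZ0 P β hs t 0 u).integrable
  have hu : ∀ u, w * (n * ∫ g, E u g ∂gauss (Edge n)) ≤
      (∫ g, L u 0 g ∂gauss (Edge n)) - ∫ g, L u (-w) g ∂gauss (Edge n) := fun u => by
    have := integral_mono (((ebE u).const_mul (n:ℝ)).const_mul w) ((hi u 0).sub (hi u (-w))) (hpt u)
    simp only [Pi.sub_apply] at this
    rwa [integral_sub (hi u 0) (hi u (-w)), integral_const_mul, integral_const_mul] at this
  have : Nonempty P.Grid := ⟨fun _ => ⟨0, P.M_pos⟩⟩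
  refine le_trans (le_of_eq ?_) ((Vale.Agent.P168.MP.avg_le_avg hu).trans_eq
    (Vale.Agent.P168.MP.avg_sub _ _))
  rw [Vale.Agent.P168.MP.avg_const_mul', Vale.Agent.P168.MP.avg_const_mul']
  rfl

/-- **The perturbed free energy is the free energy**, up to the cost of perturbation and deformation -/
theorem free_close (P : Par) (n : ℕ) [NeZero n] (β : ℝ) {s : ℝ} (hs : 0 < kap s) (lam : ℝ) :
    |free P n β s lam - ∫ g : Edge n → ℝ, log (partition β g / 2 ^ n) ∂gauss (Edge n)| ≤
      P.cap + |lam| * (n / kap s) := by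
  have hpt : ∀ (u : P.Grid) (g : Edge n → ℝ),
      |logZ0 P.R (lin P.R) (P.wp (wgt β s lam 0 g) u) - log (partition β g / 2 ^ n)| ≤
        P.cap + |lam| * (n / kap s) := fun u g => by
    have h2 := abs_le.1 (abs_logZ0_wp_sub_le P (fun x => wgt_pos β s lam 0 g x) u)
    set c := |lam| * ((n:ℝ) / kap s)
    have e : partition β g / 2 ^ n = Vale.Agent.P168.MP.avg fun x : Cfg n => exp (β * energy g x) := by
      simp [partition, Vale.Agent.P168.MP.avg]
    have hb : ∀ x : Cfg n, |lam * pb s g x x| ≤ c := fun x => by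
      rw [abs_mul]; exact mul_le_mul_of_nonneg_left (abs_pb_le hs g x x) (abs_nonneg _)
    have hA : 0 < Vale.Agent.P168.MP.avg fun x : Cfg n => exp (β * energy g x) :=
      Vale.Agent.P168.MP.avg_pos fun x => exp_pos _
    have lo : exp (-c) * (Vale.Agent.P168.MP.avg fun x : Cfg n => exp (β * energy g x)) ≤
        Vale.Agent.P168.MP.avg (wgt β s lam 0 g) := by
      rw [← Vale.Agent.P168.MP.avg_const_mul']
      refine Vale.Agent.P168.MP.avg_le_avg fun x => ?_
      rw [wgt, ← exp_add, Pi.zero_apply, add_zero]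
      exact exp_le_exp.2 (by linarith [(abs_le.1 (hb x)).1])
    have hi : Vale.Agent.P168.MP.avg (wgt β s lam 0 g) ≤
        exp c * (Vale.Agent.P168.MP.avg fun x : Cfg n => exp (β * energy g x)) := by
      rw [← Vale.Agent.P168.MP.avg_const_mul']
      refine Vale.Agent.P168.MP.avg_le_avg fun x => ?_
      rw [wgt, ← exp_add, Pi.zero_apply, add_zero]
      exact exp_le_exp.2 (by linarith [(abs_le.1 (hb x)).2])
    have l1 := log_le_log (mul_pos (exp_pos _) hA) lo
    have l2 := log_le_log ((mul_pos (exp_pos _) hA).trans_le lo) hi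
    rw [log_mul (exp_pos _).ne' hA.ne', log_exp] at l1 l2
    rw [e, abs_le]
    constructor <;> linarith
  have hI : Integrable (fun g : Edge n → ℝ => log (partition β g / 2 ^ n)) (gauss (Edge n)) := by
    have : (fun g : Edge n → ℝ => log (partition β g / 2 ^ n)) =
        fun g => lz β s 0 g := funext fun g => by
      simp [lz, wgt, partition, Vale.Agent.P168.MP.avg]
    rw [this]; exact (eb_lz β hs 0).integrable
  have hu : ∀ u : P.Grid,
      |(∫ g, logZ0 P.R (lin P.R) (P.wp (wgt β s lam 0 g) u) ∂gauss (Edge n)) -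
        ∫ g : Edge n → ℝ, log (partition β g / 2 ^ n) ∂gauss (Edge n)| ≤ P.cap + |lam| * (n / kap s) :=
    fun u => by
      rw [← integral_sub (eb_logZ0 P β hs lam 0 u).integrable hI]
      refine (abs_integral_le_integral_abs).trans ((integral_mono
        ((eb_logZ0 P β hs lam 0 u).integrable.sub hI).abs (integrable_const _) (hpt u)).trans_eq ?_)
      simp
  have : Nonempty P.Grid := ⟨fun _ => ⟨0, P.M_pos⟩⟩
  rw [← Vale.Agent.P168.MP.avg_const (Ω := P.Grid)
    (∫ g : Edge n → ℝ, log (partition β g / 2 ^ n) ∂gauss (Edge n))]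
  unfold free mean
  rw [← Vale.Agent.P168.MP.avg_sub]
  have hc : (0:ℝ) < Fintype.card P.Grid := Nat.cast_pos.2 Fintype.card_pos
  unfold Vale.Agent.P168.MP.avg
  rw [abs_div, abs_of_pos hc, div_le_iff₀ hc]
  refine (abs_sum_le_sum_abs _ _).trans ((sum_le_sum fun u _ => hu u).trans_eq ?_)
  rw [sum_const, nsmul_eq_mul, mul_comm, card_univ]

/-- the perturbed drop is a lower bound for the drop, up to the cost of the perturbation -/
theorem drop_ge_pert (P : Par) (n : ℕ) [NeZero n] (β : ℝ) {s : ℝ} (hs : 0 < kap s) (w : ℝ) :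
    free P n β s 0 - free P n β s (-w) - 2 * P.cap ≤ drop n β s w := by
  have hi : ∀ u t, Integrable (fun g : Edge n → ℝ => logZ0 P.R (lin P.R) (P.wp (wgt β s t 0 g) u))
      (gauss (Edge n)) := fun u t => (eb_logZ0 P β hs t 0 u).integrable
  have hu : ∀ u : P.Grid,
      (∫ g, logZ0 P.R (lin P.R) (P.wp (wgt β s 0 0 g) u) ∂gauss (Edge n)) -
        ∫ g, logZ0 P.R (lin P.R) (P.wp (wgt β s (-w) 0 g) u) ∂gauss (Edge n) ≤
      drop n β s w + 2 * P.cap := fun u => by
    have h := integral_mono ((hi u 0).sub (hi u (-w)))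
      (((eb_lz β hs 0).sub (eb_lz β hs (-w))).integrable.add (integrable_const (2 * P.cap))) fun g => by
        have h2 := abs_le.1 (abs_logZ0_wp_sub_le P (fun x => wgt_pos β s 0 0 g x) u)
        have h3 := abs_le.1 (abs_logZ0_wp_sub_le P (fun x => wgt_pos β s (-w) 0 g x) u)
        simp only [Pi.sub_apply, Pi.add_apply, lz]
        linarith
    simp only [Pi.sub_apply, Pi.add_apply] at h
    rw [integral_sub (hi u 0) (hi u (-w)),
      integral_add ((eb_lz β hs 0).sub (eb_lz β hs (-w))).integrable (integrable_const _),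
      integral_const, probReal_univ, one_smul] at h
    exact h
  have : Nonempty P.Grid := ⟨fun _ => ⟨0, P.M_pos⟩⟩
  rw [sub_le_iff_le_add]
  refine le_trans (le_of_eq ?_) ((Vale.Agent.P168.MP.avg_le_avg hu).trans_eq (Vale.Agent.P168.MP.avg_const _))
  exact (Vale.Agent.P168.MP.avg_sub _ _).symm

end Vale.Agent.P146.Lower.Res
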