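import Vale.Agent.P146.Lower.Alg
import Mathlib.LinearAlgebra.Matrix.NonsingularInverse
import Mathlib.Data.Complex.Basic

/-! P146, polynomial lower bound: objects. The test is minus the imaginary part of the resolvent of the coupling
matrix at `zt s = ζ + ζ⁻¹`, `ζ = 1 + s (1 + i)`. -/

open MeasureTheory Finset Real
open Vale.Agent.P150 (gauss)
open Vale.Agent.P168.MP (lin logZ0 ET pw spinAt allBatch BIdx gu Mark att)
open Vale.Agent.P157.Par (qlev adev ovK)

noncomputable section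

namespace Vale.Agent.P146.Lower.Res

variable {n : ℕ}

/-- the root outside the unit disc -/
def zeta (s : ℝ) : ℂ := ⟨1 + s, s⟩

/-- the spectral parameter -/
def zt (s : ℝ) : ℂ := zeta s + (zeta s)⁻¹

/-- `z - W` -/
def Am (s : ℝ) (A : Matrix (Fin n) (Fin n) ℝ) : Matrix (Fin n) (Fin n) ℂ :=
  zt s • (1 : Matrix (Fin n) (Fin n) ℂ) - A.map Complex.ofReal

/-- the resolvent -/
def Gc (s : ℝ) (g : Edge n → ℝ) : Matrix (Fin n) (Fin n) ℂ := (Am s (Wm g))⁻¹

/-- the test matrix `-Im G` -/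
def Pm (s : ℝ) (g : Edge n → ℝ) : Matrix (Fin n) (Fin n) ℝ := fun a b => -(Gc s g a b).im

/-- its form at two configurations -/
def pb (s : ℝ) (g : Edge n → ℝ) (x y : Cfg n) : ℝ := bil (Pm s g) x y

/-- normalised trace of the resolvent -/
def tauC (s : ℝ) (g : Edge n → ℝ) : ℂ := (Gc s g).trace / n

/-- weight deformed by `lam σ'Pσ` and by a disorder-free factor `exp v` -/
def wgt (β s lam : ℝ) (v : Cfg n → ℝ) (g : Edge n → ℝ) (x : Cfg n) : ℝ :=
  Real.exp (β * energy g x + lam * pb s g x x + v x)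

/-- average over grid and disorder of a functional of the perturbed deformed system -/
def mean (P : Par) [NeZero n] (β s lam : ℝ) (v : Cfg n → ℝ)
    (G : (Edge n → ℝ) → (List (Mark n P.S (allBatch P.R 2)) → ℝ) → ℝ) : ℝ :=
  Vale.Agent.P168.MP.avg fun u : P.Grid => ∫ g, G g (P.wp (wgt β s lam v g) u) ∂gauss (Edge n)

/-- perturbed deformed log partition function -/
def free (P : Par) (n : ℕ) [NeZero n] (β s lam : ℝ) : ℝ :=
  mean (n := n) P β s lam 0 fun _ w => logZ0 P.R (lin P.R) w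

/-- replica expectation of `σ'Pσ / n` -/
def diag (P : Par) (n : ℕ) [NeZero n] (β s lam : ℝ) (v : Cfg n → ℝ) : ℝ :=
  mean (n := n) P β s lam v fun g w => ET P.R (lin P.R) w [(0, 0)] fun ps =>
    pb s g (spinAt P.R (ps.getD 0 [])) (spinAt P.R (ps.getD 0 [])) / n

/-- replica expectation of the energy form `σ'Wσ / n` -/
def ediag (P : Par) (n : ℕ) [NeZero n] (β s lam : ℝ) (v : Cfg n → ℝ) : ℝ :=
  mean (n := n) P β s lam v fun g w => ET P.R (lin P.R) w [(0, 0)] fun ps =>
    bil (Wm g) (spinAt P.R (ps.getD 0 [])) (spinAt P.R (ps.getD 0 [])) / n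

/-- the drop of the deformed log partition function at fixed disorder -/
def lz (β s t : ℝ) (g : Edge n → ℝ) : ℝ := log (Vale.Agent.P168.MP.avg (wgt β s t 0 g))

/-- its mean -/
def drop (n : ℕ) (β s w : ℝ) : ℝ := ∫ g : Edge n → ℝ, (lz β s 0 g - lz β s (-w) g) ∂gauss (Edge n)

/-- size of the perturbation seen by a new site -/
def pc (P : Par) : ℝ := 1 + (P.R : ℝ) * (Fintype.card (BIdx P.R 2) : ℝ) * P.S

/-! The deterministic side: a lower bound for the test read on a profile. -/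

/-- top level value of the test as a function of the susceptibility -/
def hk (β s b : ℝ) : ℝ := -((b : ℂ) / (zeta s - (β * b : ℝ))).im

/-- loss of susceptibility over the first `l` levels -/
def dropD (R : ℕ) (q : ℕ → ℝ) (l : ℕ) : ℝ := dlev R q 0 - dlev R q l

/-- cutoff of the loss at scale `K s` -/
def cut (s K d : ℝ) : ℝ := 1 / (1 + (d / (K * s)) ^ 2)

/-- level value of the test across a flat stretch -/
def flat (β s : ℝ) (R : ℕ) (q : ℕ → ℝ) (l : ℕ) : ℝ :=
  -(((q l : ℝ) : ℂ) * zeta s /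
    ((zeta s - (β * dlev R q 0 : ℝ)) * (zeta s - (β * dlev R q l : ℝ)))).im

/-- what the test is worth at one level -/
def worth (β s K γ : ℝ) (R : ℕ) (q : ℕ → ℝ) (l : ℕ) : ℝ :=
  (R : ℝ) / l * (hk β s (dlev R q 0) - hk β s (dlev R q l)) + γ * (cut s K (dropD R q l) * flat β s R q l)

/-- the average over the block `[2 L, 3 L)` -/
def Yf (β s K γ : ℝ) (R L : ℕ) (q : ℕ → ℝ) : ℝ := (∑ l ∈ Ico (2 * L) (3 * L), worth β s K γ R q l) / L

/-- the energy level of a profile -/
def elev (β : ℝ) (R : ℕ) (q : ℕ → ℝ) : ℝ := β * ∑ l ∈ range (R + 1), Vale.Agent.P157.Par.coef R l * q l ^ 2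

end Vale.Agent.P146.Lower.Res
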