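import Vale.Agent.P146.Lower.Res.Tau

/-! P146, polynomial lower bound: Gaussian divergence of the resolvent field `-Im G_ab / √n`. -/

open MeasureTheory Finset Real Matrix
open Vale.Agent.P150 (gauss)
open Function (update)

noncomputable section

namespace Vale.Agent.P146.Lower.Res

variable {n : ℕ}

/-- functions built from the coordinates and the entries of the resolvent -/
inductive RPoly (s : ℝ) : ((Edge n → ℝ) → ℝ) → Prop
  | const (c : ℝ) : RPoly s fun _ => c
  | coord (e : Edge n) : RPoly s fun g => g e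
  | entry (c : ℂ) (a b : Fin n) : RPoly s fun g => (c * Gc s g a b).re
  | add {F G : (Edge n → ℝ) → ℝ} : RPoly s F → RPoly s G → RPoly s fun g => F g + G g
  | mul {F G : (Edge n → ℝ) → ℝ} : RPoly s F → RPoly s G → RPoly s fun g => F g * G g

open Test (pd_eq pd_const pd_coord hasDerivAt_coord)

variable {s : ℝ}

lemma RPoly.sub {F G : (Edge n → ℝ) → ℝ} (hF : RPoly s F) (hG : RPoly s G) : RPoly s fun g => F g - G g := by
  have := hF.add ((RPoly.const (-1)).mul hG)
  simpa [sub_eq_add_neg] using this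

lemma RPoly.sum {α : Type*} (A : Finset α) {F : α → (Edge n → ℝ) → ℝ} (h : ∀ i ∈ A, RPoly s (F i)) :
    RPoly s fun g => ∑ i ∈ A, F i g := by
  classical
  induction A using Finset.induction with
  | empty => simpa using RPoly.const (n := n) (s := s) 0
  | insert a A ha ih =>
    simp only [Finset.sum_insert ha]
    exact (h a (mem_insert_self _ _)).add (ih fun i hi => h i (mem_insert_of_mem hi))

/-- real and imaginary part are built from coordinates and resolvent entries -/
def RPolyC (s : ℝ) (F : (Edge n → ℝ) → ℂ) : Prop :=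
  (RPoly s fun g => (F g).re) ∧ RPoly s fun g => (F g).im

lemma RPolyC.const (c : ℂ) : RPolyC (n := n) s fun _ => c := ⟨.const _, .const _⟩

lemma RPolyC.entry (a b : Fin n) : RPolyC s fun g => Gc s g a b := by
  refine ⟨?_, ?_⟩
  · simpa using RPoly.entry (s := s) 1 a b
  · have h := RPoly.entry (s := s) (-Complex.I) a b
    simp only [Complex.mul_re, Complex.neg_re, Complex.I_re, Complex.I_im, zero_mul,
      zero_sub, neg_mul, one_mul, neg_neg] at h
    exact h

lemma RPolyC.mul {F G : (Edge n → ℝ) → ℂ} (hF : RPolyC s F) (hG : RPolyC s G) :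
    RPolyC s fun g => F g * G g :=
  ⟨by simp only [Complex.mul_re]; exact (hF.1.mul hG.1).sub (hF.2.mul hG.2),
    by simp only [Complex.mul_im]; exact (hF.1.mul hG.2).add (hF.2.mul hG.1)⟩

lemma RPolyC.sum {α : Type*} (A : Finset α) {F : α → (Edge n → ℝ) → ℂ} (h : ∀ i ∈ A, RPolyC s (F i)) :
    RPolyC s fun g => ∑ i ∈ A, F i g :=
  ⟨by simp only [Complex.re_sum]; exact RPoly.sum A fun i hi => (h i hi).1,
    by simp only [Complex.im_sum]; exact RPoly.sum A fun i hi => (h i hi).2⟩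

variable (hs : 0 < kap s)
include hs

lemma hasDerivAt_entry (c : ℂ) (z : Edge n → ℝ) (e : Edge n) (t : ℝ) (a b : Fin n) :
    HasDerivAt (fun r => (c * Gc s (update z e r) a b).re)
      (c * ((Gc s (update z e t) * Ee e * Gc s (update z e t)) a b / ((√(n : ℝ) : ℝ) : ℂ))).re t :=
  Complex.reCLM.hasFDerivAt.comp_hasDerivAt t ((hasDerivAt_Gc' hs z e t a b).const_mul c)

lemma RPoly.exists_pd {F : (Edge n → ℝ) → ℝ} (hF : RPoly s F) (e : Edge n) : ∃ F', RPoly s F' ∧
    ∀ z t, HasDerivAt (fun r => F (update z e r)) (F' (update z e t)) t := by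
  induction hF with
  | const c => exact ⟨_, .const 0, fun z t => hasDerivAt_const t c⟩
  | coord b => exact ⟨_, .const (if b = e then 1 else 0), fun z t => hasDerivAt_coord e b z t⟩
  | entry c a b =>
    refine ⟨fun g => (c * ((Gc s g * Ee e * Gc s g) a b / ((√(n : ℝ) : ℝ) : ℂ))).re, ?_,
      fun z t => hasDerivAt_entry hs c z e t a b⟩
    simp only [Matrix.mul_apply, div_eq_mul_inv]
    exact ((RPolyC.const c).mul ((RPolyC.sum _ fun j _ => (RPolyC.sum _ fun i _ =>
      (RPolyC.entry a i).mul (RPolyC.const _)).mul (RPolyC.entry j b)).mul (RPolyC.const _))).1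
  | add _ _ i1 i2 =>
    obtain ⟨F', hF', dF⟩ := i1; obtain ⟨G', hG', dG⟩ := i2
    exact ⟨_, hF'.add hG', fun z t => (dF z t).fun_add (dG z t)⟩
  | @mul F G hF hG i1 i2 =>
    obtain ⟨F', hF', dF⟩ := i1; obtain ⟨G', hG', dG⟩ := i2
    exact ⟨_, (hF'.mul hG).add (hF.mul hG'), fun z t => (dF z t).fun_mul (dG z t)⟩

lemma RPoly.hasDerivAt {F : (Edge n → ℝ) → ℝ} (hF : RPoly s F) (e : Edge n) (z : Edge n → ℝ)
    (t : ℝ) : HasDerivAt (fun r => F (update z e r)) (Test.pd e F (update z e t)) t := by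
  obtain ⟨F', -, h⟩ := hF.exists_pd hs e
  rw [pd_eq h]; exact h z t

lemma RPoly.pd {F : (Edge n → ℝ) → ℝ} (hF : RPoly s F) (e : Edge n) : RPoly s (Test.pd e F) := by
  obtain ⟨F', hF', h⟩ := hF.exists_pd hs e
  rwa [pd_eq h]

lemma pd_add {F G : (Edge n → ℝ) → ℝ} (hF : RPoly s F) (hG : RPoly s G) (e : Edge n) :
    Test.pd e (fun z => F z + G z) = fun z => Test.pd e F z + Test.pd e G z :=
  pd_eq fun z t => (hF.hasDerivAt hs e z t).fun_add (hG.hasDerivAt hs e z t)

lemma pd_mul {F G : (Edge n → ℝ) → ℝ} (hF : RPoly s F) (hG : RPoly s G) (e : Edge n) :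
    Test.pd e (fun z => F z * G z) = fun z => Test.pd e F z * G z + F z * Test.pd e G z :=
  pd_eq fun z t => (hF.hasDerivAt hs e z t).fun_mul (hG.hasDerivAt hs e z t)

lemma pd_pd_entry (c : ℂ) (a b : Fin n) (e f : Edge n) :
    Test.pd e (Test.pd f fun g => (c * Gc s g a b).re) = fun g =>
      (c * ((Gc s g * Ee e * Gc s g * Ee f * Gc s g + Gc s g * Ee f * Gc s g * Ee e * Gc s g) a b
        / ((√(n : ℝ) : ℝ) : ℂ) / ((√(n : ℝ) : ℝ) : ℂ))).re := by
  rw [show Test.pd f (fun g => (c * Gc s g a b).re) = fun g =>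
      (c * ((Gc s g * Ee f * Gc s g) a b / ((√(n : ℝ) : ℝ) : ℂ))).re from
    pd_eq fun z t => hasDerivAt_entry hs c z f t a b]
  refine pd_eq fun z t => ?_
  have hR : ∀ i j, HasDerivAt (fun r => (Gc s (update z e r) * Ee f) i j)
      (((Gc s (update z e t) * Ee e * Gc s (update z e t)) * Ee f) i j / ((√(n : ℝ) : ℝ) : ℂ)) t := fun i j => by
    simp only [Matrix.mul_apply (N := Ee f)]
    refine (HasDerivAt.fun_sum fun l _ => (hasDerivAt_Gc' hs z e t i l).mul_const (Ee f l j)).congr_deriv ?_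
    rw [sum_div]
    exact sum_congr rfl fun l _ => by ring
  have h : HasDerivAt (fun r => (Gc s (update z e r) * Ee f * Gc s (update z e r)) a b)
      (((Gc s (update z e t) * Ee e * Gc s (update z e t) * Ee f * Gc s (update z e t)) +
        Gc s (update z e t) * Ee f * Gc s (update z e t) * Ee e * Gc s (update z e t)) a b
          / ((√(n : ℝ) : ℝ) : ℂ)) t := by
    have hh := HasDerivAt.fun_sum (u := univ) fun l _ => (hR a l).fun_mul (hasDerivAt_Gc' hs z e t l b)
    simp only [Matrix.mul_apply (M := Gc s (update z e _) * Ee f)]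
    refine hh.congr_deriv ?_
    generalize Gc s (update z e t) = G
    rw [sum_add_distrib, Matrix.add_apply, add_div, Matrix.mul_apply (M := G * Ee e * G * Ee f),
      show G * Ee f * G * Ee e * G = (G * Ee f) * (G * Ee e * G) by simp only [Matrix.mul_assoc],
      Matrix.mul_apply (M := G * Ee f), sum_div, sum_div]
    exact congrArg₂ _ (sum_congr rfl fun l _ => by ring) (sum_congr rfl fun l _ => by ring)
  exact Complex.reCLM.hasFDerivAt.comp_hasDerivAt t ((h.div_const _).const_mul c)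

lemma pd_comm {F : (Edge n → ℝ) → ℝ} (hF : RPoly s F) (a b : Edge n) :
    Test.pd a (Test.pd b F) = Test.pd b (Test.pd a F) := by
  induction hF with
  | const c => simp only [pd_const]
  | coord c => rw [pd_coord, pd_coord, pd_const, pd_const]
  | entry c x y =>
    rw [pd_pd_entry hs, pd_pd_entry hs]
    funext g; rw [add_comm]
  | @add F G hF hG i1 i2 =>
    rw [pd_add hs hF hG, pd_add hs hF hG, pd_add hs (hF.pd hs b) (hG.pd hs b),
      pd_add hs (hF.pd hs a) (hG.pd hs a), i1, i2]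
  | @mul F G hF hG i1 i2 =>
    rw [pd_mul hs hF hG, pd_mul hs hF hG, pd_add hs ((hF.pd hs b).mul hG) (hF.mul (hG.pd hs b)),
      pd_add hs ((hF.pd hs a).mul hG) (hF.mul (hG.pd hs a)), pd_mul hs (hF.pd hs b) hG,
      pd_mul hs hF (hG.pd hs b), pd_mul hs (hF.pd hs a) hG, pd_mul hs hF (hG.pd hs a), i1, i2]
    funext z; ring

lemma RPoly.eb {F : (Edge n → ℝ) → ℝ} (hF : RPoly s F) : EB F := by
  induction hF with
  | const c => exact EB.const c
  | coord e => exact EB.proj e
  | entry c a b =>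
    refine EB.of_le (EB.const (‖c‖ * (1 / kap s))) ?_ fun g => ?_
    · exact Complex.continuous_re.comp (continuous_const.mul (continuous_Gc hs a b))
    · refine (Complex.abs_re_le_norm _).trans ?_
      rw [norm_mul]
      exact mul_le_mul_of_nonneg_left (norm_Gc hs g a b) (norm_nonneg c)
  | add _ _ h1 h2 => exact h1.add h2
  | mul _ _ h1 h2 => exact h1.mul h2

/-- integration by parts against `g_e P - ∂_e P` -/
lemma ibp_delta {P G G' : (Edge n → ℝ) → ℝ} (e : Edge n) (hP : RPoly s P) (hG : EB G) (hG' : EB G')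
    (hd : ∀ z t, HasDerivAt (fun r => G (update z e r)) (G' (update z e t)) t) :
    ∫ z, (z e * P z - Test.pd e P z) * G z ∂gauss (Edge n) = ∫ z, P z * G' z ∂gauss (Edge n) := by
  have a1 := ((hP.pd hs e).eb hs).mul hG
  have a2 := (hP.eb hs).mul hG'
  have h := EB.ibp e ((hP.eb hs).mul hG) (a1.add a2) fun z t => (hP.hasDerivAt hs e z t).fun_mul (hd z t)
  have i0 := ((EB.proj e).mul ((hP.eb hs).mul hG)).integrable
  have e1 : (fun z : Edge n → ℝ => (z e * P z - Test.pd e P z) * G z) =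
      fun z => z e * (P z * G z) - Test.pd e P z * G z := funext fun z => by ring
  rw [e1, integral_sub i0 a1.integrable, h, integral_add a1.integrable a2.integrable, add_sub_cancel_left]

variable {V : Edge n → (Edge n → ℝ) → ℝ}

lemma rpoly_dvg (hV : ∀ e, RPoly s (V e)) : RPoly s (Test.dvg V) :=
  RPoly.sum _ fun e _ => ((RPoly.coord e).mul (hV e)).sub ((hV e).pd hs e)

lemma integral_dvg_mul (hV : ∀ e, RPoly s (V e)) {G : (Edge n → ℝ) → ℝ} {G' : Edge n → (Edge n → ℝ) → ℝ}
    (hG : EB G) (hG' : ∀ e, EB (G' e))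
    (hd : ∀ e z t, HasDerivAt (fun r => G (update z e r)) (G' e (update z e t)) t) :
    ∫ z, Test.dvg V z * G z ∂gauss (Edge n) = ∑ e, ∫ z, V e z * G' e z ∂gauss (Edge n) := by
  have i : ∀ e, EB fun z : Edge n → ℝ => (z e * V e z - Test.pd e (V e) z) * G z := fun e =>
    (((EB.proj e).mul ((hV e).eb hs)).sub (((hV e).pd hs e).eb hs)).mul hG
  simp only [Test.dvg, Finset.sum_mul]
  rw [integral_finsetSum _ fun e _ => (i e).integrable]
  exact sum_congr rfl fun e _ => ibp_delta hs e (hV e) hG (hG' e) (hd e)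

lemma integral_dvg_sq (hV : ∀ e, RPoly s (V e)) :
    ∫ z, Test.dvg V z ^ 2 ∂gauss (Edge n) = ∑ e, ∑ f, ∫ z,
      ((if f = e then V e z * V f z else 0) + Test.pd f (V e) z * Test.pd e (V f) z) ∂gauss (Edge n) := by
  set G' : Edge n → (Edge n → ℝ) → ℝ := fun e z => ∑ f,
    ((if f = e then 1 else 0) * V f z + z f * Test.pd e (V f) z - Test.pd e (Test.pd f (V f)) z) with hG'
  have hd : ∀ e z t, HasDerivAt (fun r => Test.dvg V (update z e r)) (G' e (update z e t)) t := fun e z t =>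
    HasDerivAt.fun_sum fun f _ => ((hasDerivAt_coord e f z t).fun_mul ((hV f).hasDerivAt hs e z t)).fun_sub
      (((hV f).pd hs f).hasDerivAt hs e z t)
  have p1 : ∀ e f, RPoly s fun z : Edge n → ℝ =>
      (if f = e then 1 else 0) * V f z + z f * Test.pd e (V f) z - Test.pd e (Test.pd f (V f)) z := fun e f =>
    (((RPoly.const _).mul (hV f)).add ((RPoly.coord f).mul ((hV f).pd hs e))).sub (((hV f).pd hs f).pd hs e)
  simp only [sq]
  rw [integral_dvg_mul hs hV ((rpoly_dvg hs hV).eb hs) (fun e => (RPoly.sum _ fun f _ => p1 e f).eb hs) hd]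
  refine sum_congr rfl fun e _ => ?_
  simp only [Finset.mul_sum]
  rw [integral_finsetSum _ fun f _ => (((hV e).eb hs).mul ((p1 e f).eb hs)).integrable]
  refine sum_congr rfl fun f _ => ?_
  set W := Test.pd e (V f) with hW
  have pW : RPoly s W := (hV f).pd hs e
  have hP := (hV e).mul pW
  have b1 := ((hV e).pd hs f).mul pW
  have b2 := (hV e).mul (pW.pd hs f)
  have h := EB.ibp f (hP.eb hs) ((b1.add b2).eb hs) fun z t =>
    ((hV e).hasDerivAt hs f z t).fun_mul (pW.hasDerivAt hs f z t)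
  have c0 : RPoly s fun z : Edge n → ℝ => if f = e then V e z * V f z else 0 := by
    by_cases hfe : f = e
    · simp only [hfe, if_true]; exact (hV e).mul (hV e)
    · simp only [hfe, if_false]; exact RPoly.const 0
  have c1 := (RPoly.coord f).mul hP
  rw [integral_add (c0.eb hs).integrable (b1.eb hs).integrable]
  have e1 : (fun z => V e z * ((if f = e then 1 else 0) * V f z + z f * W z - Test.pd e (Test.pd f (V f)) z)) =
      fun z => (if f = e then V e z * V f z else 0) + (z f * (V e z * W z) - V e z * Test.pd f W z) := by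
    funext z
    rw [hW, pd_comm hs (hV f) f e]
    split_ifs <;> ring
  rw [e1, integral_add (c0.eb hs).integrable ((c1.eb hs).sub (b2.eb hs)).integrable,
    integral_sub (c1.eb hs).integrable (b2.eb hs).integrable, h,
    integral_add (b1.eb hs).integrable (b2.eb hs).integrable, add_sub_cancel_right]

lemma eb_sum_sq (hV : ∀ e, RPoly s (V e)) :
    EB fun z => ∑ e, V e z ^ 2 + ∑ e, ∑ f, Test.pd f (V e) z ^ 2 := by
  refine (EB.sum _ fun e _ => ?_).add (EB.sum _ fun e _ => EB.sum _ fun f _ => ?_)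
  · simpa only [sq] using ((hV e).eb hs).mul ((hV e).eb hs)
  · simpa only [sq] using (((hV e).pd hs f).eb hs).mul (((hV e).pd hs f).eb hs)

lemma integral_dvg_sq_le (hV : ∀ e, RPoly s (V e)) :
    ∫ z, Test.dvg V z ^ 2 ∂gauss (Edge n) ≤
      ∫ z, (∑ e, V e z ^ 2 + ∑ e, ∑ f, Test.pd f (V e) z ^ 2) ∂gauss (Edge n) := by
  have c : ∀ e f, RPoly s fun z : Edge n → ℝ =>
      (if f = e then V e z * V f z else 0) + Test.pd f (V e) z * Test.pd e (V f) z := fun e f => by
    refine RPoly.add ?_ (((hV e).pd hs f).mul ((hV f).pd hs e))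
    by_cases hfe : f = e
    · simp only [hfe, if_true]; exact (hV e).mul (hV e)
    · simp only [hfe, if_false]; exact RPoly.const 0
  rw [integral_dvg_sq hs hV,
    sum_congr rfl fun e _ => (integral_finsetSum _ fun f _ => ((c e f).eb hs).integrable).symm,
    ← integral_finsetSum _ fun e _ => ((RPoly.sum _ fun f _ => c e f).eb hs).integrable]
  refine integral_mono ((RPoly.sum _ fun e _ => RPoly.sum _ fun f _ => c e f).eb hs).integrable
    (eb_sum_sq hs hV).integrable fun z => ?_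
  simp only [sum_add_distrib, sum_ite_eq', mem_univ, if_true, sq]
  refine add_le_add le_rfl ?_
  set x := fun e f => Test.pd f (V e) z
  show ∑ e, ∑ f, x e f * x f e ≤ ∑ e, ∑ f, x e f * x e f
  have h : ∑ e, ∑ f, x e f * x f e ≤ ∑ e, ∑ f, (x e f * x e f + x f e * x f e) / 2 :=
    sum_le_sum fun e _ => sum_le_sum fun f _ => by nlinarith [sq_nonneg (x e f - x f e)]
  refine h.trans_eq ?_
  simp only [add_div, sum_add_distrib, ← sum_div]
  rw [sum_comm (f := fun e f => x f e * x f e), add_halves]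

/-! ### the resolvent field -/

omit hs in
/-- the test field -/
def fieldR (s : ℝ) (e : Edge n) (g : Edge n → ℝ) : ℝ := Pm s g e.1.1 e.1.2 / √(n : ℝ)

omit hs in
lemma fieldR_eq (e : Edge n) : fieldR s e = fun g : Edge n → ℝ =>
    (Complex.I / ((√(n : ℝ) : ℝ) : ℂ) * Gc s g e.1.1 e.1.2).re := funext fun g => by
  rw [div_mul_eq_mul_div, Complex.div_ofReal_re, Complex.I_mul_re, fieldR, Pm]

omit hs in
lemma rpoly_fieldR (e : Edge n) : RPoly s (fieldR s e) := by
  rw [fieldR_eq]; exact RPoly.entry _ _ _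

/-- squared entries -/
lemma sq_pd_fieldR (hn : 1 ≤ n) (e f : Edge n) (g : Edge n → ℝ) :
    Test.pd f (fieldR s e) g ^ 2 ≤ 2 * ((‖Gc s g e.1.1 f.1.1‖ * ‖Gc s g e.1.2 f.1.2‖) ^ 2 +
      (‖Gc s g e.1.1 f.1.2‖ * ‖Gc s g e.1.2 f.1.1‖) ^ 2) / (n : ℝ) ^ 2 := by
  have hn0 : (0 : ℝ) < n := by exact_mod_cast hn
  rw [fieldR_eq, show Test.pd f (fun g => (Complex.I / ((√(n : ℝ) : ℝ) : ℂ) * Gc s g e.1.1 e.1.2).re) = fun g =>
      (Complex.I / ((√(n : ℝ) : ℝ) : ℂ) *
        ((Gc s g * Ee f * Gc s g) e.1.1 e.1.2 / ((√(n : ℝ) : ℝ) : ℂ))).re from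
    pd_eq fun z t => hasDerivAt_entry hs _ z f t _ _, ← sq_abs]
  refine (pow_le_pow_left₀ (abs_nonneg _) (Complex.abs_re_le_norm _) 2).trans ?_
  rw [norm_mul, norm_div, norm_div, Complex.norm_I, Complex.norm_real, Real.norm_eq_abs,
    abs_of_nonneg (Real.sqrt_nonneg _), div_mul_div_comm, one_mul, Real.mul_self_sqrt hn0.le, div_pow, Ee_sandwich,
    Gc_symm hs g f.1.2 e.1.2, Gc_symm hs g f.1.1 e.1.2]
  refine div_le_div_of_nonneg_right ?_ (sq_nonneg _)
  refine (pow_le_pow_left₀ (norm_nonneg _) (norm_add_le _ _) 2).trans ?_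
  rw [norm_mul, norm_mul]
  exact add_sq_le

/-- the second moment of the divergence, pointwise -/
lemma sum_sq_fieldR_le (hn : 1 ≤ n) (g : Edge n → ℝ) :
    ∑ e, fieldR s e g ^ 2 + ∑ e, ∑ f, Test.pd f (fieldR s e) g ^ 2 ≤
      -(tauC s g).im / kap s / 2 + (-(tauC s g).im / kap s) ^ 2 := by
  have hn0 : (0 : ℝ) < n := by exact_mod_cast hn
  set H := ∑ a, ∑ b, ‖Gc s g a b‖ ^ 2 with hH
  have hX : -(tauC s g).im / kap s = H / n := by
    rw [div_eq_div_iff hs.ne' hn0.ne', hH, mul_comm _ (kap s), sum_sq_Gc hs g, mul_comm]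
  rw [hX]
  refine add_le_add ?_ ?_
  · have h := Test.two_sum_edge_le (fun a b => ‖Gc s g a b‖ ^ 2) (fun a b => by rw [Gc_symm hs g a b])
      fun a => sq_nonneg _
    have h1 : ∀ e : Edge n, fieldR s e g ^ 2 ≤ ‖Gc s g e.1.1 e.1.2‖ ^ 2 / n := fun e => by
      rw [fieldR, div_pow, Real.sq_sqrt hn0.le, Pm, neg_sq, ← sq_abs]
      exact div_le_div_of_nonneg_right (pow_le_pow_left₀ (abs_nonneg _) (Complex.abs_im_le_norm _) 2) hn0.le
    refine (sum_le_sum fun e _ => h1 e).trans ?_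
    rw [← sum_div, div_div, div_le_div_iff₀ hn0 (by positivity)]
    nlinarith
  · set D := fun x y u v => (‖Gc s g x u‖ * ‖Gc s g y v‖) ^ 2 + (‖Gc s g x v‖ * ‖Gc s g y u‖) ^ 2 with hD
    have h1 : ∀ x y, 2 * ∑ f : Edge n, D x y f.1.1 f.1.2 ≤ ∑ u, ∑ v, D x y u v := fun x y =>
      Test.two_sum_edge_le (D x y) (fun u v => add_comm _ _) fun u => by simp only [hD]; positivity
    have h2 := Test.two_sum_edge_le (fun x y => ∑ u, ∑ v, D x y u v)
      (fun x y => by
        refine sum_congr rfl fun u _ => sum_congr rfl fun v _ => ?_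
        simp only [hD]; ring)
      fun x => sum_nonneg fun u _ => sum_nonneg fun v _ => by simp only [hD]; positivity
    have h3 := sum_le_sum fun (e : Edge n) (_ : e ∈ univ) => h1 e.1.1 e.1.2
    rw [← mul_sum] at h3
    have h4 : ∑ x, ∑ y, ∑ u, ∑ v, D x y u v = 2 * H ^ 2 := by
      simp only [hD, sum_add_distrib, mul_pow]
      have e1 : ∀ x y, ∑ u, ∑ v, ‖Gc s g x u‖ ^ 2 * ‖Gc s g y v‖ ^ 2 =
          (∑ u, ‖Gc s g x u‖ ^ 2) * ∑ v, ‖Gc s g y v‖ ^ 2 := fun x y => (sum_mul_sum _ _ _ _).symm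
      have e2 : ∀ x y, ∑ u, ∑ v, ‖Gc s g x v‖ ^ 2 * ‖Gc s g y u‖ ^ 2 =
          (∑ u, ‖Gc s g x u‖ ^ 2) * ∑ v, ‖Gc s g y v‖ ^ 2 := fun x y => by rw [sum_comm, e1]
      simp only [e1, e2, ← sum_mul_sum, hH]
      ring
    refine (sum_le_sum fun e _ => sum_le_sum fun f _ => sq_pd_fieldR hs hn e f g).trans ?_
    simp only [← sum_div, ← mul_sum]
    rw [div_pow]
    exact div_le_div_of_nonneg_right (by linarith) (sq_nonneg _)

end Vale.Agent.P146.Lower.Res
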