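import Vale.Agent.P146.Lower.Res.Defs
import Vale.Agent.P157.Par.GridRep

/-! P146, polynomial lower bound: the perturbation with every parameter polynomial in the accuracy
(`rep_small` and `grid_params` with their constants written out). -/

open Finset Real
open Vale.Agent.P168.MP hiding avg
open Vale.Agent.P168.MP (avg)
open Vale.Agent.P157.Par

noncomputable section

namespace Vale.Agent.P146.Lower.Res

/-- representation with explicit size and constant -/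
lemma rep_explicit {ε : ℝ} (hε : 0 < ε) {R : ℕ} (hR1' : 1 ≤ R) (hR : 400 / ε ^ 4 ≤ (R : ℝ))
    {Ω : Type} [Fintype Ω] [Nonempty Ω] {N : ℕ} [NeZero N] (w : List Ω → ℝ) (hw : ∀ p, 0 < w p)
    (rd : List Ω → Fin N → Bool) (E : ℝ) (hE : 0 ≤ E) (hI : Ident R (lin R) w rd 2 E) :
    adev R w (ovK rd) (qlev R w rd) ≤
      ε + (4 * R + R / (2 * (ε * (ε / 2) / 4))) / (4 * (ε / 2)) * E := by
  set s := ε / 2
  have hs : 0 < s := by positivity
  set t := ε * s / 4
  have ht : 0 < t := by positivity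
  set k : ℝ := 10 / (ε * s)
  have hR1 : 1 ≤ R := hR1'
  have hR0 : (0:ℝ) < R := by exact_mod_cast hR1
  set q := qlev R w rd
  have hdev : ∀ l, devOf R w (ovK rd) q l ≤ s + (sq2 R w rd l - q l ^ 2) / (4 * s) := by
    intro l
    refine (ET_mono hw fun ps => abs_le_sq hs).trans (le_of_eq ?_)
    simp only [sub_sq, div_eq_mul_inv, ET_add, ET_mul_const, ET_sub, ET_const hw, mul_assoc,
      ET_const_mul]
    show s + (sq2 R w rd l - 2 * (q l * q l) + q l ^ 2) * _ = _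
    ring
  have htop : devOf R w (ovK rd) q R = 0 := by
    have := qlev_top (rd := rd) (R := R) hw
    simp only [q, devOf, this]
    rw [star2 le_rfl]
    simp [ovK, ov_self, ext_const fun p => Z_pos (m := lin R) hw 0 p]
  have hsq : ∀ l, sq2 R w rd l ≤ 1 := fun l =>
    (le_abs_self _).trans (ET_bound hw fun ps => by
      rw [abs_pow]; exact pow_le_one₀ (abs_nonneg _) (abs_ov_le _ _))
  have hv : ∀ l ∈ Finset.range R, sq2 R w rd l - q l ^ 2 ≤ 2 * (1 + R * E) * (1 / ((l:ℝ) + 1)) +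
      4 * (q (l + 1) - q l) + (2 * t + R * E / (2 * t)) + if l = R - 1 then 1 else 0 := by
    intro l hl
    have hl' := Finset.mem_range.1 hl
    have d0 := sub_nonneg.2 (qlev_mono (rd := rd) hw hl')
    have p0 : 0 ≤ 2 * (1 + R * E) * (1 / ((l:ℝ) + 1)) := by positivity
    have p1 : 0 ≤ R * E / (2 * t) := by positivity
    have h1 := hsq l
    have h2 := sq_nonneg (q l)
    rcases Nat.eq_zero_or_pos l with rfl | hl0
    · have p2 : 0 ≤ (R:ℝ) * E := by positivity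
      norm_num
      split <;> linarith
    rcases Nat.lt_or_ge (l + 1) R with h | h
    · rw [if_neg (by omega : ¬ (l = R - 1)), mul_one_div]
      have := var_le hw hE hI hl0 h ht
      linarith
    · rw [if_pos (by omega : l = R - 1)]
      linarith
  have h1 := Finset.sum_le_sum (s := Finset.range R) fun l _ => hdev l
  have h2 := Finset.sum_le_sum hv
  simp only [Finset.sum_add_distrib, ← Finset.sum_div, ← Finset.mul_sum, Finset.sum_const,
    Finset.card_range, nsmul_eq_mul, Finset.sum_range_sub, Finset.sum_ite_eq', Finset.mem_range,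
    show R - 1 < R by omega, if_true] at h1 h2
  have h3 := sum_inv_le R
  have hq0 : q R - q 0 ≤ 1 := by
    have := qlev_nonneg (rd := rd) hw (Nat.zero_le R)
    have := qlev_top (rd := rd) (R := R) hw
    simp only [q]; linarith
  have hRE : 0 ≤ 1 + (R:ℝ) * E := by positivity
  have h4 : 2 * (1 + R * E) * (∑ l ∈ Finset.range R, 1 / ((l:ℝ) + 1)) ≤ 2 * (1 + R * E) * (2 * √R) :=
    mul_le_mul_of_nonneg_left h3 (by positivity)
  have hk2 : (k:ℝ) ≤ √R := Real.le_sqrt_of_sq_le (le_trans (le_of_eq (by simp only [k, s]; field_simp; ring)) hR)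
  have hsR : √(R:ℝ) ≤ R := by
    refine Real.sqrt_le_iff.2 ⟨hR0.le, ?_⟩
    have : (1:ℝ) ≤ R := by exact_mod_cast hR1
    nlinarith
  have h5 : 10 * √(R:ℝ) ≤ ε * s * R := by
    have hk : (10:ℝ) = k * (ε * s) := by simp only [k]; field_simp
    have := mul_le_mul_of_nonneg_left hk2 (show 0 ≤ ε * s by positivity)
    calc 10 * √(R:ℝ) ≤ ε * s * √R * √R := by
          refine mul_le_mul_of_nonneg_right ?_ (Real.sqrt_nonneg _)
          linarith
      _ = ε * s * R := by rw [mul_assoc, Real.mul_self_sqrt hR0.le]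
  have h6 : 1 ≤ √(R:ℝ) := Real.one_le_sqrt.2 (by exact_mod_cast hR1)
  have h7 : R * E * (2 * √R) * 2 ≤ R * E * (2 * R) * 2 := by gcongr
  rw [adev, htop, add_zero, div_le_iff₀ hR0]
  have key : (∑ l ∈ Finset.range R, (sq2 R w rd l - q l ^ 2)) / (4 * s) ≤
      (ε * s * R + 2 * t * R + (4 * R + R / (2 * t)) * (E * R)) / (4 * s) := by
    refine div_le_div_of_nonneg_right ?_ (by positivity)
    have e : (4 * (R:ℝ) + R / (2 * t)) * (E * R) = R * E * (2 * R) * 2 + R * (R * E / (2 * t)) := by ring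
    rw [e]
    have a : 2 * (1 + (R:ℝ) * E) * (2 * √(R:ℝ)) = 4 * √(R:ℝ) + R * E * (2 * √R) * 2 := by ring
    have b : (R:ℝ) * (R * E) / (2 * t) = R * (R * E / (2 * t)) := by ring
    linarith
  have e2 : (ε * s * R + 2 * t * R + (4 * R + R / (2 * t)) * (E * R)) / (4 * s) =
      3 / 8 * ε * R + (4 * R + R / (2 * t)) / (4 * s) * E * R := by
    simp only [t]; field_simp; ring
  have hs' : (R:ℝ) * s = ε / 2 * R := by simp only [s]; ring
  have : 0 ≤ ε * (R:ℝ) := by positivity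
  linarith

/-- the grid with explicit parameters -/
lemma grid_explicit (R : ℕ) (hR : 1 ≤ R) {ε : ℝ} {S : ℕ} (hS : 0 < S) {q : ℝ}
    (hq : 0 < q) (hq1 : q ≤ 1) (hqC : (∑ i : BIdx R 2, identConst R (i.1 : ℕ) 3 + 1) * (4 * q) ≤ ε)
    (hSb : 2 / ((q * q ^ 2) ^ 2 * (q * q ^ 2) * lin R 1) ≤ (S : ℝ)) :
    ∃ M : ℕ, 0 < M ∧ ∀ (N : ℕ) [NeZero N] (W : (Fin N → Bool) → ℝ), (∀ σ, 0 < W σ) →
        Vale.Agent.P168.MP.avg (fun g : BIdx R 2 → Fin M =>
          errSum R S (lin R) W (fun _ => q) (gu (q * q ^ 2) M g)) ≤ ε := by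
  set h := q
  have hh : 0 < h := hq
  have hh1 : h ≤ 1 := hq1
  set H := h ^ 2
  have hH : 0 < H := pow_pos hh _
  set ub := q * H
  have hub : 0 < ub := mul_pos hq hH
  set δ := q * H
  have hδ : 0 < δ := mul_pos hq hH
  have hm1 : (0:ℝ) < lin R 1 := (ok_lin (Ω := ℕ) hR (w := fun _ => 1) fun _ => one_pos).pos 1 le_rfl hR
  have hS0 : (0:ℝ) < S := Nat.cast_pos.2 hS
  obtain ⟨M, hM⟩ := exists_nat_gt (max 1 (3 * seqBound R 1 1 * (S:ℝ) * ub / δ))
  have hM0 : (0:ℝ) < M := lt_of_le_of_lt (le_trans zero_le_one (le_max_left _ _)) hM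
  have hM1 : 0 < M := Nat.cast_pos.1 hM0
  refine ⟨M, hM1, fun N _ W hW => ?_⟩
  have : NeZero M := ⟨hM1.ne'⟩
  have hmad : ∀ i : BIdx R 2, Vale.Agent.P168.MP.avg (fun g : BIdx R 2 → Fin M =>
      mad R (lin R) (pw (S := S) (β := allBatch R 2) R W (fun _ => h) (gu ub M g)) (batchSum R i)) ≤
        2 * δ * S := by
    intro i
    refine (grid_mad (fun w hw => ok_lin hR hw) hR hS hW _ i hub
      hM1).trans ?_
    have h1 : √(2 * S * ub / lin R 1) / ub ≤ δ * S := by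
      rw [div_le_iff₀ hub, sqrt_le_left (by positivity), div_le_iff₀ hm1]
      have := hSb
      rw [div_le_iff₀ (by positivity)] at this
      calc 2 * S * ub ≤ (S * (δ ^ 2 * ub * lin R 1)) * S * ub := by gcongr
        _ = _ := by ring
    have h2 : 3 * seqBound R 1 1 * (S:ℝ) ^ 2 * ub / M ≤ δ * S := by
      have := (le_max_right _ _).trans hM.le
      rw [div_le_iff₀ hδ] at this
      rw [div_le_iff₀ hM0]
      calc 3 * seqBound R 1 1 * (S:ℝ) ^ 2 * ub = 3 * seqBound R 1 1 * S * ub * S := by ring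
        _ ≤ M * δ * S := by gcongr
        _ = _ := by ring
    linarith
  have hterm := fun i => grid_term (N := N) (S := S) (kmax := 2) hR hW (M := M) i hh hh1 hub
    hq.le hS hM1 le_rfl le_rfl (hmad i)
  calc Vale.Agent.P168.MP.avg (fun g : BIdx R 2 → Fin M => errSum R S (lin R) W (fun _ => h) (gu ub M g))
      = ∑ i : BIdx R 2, Vale.Agent.P168.MP.avg (fun g : BIdx R 2 → Fin M => identConst R (i.1 : ℕ) (2 + 1) *
        (mad R (lin R) (pw (S := S) (β := allBatch R 2) R W (fun _ => h) (gu ub M g)) (batchSum R i) /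
          (S * h ^ (i.1 : ℕ)) + |gu ub M g i| / h ^ (i.1 : ℕ) + h)) := by
        simp only [Vale.Agent.P168.MP.avg, errSum]; rw [Finset.sum_comm, sum_div]
    _ ≤ ∑ i : BIdx R 2, identConst R (i.1 : ℕ) (2 + 1) * (4 * q) := sum_le_sum fun i _ => hterm i
    _ ≤ ε := by
        refine le_trans ?_ hqC
        rw [← sum_mul, add_mul]
        exact le_add_of_nonneg_right (by positivity)

lemma card_bidx_le (R : ℕ) (hR : 1 ≤ R) : (Fintype.card (BIdx R 2) : ℝ) ≤ 24 * (R : ℝ) ^ 3 := by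
  have h0 : Fintype.card (Pair 0) = 0 := by decide
  have h1 : Fintype.card (Pair 1) = 1 := by decide
  have h2 : Fintype.card (Pair 2) = 3 := by decide
  have hR1 : (1:ℝ) ≤ R := by exact_mod_cast hR
  rw [Fintype.card_sigma, Fin.sum_univ_three]
  simp only [Fintype.card_prod, Fintype.card_fun, Fintype.card_fin, Fintype.card_bool, Fin.val_zero, Fin.val_one,
    Fin.val_two, h0, h1, h2]
  push_cast
  nlinarith [pow_le_pow_right₀ hR1 (show 1 ≤ 3 by norm_num), one_le_pow₀ (n := 3) hR1]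

lemma identConst_le (R : ℕ) (hR : 1 ≤ R) (k : ℕ) (hk : k ≤ 2) : identConst R k 3 ≤ 1000000 * (R : ℝ) ^ 3 := by
  have hR1 : (1:ℝ) ≤ R := by exact_mod_cast hR
  have h0 : Fintype.card (Pair 0) = 0 := by decide
  have h1 : Fintype.card (Pair 1) = 1 := by decide
  have h2 : Fintype.card (Pair 2) = 3 := by decide
  have p2 : (R:ℝ) ≤ (R:ℝ) ^ 2 := by nlinarith
  have p3 : (R:ℝ) ^ 2 ≤ (R:ℝ) ^ 3 := pow_le_pow_right₀ hR1 (by norm_num)
  interval_cases k <;> simp only [identConst, dkConst, seqBound, h0, h1, h2] <;> norm_num <;> nlinarith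

/-- **Good parameters of polynomial size** -/
theorem exists_good_poly : ∃ (C : ℝ) (k : ℕ), 0 < C ∧ ∀ δ : ℝ, 0 < δ → δ ≤ 1 → ∀ R₀ : ℕ,
    ∃ P : Par, R₀ ≤ P.R ∧ P.Good δ ∧ (P.R : ℝ) ≤ R₀ + C / δ ^ k ∧
      P.cap + pc P ≤ C * ((P.R : ℝ) / δ) ^ k := by
  obtain ⟨B, hB, hBe⟩ : ∃ B : ℝ, 1 ≤ B ∧ B = 8 * 100 * (24 * 1000000 + 1) := ⟨_, by norm_num, rfl⟩
  refine ⟨6403 + 400 * B ^ 9, 200, by positivity, fun δ hδ hδ1 R₀ => ?_⟩
  set R := max (max R₀ 2) ⌈400 / (δ / 2) ^ 4⌉₊ with hRdef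
  have hR2 : 2 ≤ R := (le_max_right _ _).trans (le_max_left _ _)
  have hR1 : 1 ≤ R := by omega
  have hRr : (1:ℝ) ≤ R := by exact_mod_cast hR1
  have hRε : 400 / (δ / 2) ^ 4 ≤ (R:ℝ) :=
    (Nat.le_ceil _).trans (by exact_mod_cast le_max_right _ _)
  obtain ⟨X, hX⟩ : ∃ X, X = (R:ℝ) / δ := ⟨_, rfl⟩
  have hXR : (R:ℝ) ≤ X := hX ▸ le_div_self (by positivity) hδ hδ1
  have hX1 : 1 ≤ X := hRr.trans hXR
  have hXd : 1 / δ ≤ X := hX ▸ div_le_div_of_nonneg_right hRr hδ.le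
  obtain ⟨C', hC'⟩ : ∃ C', C' = (4 * (R:ℝ) + R / (2 * (δ / 2 * (δ / 2 / 2) / 4))) / (4 * (δ / 2 / 2)) := ⟨_, rfl⟩
  have hC0 : 0 ≤ C' := by rw [hC']; positivity
  have hC'le : C' + 1 ≤ 100 * X ^ 4 := by
    have e : C' = 4 * ((R:ℝ) * (1 / δ)) + 16 * ((R:ℝ) * (1 / δ) ^ 3) := by rw [hC']; field_simp; ring
    have a1 : (R:ℝ) * (1 / δ) ≤ X ^ 4 := by
      refine (mul_le_mul hXR hXd (by positivity) (by linarith)).trans ?_
      rw [show X * X = X ^ 2 by ring]; exact pow_le_pow_right₀ hX1 (by norm_num)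
    have a2 : (R:ℝ) * (1 / δ) ^ 3 ≤ X ^ 4 := by
      refine (mul_le_mul hXR (pow_le_pow_left₀ (by positivity) hXd 3) (by positivity) (by linarith)).trans_eq ?_
      ring
    nlinarith [one_le_pow₀ (n := 4) hX1]
  obtain ⟨Ct, hCt⟩ : ∃ Ct, Ct = ∑ i : BIdx R 2, identConst R (i.1 : ℕ) 3 + 1 := ⟨_, rfl⟩
  have hCt1 : 1 ≤ Ct := hCt ▸ le_add_of_nonneg_left (sum_nonneg fun i _ => identConst_nonneg _ _ _)
  have hCtle : Ct ≤ (24 * 1000000 + 1) * X ^ 6 := by
    rw [hCt]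
    have h := sum_le_card_nsmul (univ : Finset (BIdx R 2)) _ (1000000 * (R:ℝ) ^ 3) fun i _ =>
      identConst_le R hR1 (i.1 : ℕ) (Nat.le_of_lt_succ i.1.isLt)
    rw [nsmul_eq_mul, card_univ] at h
    have := mul_le_mul_of_nonneg_right (card_bidx_le R hR1) (show 0 ≤ 1000000 * (R:ℝ) ^ 3 by positivity)
    have := pow_le_pow_left₀ (by positivity) hXR 6
    have e6 : 24 * (R:ℝ) ^ 3 * (1000000 * (R:ℝ) ^ 3) = 24 * 1000000 * (R:ℝ) ^ 6 := by ring
    nlinarith [one_le_pow₀ (n := 6) hX1]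
  obtain ⟨q, hqdef⟩ : ∃ q, q = δ / (8 * (C' + 1) * Ct) := ⟨_, rfl⟩
  have hq : 0 < q := by rw [hqdef]; positivity
  have hq1 : q ≤ 1 := by
    rw [hqdef, div_le_one (by positivity)]
    nlinarith [mul_le_mul_of_nonneg_left hCt1 (show 0 ≤ 8 * (C' + 1) by linarith)]
  have hqX : 1 / q ≤ B * X ^ 11 := by
    rw [hqdef, one_div_div, hBe, div_eq_mul_one_div]
    calc 8 * (C' + 1) * Ct * (1 / δ) ≤ 8 * (100 * X ^ 4) * ((24 * 1000000 + 1) * X ^ 6) * X :=
          mul_le_mul (mul_le_mul (by linarith) hCtle (by linarith) (by positivity)) hXd (by positivity)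
            (by positivity)
      _ = _ := by ring
  obtain ⟨S, hSdef⟩ : ∃ S, S = ⌈2 / ((q * q ^ 2) ^ 2 * (q * q ^ 2) * lin R 1)⌉₊ + 1 := ⟨_, rfl⟩
  have hS : 0 < S := by omega
  have hSb : 2 / ((q * q ^ 2) ^ 2 * (q * q ^ 2) * lin R 1) ≤ (S:ℝ) := by
    rw [hSdef]; push_cast; linarith [Nat.le_ceil (2 / ((q * q ^ 2) ^ 2 * (q * q ^ 2) * lin R 1))]
  have hSle : (S:ℝ) ≤ 4 * (B ^ 9 * X ^ 100) := by
    have e : 2 / ((q * q ^ 2) ^ 2 * (q * q ^ 2) * lin R 1) = 2 * R * (1 / q) ^ 9 := by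
      rw [lin, if_pos hR1, Nat.cast_one]
      field_simp
    have h1 : 2 * (R:ℝ) * (1 / q) ^ 9 ≤ 2 * (B ^ 9 * X ^ 100) := by
      refine (mul_le_mul (mul_le_mul_of_nonneg_left hXR two_pos.le) (pow_le_pow_left₀ (by positivity) hqX 9)
        (by positivity) (by positivity)).trans_eq ?_
      ring
    have h2 : 1 ≤ B ^ 9 * X ^ 100 := one_le_mul_of_one_le_of_one_le (one_le_pow₀ hB) (one_le_pow₀ hX1)
    rw [hSdef]; push_cast
    have := (Nat.ceil_lt_add_one (show 0 ≤ 2 * (R:ℝ) * (1 / q) ^ 9 by positivity)).le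
    rw [e]; linarith
  obtain ⟨M, hM, hgrid⟩ := grid_explicit R hR1 (ε := δ / 2 / (C' + 1)) hS hq hq1
    (le_of_eq (by rw [← hCt, hqdef]; field_simp; ring)) hSb
  let P : Par := ⟨R, S, M, q, q * q ^ 2, hR2, hS, hM, hq, hq1, mul_pos hq (pow_pos hq 2),
    mul_le_one₀ hq1 (sq_nonneg q) (pow_le_one₀ hq.le hq1)⟩
  refine ⟨P, (le_max_left _ _).trans (le_max_left _ _), fun n _ W hW => ?_, ?_, ?_⟩
  · have : NeZero M := ⟨hM.ne'⟩
    set G := BIdx R 2 → Fin M
    refine (Vale.Agent.P168.MP.avg_le_avg (g := fun g : G => δ / 2 + (C' + 1) *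
      errSum R S (lin R) W (fun _ => q) (gu (q * q ^ 2) M g)) fun g => ?_).trans ?_
    · have hok : Ok R (lin R) (pw (S := S) (β := allBatch R 2) R W (fun _ => q) (gu (q * q ^ 2) M g)) :=
        ok_pw_lin hR1 hW
      obtain ⟨hE, hI⟩ := ident_errSum hok hS hR1 fun _ => ⟨hq, hq1⟩
      have := rep_explicit (show 0 < δ / 2 by positivity) hR1 hRε _ hok.wpos _ _ hE hI
      rw [← hC'] at this
      simp only [Par.dev, Par.wp, P] at *
      linarith
    · have he : (Vale.Agent.P168.MP.avg fun g : G => δ / 2 + (C' + 1) * errSum R S (lin R) W (fun _ => q) (gu (q * q ^ 2) M g)) =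
          δ / 2 + (C' + 1) * Vale.Agent.P168.MP.avg fun g : G => errSum R S (lin R) W (fun _ => q) (gu (q * q ^ 2) M g) := by
        have hc := Vale.Agent.P168.MP.card_pos_real (Ω := G)
        simp only [Vale.Agent.P168.MP.avg, sum_add_distrib, sum_const, card_univ, nsmul_eq_mul, ← mul_sum]
        field_simp
      rw [he]
      have := mul_le_mul_of_nonneg_left (hgrid n W hW) (show 0 ≤ C' + 1 by positivity)
      rw [mul_div_cancel₀ _ (show C' + 1 ≠ 0 by positivity)] at this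
      linarith
  · show (R:ℝ) ≤ _
    have hd200 : 1 / δ ^ 4 ≤ 1 / δ ^ 200 := one_div_le_one_div_of_le (pow_pos hδ _)
      (pow_le_pow_of_le_one hδ.le hδ1 (by norm_num))
    have h3 : 1 ≤ 1 / δ ^ 200 := by rw [one_le_div (pow_pos hδ _)]; exact pow_le_one₀ hδ.le hδ1
    have hc := (Nat.ceil_lt_add_one (show 0 ≤ 400 / (δ / 2) ^ 4 by positivity)).le
    rw [show 400 / (δ / 2) ^ 4 = 6400 * (1 / δ ^ 4) by field_simp; ring] at hc
    have hm : R ≤ R₀ + 2 + ⌈400 / (δ / 2) ^ 4⌉₊ := by omega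
    have hm' : (R:ℝ) ≤ R₀ + 2 + ⌈400 / (δ / 2) ^ 4⌉₊ := by exact_mod_cast hm
    rw [show 400 / (δ / 2) ^ 4 = 6400 * (1 / δ ^ 4) by field_simp; ring] at hm'
    rw [div_eq_mul_one_div (6403 + 400 * B ^ 9)]
    nlinarith [pow_nonneg (zero_le_one.trans hB) 9]
  · show P.cap + pc P ≤ _
    have hc := card_bidx_le R hR1
    have hX3 : (R:ℝ) ^ 3 ≤ X ^ 3 := pow_le_pow_left₀ (by positivity) hXR 3
    have hcap : P.cap ≤ (S:ℝ) * (3 * (24 * X ^ 3)) := by
      refine mul_le_mul_of_nonneg_left ?_ (Nat.cast_nonneg _)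
      refine (sum_le_card_nsmul (univ : Finset (BIdx R 2)) _ (3:ℝ) fun i _ => ?_).trans ?_
      · have : (i.1 : ℕ) ≤ 2 := Nat.le_of_lt_succ i.1.isLt
        have : ((i.1 : ℕ) : ℝ) ≤ 2 := by exact_mod_cast this
        show (((i.1 : ℕ)) : ℝ) + 1 ≤ 3
        linarith
      · rw [nsmul_eq_mul, card_univ]; linarith
    have hpc : pc P ≤ 1 + X * (24 * X ^ 3) * S :=
      add_le_add le_rfl (mul_le_mul_of_nonneg_right (mul_le_mul hXR (hc.trans (by linarith)) (Nat.cast_nonneg _)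
        (by linarith)) (Nat.cast_nonneg _))
    have a1 := pow_le_pow_right₀ hX1 (show 3 + 100 ≤ 200 by norm_num)
    have a2 := pow_le_pow_right₀ hX1 (show 4 + 100 ≤ 200 by norm_num)
    have hB9 : 0 ≤ B ^ 9 := pow_nonneg (zero_le_one.trans hB) 9
    have b1 : (S:ℝ) * (3 * (24 * X ^ 3)) ≤ 4 * (B ^ 9 * X ^ 100) * (3 * (24 * X ^ 3)) :=
      mul_le_mul_of_nonneg_right hSle (by positivity)
    have b2 : X * (24 * X ^ 3) * S ≤ X * (24 * X ^ 3) * (4 * (B ^ 9 * X ^ 100)) :=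
      mul_le_mul_of_nonneg_left hSle (by positivity)
    have e1 : 4 * (B ^ 9 * X ^ 100) * (3 * (24 * X ^ 3)) = 288 * (B ^ 9 * X ^ (3 + 100)) := by ring
    have e2 : X * (24 * X ^ 3) * (4 * (B ^ 9 * X ^ 100)) = 96 * (B ^ 9 * X ^ (4 + 100)) := by ring
    have c1 := mul_le_mul_of_nonneg_left a1 hB9
    have c2 := mul_le_mul_of_nonneg_left a2 hB9
    rw [← hX]
    nlinarith [one_le_pow₀ (n := 200) hX1]

end Vale.Agent.P146.Lower.Res
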