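import Vale.Agent.P168.MP.Grow

/-! P146, polynomial lower bound: adding one spin, one-sided. Only the paths whose sites avoid the new spin are
kept, so the cost is the chance to read it, with no exponential of the cost of the perturbation. -/

open Finset Real
open Vale.Agent.P168.MP

noncomputable section

namespace Vale.Agent.P146.Lower.Res

variable {N S : ℕ} [NeZero N] {ι : Type} [Fintype ι] [DecidableEq ι] {β : ι → Batch}

/-- log average over an extended index set, from below -/
lemma log_avg_le_extend {Ω Λ : Type*} [Fintype Ω] [Fintype Λ] [Nonempty Ω] [Nonempty Λ] (e : Ω → Λ)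
    (he : Function.Injective e) {f : Ω → ℝ} {g : Λ → ℝ} (heq : ∀ a, g (e a) = f a) (hf : ∀ a, 0 < f a)
    (hg : ∀ b, 0 ≤ g b) :
    log (avg f) + log ((Fintype.card Ω : ℝ) / Fintype.card Λ) ≤ log (avg g) := by
  classical
  have hn : (0:ℝ) < Fintype.card Ω := card_pos_real
  have hn' : (0:ℝ) < Fintype.card Λ := card_pos_real
  have hX : 0 < avg f := avg_pos hf
  rw [← log_mul hX.ne' (div_pos hn hn').ne']
  refine log_le_log (mul_pos hX (div_pos hn hn')) ?_
  simp only [avg]
  rw [div_mul_div_comm, mul_comm, mul_div_mul_left _ _ hn.ne']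
  refine div_le_div_of_nonneg_right ?_ hn'.le
  calc ∑ a, f a = ∑ b ∈ univ.image e, g b := by
        rw [Finset.sum_image fun a _ b _ h => he h]
        exact sum_congr rfl fun a _ => (heq a).symm
    _ ≤ _ := sum_le_sum_of_subset_of_nonneg (subset_univ _) fun b _ _ => hg b

/-- **One more spin costs at most the chance that the perturbation reads it** -/
theorem grow_lower {R : ℕ} (hR : 2 ≤ R) {W : (Fin N → Bool) → ℝ} (hW : ∀ σ, 0 < W σ)
    {c : (Fin N → Bool) → Bool → ℝ} (hc : ∀ σ s, 0 < c σ s) (h u : ι → ℝ) :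
    logZ0 R (lin R) (pw (N := N) (S := S) (β := β) R (fun σ => W σ * avg (c σ)) h u) -
        (R : ℝ) * ((Fintype.card ι : ℝ) * S) / N ≤
      logZ0 R (lin R) (pw (N := N + 1) (S := S) (β := β) R
        (fun τ => W (fun x => τ x.castSucc) * c (fun x => τ x.castSucc) (τ (Fin.last N))) h u) := by
  obtain ⟨r, rfl⟩ : ∃ r, R = r + 2 := ⟨R - 2, by omega⟩
  set m := lin (r + 2)
  set Wg : (Fin (N + 1) → Bool) → ℝ :=
    fun τ => W (fun x => τ x.castSucc) * c (fun x => τ x.castSucc) (τ (Fin.last N))
  set Wb : (Fin N → Bool) → ℝ := fun σ => W σ * avg (c σ)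
  have hcb : ∀ σ, 0 < avg (c σ) := fun σ => avg_pos (hc σ)
  have hWg : ∀ τ, 0 < Wg τ := fun τ => mul_pos (hW _) (hc _ _)
  have hWb : ∀ σ, 0 < Wb σ := fun σ => mul_pos (hW _) (hcb _)
  have okN := ok_lin (R := r + 2) (by omega) (w := pw (N := N) (S := S) (β := β) (r + 2) Wb h u)
    fun p => mul_pos (hWb _) (exp_pos _)
  have okS := ok_lin (R := r + 2) (by omega) (w := pw (N := N + 1) (S := S) (β := β) (r + 2) Wg h u)
    fun p => mul_pos (hWg _) (exp_pos _)
  set wN := pw (N := N) (S := S) (β := β) (r + 2) Wb h u with hwN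
  set wS := pw (N := N + 1) (S := S) (β := β) (r + 2) Wg h u with hwS
  have hlastS : ∀ (p : List (Mark (N + 1) S β)) o, p.length = r + 1 →
      spinAt (r + 2) (p ++ [o]) = o.1 :=
    fun p o hp => by simp [spinAt, List.getD_eq_getElem?_getD, hp]
  -- equal values when no site reads the new spin
  have hA : ∀ (v : ι × Fin S → Fin N) (a : Bare N S β),
      Z m wN (r + 1) [bareEquiv (v, a)] = Z m (bareW (r + 2) Wb h u v) (r + 1) [a] := by
    intro v a
    refine Z_fibre (w0 := bareW (r + 2) Wb h u v) down avg_down (j := 0) (r + 1) [bareEquiv (v, a)]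
      fun suf _ => ?_
    simp only [Z, hwN, pw_down]
    rfl
  have hA' : ∀ (v : ι × Fin S → Fin N) (a : Bare N S β) (s : Bool),
      Z m wS (r + 1) [bareEquivS (fun i => (v i).castSucc, a, s)] =
        Z m (bareW (r + 2) Wb h u v) (r + 1) [a] := by
    intro v a s
    have e := Z_fibre (m := m) (w := wS) (w0 := bareW (r + 2) Wb h u v) downS
      (fun g => by rw [avg_downS fun a _ => g a]; simp only [avg_const]) (j := 1) r
      [bareEquivS (fun i => (v i).castSucc, a, s)] fun suf hs => ?_
    · rw [e]; simp [(downS_bareEquivS _ _).1]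
    set p := [bareEquivS (fun i => (v i).castSucc, a, s)] ++ suf with hp
    have hl : p.length = r + 1 := by simp [hp, hs]
    have hm1 : m (p.length + 1) = 1 := by
      rw [hl, show r + 1 + 1 = r + 2 by omega]; exact okS.top
    simp only [Z, List.length_map, hm1, rpow_one, div_one]
    have hv : ∀ o i, (((p ++ [o]).getD 0 default).2 i).1 = (v i).castSucc := fun o i => by
      simp [hp, bareEquivS]
    have hb : ∀ q : Bare N S β, spinB (r + 2) (p.map downS ++ [q]) = q.1 := fun q => by
      simp [spinB, List.getD_eq_getElem?_getD, hl]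
    have e2 : ∀ o, wS (p ++ [o]) = (fun (q : Bare N S β) t => W q.1 * c q.1 t *
        exp (gainB (r + 2) h u v (p.map downS ++ [q]))) (downS o) (o.1 (Fin.last N)) := fun o => by
      rw [hwS, pw, hlastS p o hl, gain_downS (r + 2) h u (p ++ [o]) v (hv o), List.map_append]
      rfl
    simp only [e2]
    rw [avg_downS (fun (q : Bare N S β) t => W q.1 * c q.1 t *
      exp (gainB (r + 2) h u v (p.map downS ++ [q])))]
    refine congrArg avg (funext fun q => ?_)
    simp only [bareW, hb, Wb, avg, ← Finset.sum_mul, ← mul_sum]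
    ring
  -- compare the averages over the positions
  have hm : 0 < m 1 := okS.pos 1 le_rfl (by omega)
  set f : (ι × Fin S → Fin N) → ℝ := fun v => avg fun a => Z m wN (r + 1) [bareEquiv (v, a)] ^ m 1
  set g : (ι × Fin S → Fin (N + 1)) → ℝ :=
    fun v => avg fun q : Bare N S β × Bool => Z m wS (r + 1) [bareEquivS (v, q)] ^ m 1
  have eZN : Z m wN (r + 2) [] = avg f ^ (1 / m 1) := by
    rw [Z, List.length_nil, Nat.zero_add, ← avg_equiv bareEquiv, avg_prod_eq]; rfl
  have eZS : Z m wS (r + 2) [] = avg g ^ (1 / m 1) := by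
    rw [Z, List.length_nil, Nat.zero_add, ← avg_equiv bareEquivS, avg_prod_eq]; rfl
  have pf : ∀ v, 0 < f v := fun v => avg_pos fun a => rpow_pos_of_pos (Z_pos okN.wpos _ _) _
  have pg : ∀ v, 0 < g v := fun v => avg_pos fun a => rpow_pos_of_pos (Z_pos okS.wpos _ _) _
  have heq : ∀ v : ι × Fin S → Fin N, g (fun i => (v i).castSucc) = f v := fun v => by
    simp only [g, f]
    rw [avg_prod_eq]
    simp only [hA, hA', avg_const]
  have hlog := log_avg_le_extend (fun (v : ι × Fin S → Fin N) i => (v i).castSucc)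
    (fun a b hab => funext fun i => Fin.castSucc_injective _ (congrFun hab i)) heq pf fun v => (pg v).le
  rw [Fintype.card_fun, Fintype.card_fun, Fintype.card_fin, Fintype.card_fin, Fintype.card_prod,
    Fintype.card_fin, Nat.cast_pow, Nat.cast_pow, ← div_pow, log_pow] at hlog
  have hN0 : (0:ℝ) < N := by exact_mod_cast NeZero.pos N
  have hfr : -(1 / (N:ℝ)) ≤ log ((N:ℝ) / ((N + 1 : ℕ) : ℝ)) := by
    push_cast
    rw [← inv_div ((N:ℝ) + 1) (N:ℝ), log_inv, neg_le_neg_iff]
    refine (log_le_sub_one_of_pos (by positivity)).trans (le_of_eq ?_)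
    field_simp
    ring
  have h3 : log (avg f) - ((Fintype.card ι * S : ℕ) : ℝ) * (1 / N) ≤ log (avg g) := by
    have := mul_le_mul_of_nonneg_left hfr (Nat.cast_nonneg (α := ℝ) (Fintype.card ι * S))
    linarith
  simp only [logZ0, eZN, eZS]
  rw [log_rpow (avg_pos pg), log_rpow (avg_pos pf)]
  have h4 := mul_le_mul_of_nonneg_left h3 (show 0 ≤ 1 / m 1 by positivity)
  refine le_trans (le_of_eq ?_) h4
  rw [mul_sub, show m 1 = 1 / ((r + 2 : ℕ) : ℝ) by simp [m, lin]]
  push_cast
  field_simp

end Vale.Agent.P146.Lower.Res
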