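import Vale.Agent.P146.Lower.Res.Worth
import Vale.Agent.P146.Lower.Res.Eb
import Vale.Agent.P146.Lower.Res.Basic
import Vale.Agent.P146.Lower.Main

/-! P146, polynomial lower bound: affine comparisons of the perturbed means and the size of the plain free energy. -/

open MeasureTheory Finset Real ProbabilityTheory
open Vale.Agent.P150 (gauss)
open Vale.Agent.P168.MP (lin spinAt Mark allBatch)
open Vale.Agent.P157.Par (qlev Prof)

noncomputable section

namespace Vale.Agent.P146.Lower.Res

variable {n : ℕ}

lemma continuous_Yf {X : Type*} [TopologicalSpace X] (β : ℝ) {s : ℝ} (hs : 0 < s) (K γ : ℝ) (R L : ℕ)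
    {q : X → ℕ → ℝ} (hq : ∀ l, Continuous fun x => q x l) : Continuous fun x => Yf β s K γ R L (q x) := by
  have hd : ∀ l, Continuous fun x => dlev R (q x) l := fun l => by
    unfold dlev
    exact (hq R).sub (((continuous_const.mul (hq l)).add (continuous_finsetSum _ fun i _ => hq i)).div_const _)
  have hden : ∀ l x, zeta s - ((β * dlev R (q x) l : ℝ) : ℂ) ≠ 0 := fun l x h => by
    have := congrArg Complex.im h
    simp [zeta] at this
    linarith
  have hc : ∀ l, Continuous fun x => zeta s - ((β * dlev R (q x) l : ℝ) : ℂ) := fun l =>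
    continuous_const.sub (Complex.continuous_ofReal.comp (continuous_const.mul (hd l)))
  have hh : ∀ l, Continuous fun x => hk β s (dlev R (q x) l) := fun l =>
    (Complex.continuous_im.comp ((Complex.continuous_ofReal.comp (hd l)).div (hc l) (hden l))).neg
  have hf : ∀ l, Continuous fun x => flat β s R (q x) l := fun l =>
    (Complex.continuous_im.comp (((Complex.continuous_ofReal.comp (hq l)).mul continuous_const).div
      ((hc 0).mul (hc l)) fun x => mul_ne_zero (hden 0 x) (hden l x))).neg
  have hcut : ∀ l, Continuous fun x => cut s K (dropD R (q x) l) := fun l => by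
    unfold cut dropD
    exact continuous_const.div (continuous_const.add ((((hd 0).sub (hd l)).div_const _).pow 2))
      fun x => by positivity
  exact (continuous_finsetSum _ fun l _ => (continuous_const.mul ((hh 0).sub (hh l))).add
    (continuous_const.mul ((hcut l).mul (hf l)))).div_const _

/-- the perturbed mean is monotone and affine -/
lemma mean_affine_le (P : Par) [NeZero n] (β s lam : ℝ) (v : Cfg n → ℝ)
    {Φ Ψ : (List (Mark n P.S (allBatch P.R 2)) → ℝ) → ℝ} (c₀ c₁ : ℝ)
    (hΦ : ∀ u, Integrable (fun g => Φ (P.wp (wgt β s lam v g) u)) (gauss (Edge n)))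
    (hΨ : ∀ u, Integrable (fun g => Ψ (P.wp (wgt β s lam v g) u)) (gauss (Edge n)))
    (h : ∀ g u, c₀ + c₁ * Φ (P.wp (wgt β s lam v g) u) ≤ Ψ (P.wp (wgt β s lam v g) u)) :
    c₀ + c₁ * mean (n := n) P β s lam v (fun _ w => Φ w) ≤ mean (n := n) P β s lam v (fun _ w => Ψ w) := by
  have := P.nonempty_grid
  have hu := fun u => integral_mono ((integrable_const c₀).add ((hΦ u).const_mul c₁)) (hΨ u) (fun g => h g u)
  simp only [Pi.add_apply] at hu
  refine le_trans (le_of_eq ?_) (Vale.Agent.P168.MP.avg_le_avg hu)
  have hc : (Fintype.card P.Grid : ℝ) ≠ 0 := Nat.cast_ne_zero.2 Fintype.card_ne_zero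
  simp only [mean, Vale.Agent.P168.MP.avg,
    fun u => integral_add (integrable_const c₀) ((hΦ u).const_mul c₁), integral_const, integral_const_mul,
    probReal_univ, one_smul, sum_add_distrib, sum_const, card_univ, nsmul_eq_mul, ← mul_sum]
  field_simp

lemma inf_le_mean {β : ℝ} (hβ : 0 ≤ β) (P : Par) (n : ℕ) [NeZero n] {s : ℝ} (hs : 0 < kap s) (lam : ℝ) :
    sInf (skValues β) ≤
      mean (n := n) P β s lam 0 (fun _ w => Vsk β P.R (qlev P.R w (spinAt P.R))) := by
  have := mean_affine_le P (n := n) β s lam 0 (sInf (skValues β)) 0 (Φ := fun _ => 0)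
    (Ψ := fun w => Vsk β P.R (qlev P.R w (spinAt P.R))) (fun _ => integrable_zero _ _ _)
    (fun u => (eb_vsk P β hs lam 0 u).integrable) fun g u => by
      obtain ⟨hp, hp1⟩ := qlev_wgt_prof P β s lam 0 g u
      simpa using sInf_le_vsk hβ P.one_le hp hp1
  simpa using this

/-- the plain free energy is linear in the size -/
lemma plain_size {β : ℝ} (hβ : 0 ≤ β) : ∃ C : ℝ, 0 ≤ C ∧ ∀ n : ℕ, 1 ≤ n →
    |∫ g : Edge n → ℝ, log (partition β g / 2 ^ n) ∂gauss (Edge n)| ≤ C * n := by
  refine ⟨|Vsk β 1 fun _ => 1|, abs_nonneg _, fun n hn => ?_⟩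
  have h2 := sk_upper hβ (R := 1) le_rfl (q := fun _ => 1) ⟨zero_le_one, fun _ _ => le_rfl, le_rfl⟩ rfl hn
  have heb : Integrable (fun g : Edge n → ℝ => log (partition β g / 2 ^ n)) (gauss (Edge n)) := by
    have hk : 0 < kap (1 / 4 : ℝ) := (kap_bounds (by norm_num) le_rfl).2.2
    have h := (eb_logAvg (n := n) β hk 0 0).integrable
    refine h.congr (Filter.Eventually.of_forall fun g => ?_)
    simp [Vale.Agent.P168.MP.avg, wgt, partition]
  set x₀ : Cfg n → ℝ := fun x => 1
  have h1 : 0 ≤ ∫ g : Edge n → ℝ, log (partition β g / 2 ^ n) ∂gauss (Edge n) := by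
    have hpt : ∀ g : Edge n → ℝ, (∑ x : Cfg n, β * energy g x) / 2 ^ n ≤ log (partition β g / 2 ^ n) := fun g => by
      rw [← log_exp ((∑ x : Cfg n, β * energy g x) / 2 ^ n)]
      refine log_le_log (exp_pos _) ?_
      have h := convexOn_exp.map_sum_le (t := (univ : Finset (Cfg n))) (w := fun _ => 1 / (2:ℝ) ^ n)
        (p := fun x => β * energy g x) (fun _ _ => by positivity) (by simp) fun _ _ => Set.mem_univ _
      simp only [smul_eq_mul] at h
      simp only [partition, one_div] at h ⊢
      rw [div_eq_inv_mul, div_eq_inv_mul, mul_sum, mul_sum]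
      exact h
    have hz : ∀ x : Cfg n, ∫ g : Edge n → ℝ, β * energy g x ∂gauss (Edge n) = 0 := fun x => by
      rw [integral_const_mul]
      simp only [energy]
      rw [integral_const_mul, integral_finsetSum _ fun e _ => ((EB.proj e).mul (EB.const _)).integrable]
      have he : ∀ e : Edge n, ∫ g : Edge n → ℝ, g e * bond x e ∂gauss (Edge n) = 0 := fun e => by
        have := EB.ibp e (φ := fun _ => bond x e) (φ' := fun _ => (0:ℝ)) (EB.const _) (EB.const _)
          (fun _ t => hasDerivAt_const t _)
        simpa using this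
      simp [he]
    have hi : ∀ x : Cfg n, Integrable (fun g : Edge n → ℝ => β * energy g x) (gauss (Edge n)) := fun x =>
      (eb_energy x).integrable.const_mul β
    have := integral_mono ((integrable_finsetSum univ fun x _ => hi x).div_const _) heb hpt
    rw [integral_div, integral_finsetSum _ fun x _ => hi x] at this
    simpa [hz] using this
  rw [abs_of_nonneg h1]
  refine h2.trans ?_
  rw [mul_comm]
  exact mul_le_mul_of_nonneg_right (le_abs_self _) (Nat.cast_nonneg n)

end Vale.Agent.P146.Lower.Res
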