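import Vale.Agent.P146.Lower.Res.RecDefs

/-! P146, polynomial lower bound, recursion: the worth of the test is read off the residual, by algebra. -/

open Finset Real
open Vale.Agent.P157.Par (Prof)

noncomputable section

namespace Vale.Agent.P146.Lower.Res

lemma cdlev_re (R : ℕ) (w : ℕ → ℂ) (l : ℕ) : (cdlev R w l).re = dlev R (fun i => (w i).re) l := by
  simp [cdlev, dlev, Complex.re_sum]

lemma cdlev_im (R : ℕ) (w : ℕ → ℂ) (l : ℕ) : (cdlev R w l).im = dlev R (fun i => (w i).im) l := by
  simp [cdlev, dlev, Complex.im_sum]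

lemma dlev_zero_sub (R : ℕ) (w : ℕ → ℝ) {l : ℕ} (hl : l ≤ R) :
    dlev R w 0 - dlev R w l = ((l : ℝ) * w l - ∑ i ∈ range l, w i) / R := by
  simp only [dlev, Nat.Ico_zero_eq_range, ← sum_range_add_sum_Ico w hl, Nat.cast_zero, zero_mul, zero_add]
  ring

/-- the residual's susceptibility -/
lemma cdlev_cres {β s : ℝ} {R : ℕ} (hR : 1 ≤ R) (q : ℕ → ℝ) (t : ℕ → ℂ) {l : ℕ} (hl : l ≤ R) :
    cdlev R (cres β s R q t) l = den β s R q l * cdlev R t l - (dlev R q l : ℂ) := by
  have h1 := dlev_conv hR q (fun i => (t i).re) (R - l) l (by omega)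
  have h2 := dlev_conv hR q (fun i => (t i).im) (R - l) l (by omega)
  have L : ∀ (a b c : ℝ) (f g h : ℕ → ℝ), dlev R (fun i => a * f i + b * g i + c * h i) l =
      a * dlev R f l + b * dlev R g l + c * dlev R h l := fun a b c f g h => by
    simp only [dlev, sum_add_distrib, ← mul_sum]; ring
  have e1 : ∀ i, (cres β s R q t i).re = (zeta s).re * (t i).re + (-(zeta s).im) * (t i).im +
      1 * (-q i - β * conv R q (fun i => (t i).re) i) := fun i => by
    simp only [cres, Complex.mul_re]; ring
  have e2 : ∀ i, (cres β s R q t i).im = (zeta s).re * (t i).im + (zeta s).im * (t i).re +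
      (-β) * conv R q (fun i => (t i).im) i := fun i => by
    simp only [cres, Complex.mul_im]; ring
  have e3 : dlev R (fun i => -q i - β * conv R q (fun i => (t i).re) i) l =
      -dlev R q l - β * dlev R (conv R q fun i => (t i).re) l := by
    simp only [dlev, sum_sub_distrib, sum_neg_distrib, ← mul_sum]; ring
  apply Complex.ext
  · rw [cdlev_re, funext e1, L, e3, h1]
    simp only [den, Complex.sub_re, Complex.mul_re, Complex.sub_im, Complex.ofReal_re, Complex.ofReal_im,
      cdlev_re, cdlev_im]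
    ring
  · rw [cdlev_im, funext e2, L, h2]
    simp only [den, Complex.sub_re, Complex.mul_im, Complex.sub_im, Complex.ofReal_re, Complex.ofReal_im,
      cdlev_re, cdlev_im]
    ring

/-- the correction of the convolution below the level -/
def corr (R : ℕ) (q : ℕ → ℝ) (t : ℕ → ℂ) (l : ℕ) : ℂ :=
  (∑ i ∈ range l, ((q l - q i : ℝ) : ℂ) * t i) / R

/-- the residual in terms of the susceptibility at the bottom -/
lemma cres_eq {β s : ℝ} {R : ℕ} (hR : 1 ≤ R) (q : ℕ → ℝ) (t : ℕ → ℂ) {l : ℕ} (hl : l ≤ R) :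
    cres β s R q t l =
      den β s R q l * t l - (q l : ℂ) * (1 + (β : ℂ) * cdlev R t 0) - (β : ℂ) * corr R q t l := by
  have key : ∀ f : ℕ → ℝ, conv R q f l =
      q l * dlev R f 0 + f l * dlev R q l + (∑ i ∈ range l, (q l - q i) * f i) / R := fun f => by
    have h := dlev_zero_sub R f hl
    rw [conv_eq hR q f hl, show dlev R f 0 = dlev R f l + (dlev R f 0 - dlev R f l) by ring, h]
    simp only [sub_mul, sum_sub_distrib, ← mul_sum]
    ring
  apply Complex.ext
  · show (zeta s * t l).re - q l - β * conv R q (fun i => (t i).re) l = _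
    rw [key]
    simp only [den, corr, Complex.sub_re, Complex.mul_re, Complex.sub_im, Complex.add_re, Complex.add_im,
      Complex.one_re, Complex.one_im, Complex.ofReal_re, Complex.ofReal_im, cdlev_re, cdlev_im, Complex.re_sum,
      Complex.div_natCast_re, zero_mul, sub_zero, zero_add]
    ring
  · show (zeta s * t l).im - β * conv R q (fun i => (t i).im) l = _
    rw [key]
    simp only [den, corr, Complex.sub_re, Complex.mul_im, Complex.sub_im, Complex.add_re, Complex.add_im,
      Complex.one_re, Complex.one_im, Complex.ofReal_re, Complex.ofReal_im, cdlev_re, cdlev_im, Complex.im_sum,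
      Complex.div_natCast_im, zero_mul, sub_zero, zero_add]
    ring_nf

lemma cut_nonneg (s K d : ℝ) : 0 ≤ cut s K d := by unfold cut; positivity

lemma cut_le_one (s K d : ℝ) : cut s K d ≤ 1 := by
  unfold cut; rw [div_le_one (by positivity)]; linarith [sq_nonneg (d / (K * s))]

lemma cut_mul_le {s K d : ℝ} (hKs : 0 < K * s) : cut s K d * d ≤ K * s / 2 := by
  unfold cut
  rw [div_mul_eq_mul_div, one_mul, div_le_iff₀ (by positivity)]
  have e : d / (K * s) * (K * s) = d := div_mul_cancel₀ _ hKs.ne'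
  nlinarith [sq_nonneg (d / (K * s) - 1), mul_nonneg (sq_nonneg (d / (K * s) - 1)) hKs.le]

/-- **The worth is at most the size of the level values plus the tested residual** -/
theorem worth_le {β s K γ T m : ℝ} (hβ : 0 ≤ β) (hs : 0 < s) (hK : 0 < K) (hγ : 0 ≤ γ) {R l : ℕ}
    {q : ℕ → ℝ} {t : ℕ → ℂ} (hq : Prof R q 1) (_hq1 : q R = 1) (hl : 0 < l) (hlR : l ≤ R)
    (hT : ∀ i ≤ R, |(t i).im| ≤ T) (hm : ∀ i ≤ R, ‖t i‖ ≤ m) :
    worth β s K γ R q l ≤ (2 + γ) * T + γ * (β * K / 2 * m) +
      (R : ℝ) / l * ((Tf β s K R q 0 0 * cdlev R (cres β s R q t) 0).im -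
        (Tf β s K R q l 0 * cdlev R (cres β s R q t) l).im) +
      γ * ((Tf β s K R q l 2 * cdlev R (cres β s R q t) 0).im + (Tf β s K R q l 1 * cres β s R q t l).im) := by
  have hR : 1 ≤ R := le_trans hl hlR
  have hu : ∀ i, (den β s R q i).im = s := fun i => by simp [den, zeta]
  have hu0 : ∀ i, den β s R q i ≠ 0 := fun i h => by
    have := hu i; rw [h] at this; simp at this; linarith
  set u := den β s R q 0
  set v := den β s R q l
  set c : ℝ := cut s K (dropD R q l)
  have hT0 : Tf β s K R q 0 0 * cdlev R (cres β s R q t) 0 = cdlev R t 0 - (dlev R q 0 : ℂ) / u := by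
    rw [cdlev_cres hR q t (Nat.zero_le _)]
    show u⁻¹ * (u * _ - _) = _
    rw [mul_sub, inv_mul_cancel_left₀ (hu0 0), inv_mul_eq_div]
  have hTl : Tf β s K R q l 0 * cdlev R (cres β s R q t) l = cdlev R t l - (dlev R q l : ℂ) / v := by
    rw [cdlev_cres hR q t hlR]
    show v⁻¹ * (v * _ - _) = _
    rw [mul_sub, inv_mul_cancel_left₀ (hu0 l), inv_mul_eq_div]
  have hflat : Tf β s K R q l 2 * cdlev R (cres β s R q t) 0 + Tf β s K R q l 1 * cres β s R q t l =
      (c : ℂ) * (t l - (q l : ℂ) * zeta s / (u * v) - (β : ℂ) * (corr R q t l / v)) := by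
    rw [cdlev_cres hR q t (Nat.zero_le _), cres_eq hR q t hlR]
    show ((β * c * q l : ℝ) : ℂ) / (u * v) * _ + (c : ℂ) / v * _ = _
    have hz : zeta s = u + ((β * dlev R q 0 : ℝ) : ℂ) := by simp [u, den]
    have h0 : u ≠ 0 := hu0 0
    have hl' : v ≠ 0 := hu0 l
    rw [hz]
    push_cast
    field_simp
    ring
  have hflat' : (Tf β s K R q l 2 * cdlev R (cres β s R q t) 0).im + (Tf β s K R q l 1 * cres β s R q t l).im =
      c * (t l).im + c * flat β s R q l - c * β * (corr R q t l / v).im := by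
    have hf : flat β s R q l = -((q l : ℂ) * zeta s / (u * v)).im := rfl
    rw [← Complex.add_im, hflat, Complex.im_ofReal_mul, Complex.sub_im, Complex.sub_im, Complex.im_ofReal_mul, hf]
    ring
  rw [hT0, hTl, hflat', Complex.sub_im, Complex.sub_im]
  have hh : ∀ i, hk β s (dlev R q i) = -((dlev R q i : ℂ) / den β s R q i).im := fun i => rfl
  have hsum : -(2 * T) ≤ (R : ℝ) / l * ((cdlev R t 0).im - (cdlev R t l).im) := by
    rw [cdlev_im, cdlev_im, dlev_zero_sub R _ hlR]
    have hR0 : (0:ℝ) < R := Nat.cast_pos.2 hR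
    have hl0 : (0:ℝ) < l := Nat.cast_pos.2 hl
    rw [div_mul_div_comm, mul_comm (R:ℝ), mul_div_mul_right _ _ hR0.ne', le_div_iff₀ hl0]
    have : ∑ i ∈ range l, (t i).im ≤ ∑ _i ∈ range l, T :=
      sum_le_sum fun i hi => (abs_le.1 (hT i ((mem_range.1 hi).le.trans hlR))).2
    simp only [sum_const, card_range, nsmul_eq_mul] at this
    nlinarith [(abs_le.1 (hT l hlR)).1]
  have hc0 : 0 ≤ c := cut_nonneg _ _ _
  have hc1 : c ≤ 1 := cut_le_one _ _ _
  have hti : -T ≤ c * (t l).im := by
    have h := (abs_le.1 (hT l hlR)).1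
    have := mul_le_mul_of_nonneg_left h hc0
    nlinarith [mul_le_of_le_one_left ((abs_nonneg _).trans (hT l hlR)) hc1]
  have hcorr : c * β * (corr R q t l / v).im ≤ β * K / 2 * m := by
    have hmono : ∀ i ∈ range l, 0 ≤ q l - q i := fun i hi => by
      have h : ∀ j, i ≤ j → j ≤ R → q i ≤ q j := fun j hij => by
        induction j, hij using Nat.le_induction with
        | base => exact fun _ => le_rfl
        | succ j hij ih => exact fun hj => (ih (by omega)).trans (hq.mono j (by omega))
      linarith [h l (mem_range.1 hi).le hlR]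
    have hd : dropD R q l = (∑ i ∈ range l, (q l - q i)) / R := by
      rw [dropD, dlev_zero_sub R q hlR, sum_sub_distrib, sum_const, card_range, nsmul_eq_mul]
    have hd0 : 0 ≤ dropD R q l := by rw [hd]; exact div_nonneg (sum_nonneg hmono) (Nat.cast_nonneg _)
    have hn : ‖corr R q t l‖ ≤ dropD R q l * m := by
      rw [hd, corr, norm_div, Complex.norm_natCast, div_mul_eq_mul_div, sum_mul]
      refine div_le_div_of_nonneg_right ((norm_sum_le _ _).trans (sum_le_sum fun i hi => ?_)) (Nat.cast_nonneg _)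
      rw [norm_mul, Complex.norm_real, Real.norm_eq_abs, abs_of_nonneg (hmono i hi)]
      exact mul_le_mul_of_nonneg_left (hm i ((mem_range.1 hi).le.trans hlR)) (hmono i hi)
    have hm0 : 0 ≤ m := (norm_nonneg _).trans (hm l hlR)
    have hvn : s ≤ ‖v‖ := (hu l).symm.le.trans ((le_abs_self _).trans (Complex.abs_im_le_norm v))
    have him : (corr R q t l / v).im ≤ dropD R q l * m / s := by
      refine (le_abs_self _).trans ((Complex.abs_im_le_norm _).trans ?_)
      rw [norm_div]
      exact div_le_div₀ (mul_nonneg hd0 hm0) hn hs hvn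
    refine (mul_le_mul_of_nonneg_left him (mul_nonneg hc0 hβ)).trans ?_
    rw [show c * β * (dropD R q l * m / s) = β * m / s * (c * dropD R q l) by ring,
      show β * K / 2 * m = β * m / s * (K * s / 2) by field_simp]
    exact mul_le_mul_of_nonneg_left (cut_mul_le (mul_pos hK hs)) (by positivity)
  have hg := mul_le_mul_of_nonneg_left (show -(T + β * K / 2 * m) ≤ c * (t l).im - c * β * (corr R q t l / v).im by
    linarith) hγ
  rw [worth, hh, hh]
  linarith

end Vale.Agent.P146.Lower.Res
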