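import Vale.Agent.P146.Lower.Res.RecDefs

/-! P146, polynomial lower bound, recursion: calculus and sizes of the three tests. -/

open Finset Real

noncomputable section

namespace Vale.Agent.P146.Lower.Res

variable {β s K : ℝ} {R : ℕ}

lemma den_im (β s : ℝ) (R : ℕ) (q : ℕ → ℝ) (l : ℕ) : (den β s R q l).im = s := by
  simp [den, zeta]

lemma le_norm_den (hs : 0 < s) (q : ℕ → ℝ) (l : ℕ) : s ≤ ‖den β s R q l‖ := by
  have h := Complex.abs_im_le_norm (den β s R q l)
  rw [den_im, abs_of_pos hs] at h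
  exact h

lemma den_ne (hs : 0 < s) (q : ℕ → ℝ) (l : ℕ) : den β s R q l ≠ 0 :=
  norm_pos_iff.1 (hs.trans_le (le_norm_den hs q l))

lemma cut_abs (s K d : ℝ) : |cut s K d| ≤ 1 := by
  rw [cut, abs_of_nonneg (by positivity), div_le_one (by positivity)]
  linarith [sq_nonneg (d / (K * s))]

lemma dcut_abs (hs : 0 < s) (hK : 0 < K) (d : ℝ) : |dcut s K d| ≤ 1 / (K * s) := by
  have hKs : 0 < K * s := mul_pos hK hs
  rw [dcut, abs_div, abs_div, abs_neg, abs_of_pos hKs]
  refine div_le_div_of_nonneg_right ?_ hKs.le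
  set x := d / (K * s)
  rw [abs_of_pos (show (0:ℝ) < (1 + x ^ 2) ^ 2 by positivity), div_le_one (by positivity), abs_mul, abs_two]
  nlinarith [sq_nonneg (|x| - 1), sq_abs x, sq_nonneg (x ^ 2)]

lemma hasDerivAt_cut (s K d : ℝ) : HasDerivAt (cut s K) (dcut s K d) d := by
  have h : HasDerivAt (fun d => 1 + (d / (K * s)) ^ 2) (2 * (d / (K * s)) * (1 / (K * s))) d := by
    refine ((((hasDerivAt_id' d).div_const (K * s)).fun_pow 2).const_add 1).congr_deriv ?_
    push_cast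
    ring
  refine ((hasDerivAt_const d (1:ℝ)).fun_div h (by positivity)).congr_deriv ?_
  simp only [dcut]
  ring

lemma hasDerivAt_dlev {Q : ℝ → ℕ → ℝ} {dQ : ℕ → ℝ} {t₀ : ℝ}
    (hQ : ∀ i ≤ R, HasDerivAt (fun t => Q t i) (dQ i) t₀) {l : ℕ} (hl : l ≤ R) :
    HasDerivAt (fun t => dlev R (Q t) l) (dlev R dQ l) t₀ :=
  (hQ R le_rfl).fun_sub ((((hQ l hl).const_mul (l:ℝ)).fun_add
    (HasDerivAt.fun_sum fun i hi => hQ i (mem_Ico.1 hi).2.le)).div_const (R:ℝ))

set_option linter.unusedVariables false in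
theorem hasDerivAt_Tf {β s K : ℝ} (hs : 0 < s) (hK : 0 < K) (R l : ℕ) {Q : ℝ → ℕ → ℝ} {dQ : ℕ → ℝ} {t₀ : ℝ}
    (hQ : ∀ i ≤ R, HasDerivAt (fun t => Q t i) (dQ i) t₀) (hl : l ≤ R) (k : Fin 3) :
    HasDerivAt (fun t => Tf β s K R (Q t) l k)
      (Ta β s K R (Q t₀) l k 0 * (dlev R dQ 0 : ℂ) + Ta β s K R (Q t₀) l k 1 * (dlev R dQ l : ℂ) +
        Ta β s K R (Q t₀) l k 2 * (dQ l : ℂ)) t₀ := by
  have h0 := hasDerivAt_dlev hQ (Nat.zero_le R)
  have h1 := hasDerivAt_dlev hQ hl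
  have hv : ∀ j : ℕ, HasDerivAt (fun t => dlev R (Q t) j) (dlev R dQ j) t₀ →
      HasDerivAt (fun t => den β s R (Q t) j) (-((β : ℂ) * (dlev R dQ j : ℂ))) t₀ := fun j hj => by
    refine ((hj.const_mul β).ofReal_comp.const_sub (zeta s)).congr_deriv ?_
    push_cast
    rfl
  have hu := hv 0 h0
  have hw := hv l h1
  have hc : HasDerivAt (fun t => (cut s K (dropD R (Q t) l) : ℂ))
      ((dcut s K (dropD R (Q t₀) l) : ℂ) * ((dlev R dQ 0 : ℂ) - (dlev R dQ l : ℂ))) t₀ := by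
    have h : HasDerivAt (fun t => dropD R (Q t) l) (dlev R dQ 0 - dlev R dQ l) t₀ := h0.fun_sub h1
    refine ((hasDerivAt_cut s K _).comp t₀ h).ofReal_comp.congr_deriv ?_
    push_cast
    ring
  have hq : HasDerivAt (fun t => (Q t l : ℂ)) (dQ l : ℂ) t₀ := (hQ l hl).ofReal_comp
  have n0 : den β s R (Q t₀) 0 ≠ 0 := den_ne hs _ _
  have n1 : den β s R (Q t₀) l ≠ 0 := den_ne hs _ _
  fin_cases k
  · refine (hw.fun_inv n1).congr_deriv ?_
    simp [Ta]
    field_simp
  · refine (hc.fun_div hw n1).congr_deriv ?_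
    simp [Ta]
    field_simp
    ring
  · have hnum : HasDerivAt (fun t => ((β * cut s K (dropD R (Q t) l) * Q t l : ℝ) : ℂ))
        ((β : ℂ) * ((dcut s K (dropD R (Q t₀) l) : ℂ) * ((dlev R dQ 0 : ℂ) - (dlev R dQ l : ℂ)) * (Q t₀ l : ℂ) +
          (cut s K (dropD R (Q t₀) l) : ℂ) * (dQ l : ℂ))) t₀ := by
      simpa [mul_assoc] using (hc.fun_mul hq).const_mul (β : ℂ)
    refine (hnum.fun_div (hu.fun_mul hw) (mul_ne_zero n0 n1)).congr_deriv ?_
    simp [Ta]
    field_simp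
    ring

theorem test_bounds {β : ℝ} (hβ : 0 ≤ β) : ∃ C, 0 ≤ C ∧ ∀ (s K : ℝ) (R l : ℕ) (q : ℕ → ℝ), 0 < s → s ≤ 1 / 4 →
    0 < K → K ≤ 1 → |q l| ≤ 1 → ∀ k, ‖Tf β s K R q l k‖ ≤ C / s ^ 2 ∧
      ∀ j, ‖Ta β s K R q l k j‖ ≤ C / (K * s ^ 3) := by
  refine ⟨2 * (1 + β) ^ 2, by positivity, fun s K R l q hs hs1 hK hK1 hq k => ?_⟩
  have hs' : s ≤ 1 := by linarith
  set c : ℂ := (cut s K (dropD R q l) : ℂ)
  set c' : ℂ := (dcut s K (dropD R q l) : ℂ)
  set u := den β s R q 0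
  set v := den β s R q l
  have hu : ‖u⁻¹‖ ≤ 1 / s := by rw [norm_inv, one_div]; exact inv_anti₀ hs (le_norm_den hs q 0)
  have hv : ‖v⁻¹‖ ≤ 1 / s := by rw [norm_inv, one_div]; exact inv_anti₀ hs (le_norm_den hs q l)
  have hc : ‖c‖ ≤ 1 := by rw [Complex.norm_real]; exact cut_abs _ _ _
  have hc' : ‖c'‖ ≤ 1 / (K * s) := by rw [Complex.norm_real]; exact dcut_abs hs hK _
  have hb : ‖(β : ℂ)‖ = β := by rw [Complex.norm_real]; exact abs_of_nonneg hβ
  have hql : ‖(q l : ℂ)‖ ≤ 1 := by rw [Complex.norm_real]; exact hq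
  set S := 2 * (1 + β) ^ 2
  have hS : 1 ≤ S ∧ β ≤ S ∧ β ^ 2 ≤ S ∧ β + β ^ 2 ≤ S ∧ 1 + β ≤ S := by
    refine ⟨?_, ?_, ?_, ?_, ?_⟩ <;> simp only [S] <;> nlinarith
  obtain ⟨S1, S2, S3, S4, S5⟩ := hS
  have hKs : K * s ^ 3 ≤ s ^ 2 := by
    calc K * s ^ 3 = K * s * s ^ 2 := by ring
      _ ≤ 1 * s ^ 2 := mul_le_mul_of_nonneg_right (mul_le_one₀ hK1 hs.le hs') (sq_nonneg s)
      _ = s ^ 2 := one_mul _
  have hA : 0 < K * s ^ 3 := by positivity
  have p1 : 1 / s ≤ 1 / s ^ 2 :=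
    one_div_le_one_div_of_le (by positivity) (by nlinarith)
  have p2 : 1 / s ^ 2 ≤ 1 / (K * s ^ 3) := one_div_le_one_div_of_le hA hKs
  have p3 : 1 / s ^ 3 ≤ 1 / (K * s ^ 3) :=
    one_div_le_one_div_of_le hA (mul_le_of_le_one_left (by positivity) hK1)
  have p4 : 1 / (K * s) * (1 / s) ≤ 1 / (K * s ^ 3) := by
    rw [one_div_mul_one_div]
    refine one_div_le_one_div_of_le hA ?_
    rw [mul_assoc]
    exact mul_le_mul_of_nonneg_left (by nlinarith) hK.le
  have p5 : 1 / (K * s) * (1 / s) * (1 / s) = 1 / (K * s ^ 3) := by field_simp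
  have e1 : ‖(β : ℂ) * v⁻¹ * v⁻¹‖ ≤ β * (1 / s ^ 2) := by
    rw [norm_mul, norm_mul, hb]
    calc β * ‖v⁻¹‖ * ‖v⁻¹‖ ≤ β * (1 / s) * (1 / s) := by gcongr
      _ = _ := by ring
  have e2 : ‖c' * v⁻¹‖ ≤ 1 / (K * s) * (1 / s) := by
    rw [norm_mul]; exact mul_le_mul hc' hv (norm_nonneg _) (by positivity)
  have e3 : ‖(β : ℂ) * c * u⁻¹ * v⁻¹‖ ≤ β * (1 / s ^ 2) := by
    rw [norm_mul, norm_mul, norm_mul, hb]
    calc β * ‖c‖ * ‖u⁻¹‖ * ‖v⁻¹‖ ≤ β * 1 * (1 / s) * (1 / s) := by gcongr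
      _ = _ := by ring
  have e4 : ∀ a b d : ℂ, ‖a‖ ≤ 1 / s → ‖b‖ ≤ 1 / s → ‖d‖ ≤ 1 / s →
      ‖(β : ℂ) * (q l : ℂ) * (c' * (a * b) + (β : ℂ) * c * (a * b * d))‖ ≤ S * (1 / (K * s ^ 3)) := by
    intro a b d ha hb' hd
    rw [norm_mul, norm_mul, hb]
    calc β * ‖(q l : ℂ)‖ * ‖c' * (a * b) + (β : ℂ) * c * (a * b * d)‖
        ≤ β * 1 * (1 / (K * s) * (1 / s * (1 / s)) + β * 1 * (1 / s * (1 / s) * (1 / s))) := by
          gcongr
          refine (norm_add_le _ _).trans (add_le_add ?_ ?_)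
          · rw [norm_mul, norm_mul]; gcongr
          · rw [norm_mul, norm_mul, norm_mul, norm_mul, hb]; gcongr
      _ = β * (1 / (K * s ^ 3)) + β ^ 2 * (1 / s ^ 3) := by rw [← p5]; ring
      _ ≤ (β + β ^ 2) * (1 / (K * s ^ 3)) := by
          rw [add_mul]; linarith [mul_le_mul_of_nonneg_left p3 (sq_nonneg β)]
      _ ≤ S * (1 / (K * s ^ 3)) := mul_le_mul_of_nonneg_right S4 (by positivity)
  have hP : 0 ≤ 1 / (K * s ^ 3) := by positivity
  have hP2 : 0 ≤ 1 / s ^ 2 := by positivity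
  have hS0 : 0 ≤ S := by linarith
  simp only [div_eq_mul_one_div S]
  refine ⟨?_, fun j => ?_⟩
  · fin_cases k <;> simp [Tf]
    · calc ‖v‖⁻¹ ≤ 1 / s := by rw [← norm_inv]; exact hv
        _ ≤ 1 / s ^ 2 := p1
        _ ≤ _ := by simpa using le_mul_of_one_le_left hP2 S1
    · calc |cut s K (dropD R q l)| / ‖v‖ ≤ 1 * (1 / s) := by
            rw [div_eq_mul_inv, ← norm_inv]; exact mul_le_mul (cut_abs _ _ _) hv (norm_nonneg _) zero_le_one
        _ ≤ 1 / s ^ 2 := by rw [one_mul]; exact p1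
        _ ≤ _ := by simpa using le_mul_of_one_le_left hP2 S1
    · have h := le_trans e3 (mul_le_mul_of_nonneg_right S2 hP2)
      refine le_trans ?_ (h.trans_eq (by simp))
      simp only [norm_mul, norm_inv, hb, Complex.norm_real, Real.norm_eq_abs, abs_of_nonneg hβ, div_eq_mul_inv,
        mul_inv, c, u, v]
      refine le_of_le_of_eq (mul_le_mul_of_nonneg_right (mul_le_of_le_one_right (by positivity) hq)
        (by positivity)) (by ring)
  · fin_cases k <;> fin_cases j <;> simp [Ta] <;> try positivity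
    · refine le_trans ?_ ((e1.trans (mul_le_mul S2 p2 hP2 hS0)).trans_eq (by simp))
      simp [div_eq_mul_inv, pow_two, mul_assoc, v, abs_of_nonneg hβ]
    · refine le_trans ?_ ((e2.trans (p4.trans (le_mul_of_one_le_left hP S1))).trans_eq (by simp))
      simp [div_eq_mul_inv, c', v]
    · have h : ‖-c' / v + (β : ℂ) * c / v ^ 2‖ ≤ S * (1 / (K * s ^ 3)) := by
        refine (norm_add_le _ _).trans ?_
        calc ‖-c' / v‖ + ‖(β : ℂ) * c / v ^ 2‖ ≤ 1 / (K * s) * (1 / s) + β * 1 * (1 / s * (1 / s)) := by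
              refine add_le_add ?_ ?_
              · rw [neg_div, norm_neg, div_eq_mul_inv]; exact e2
              · rw [div_eq_mul_inv, norm_mul, norm_mul, hb, sq, mul_inv, norm_mul]; gcongr
          _ ≤ (1 + β) * (1 / (K * s ^ 3)) := by
              have h := mul_le_mul_of_nonneg_left p2 hβ
              have e : 1 / s * (1 / s) = 1 / s ^ 2 := by ring
              rw [e]; linarith
          _ ≤ _ := mul_le_mul_of_nonneg_right S5 hP
      simpa [c, c', v] using h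
    · have h := e4 u⁻¹ v⁻¹ u⁻¹ hu hv hu
      refine le_trans (le_of_eq ?_) (h.trans_eq (by simp))
      rw [norm_mul, norm_mul, Complex.norm_real, Complex.norm_real, Real.norm_eq_abs, Real.norm_eq_abs]
      simp only [c, c', u, v]
      congr 2
      ring
    · have h := e4 (-u⁻¹) v⁻¹ (-v⁻¹) (by rwa [norm_neg]) hv (by rwa [norm_neg])
      refine le_trans (le_of_eq ?_) (h.trans_eq (by simp))
      rw [norm_mul, norm_mul, Complex.norm_real, Complex.norm_real, Real.norm_eq_abs, Real.norm_eq_abs]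
      simp only [c, c', u, v]
      congr 2
      ring
    · refine le_trans ?_ ((e3.trans (mul_le_mul S2 p2 hP2 hS0)).trans_eq (by simp))
      simp [div_eq_mul_inv, mul_assoc, mul_left_comm, mul_comm, c, u, v, abs_of_nonneg hβ]

theorem continuous_dlev {X : Type*} [TopologicalSpace X] {q : X → ℕ → ℝ} (hq : ∀ i, Continuous fun x => q x i)
    (R l : ℕ) : Continuous fun x => dlev R (q x) l :=
  (hq R).sub (((continuous_const.mul (hq l)).add (continuous_finsetSum _ fun i _ => hq i)).div_const _)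

theorem continuous_Tf {X : Type*} [TopologicalSpace X] {q : X → ℕ → ℝ} (hq : ∀ i, Continuous fun x => q x i)
    (hs : 0 < s) (β K : ℝ) (R l : ℕ) (k : Fin 3) : Continuous fun x => Tf β s K R (q x) l k := by
  have hd : ∀ j, Continuous fun x => den β s R (q x) j := fun j =>
    continuous_const.sub (Complex.continuous_ofReal.comp (continuous_const.mul (continuous_dlev hq R j)))
  have hr : Continuous fun x => dropD R (q x) l := (continuous_dlev hq R 0).sub (continuous_dlev hq R l)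
  have hc : Continuous fun x => cut s K (dropD R (q x) l) :=
    (continuous_iff_continuousAt.2 fun d => (hasDerivAt_cut s K d).continuousAt).comp hr
  fin_cases k
  · exact (hd l).inv₀ fun x => den_ne hs _ _
  · exact (Complex.continuous_ofReal.comp hc).div (hd l) fun x => den_ne hs _ _
  · exact (Complex.continuous_ofReal.comp ((continuous_const.mul hc).mul (hq l))).div ((hd 0).mul (hd l))
      fun x => mul_ne_zero (den_ne hs _ _) (den_ne hs _ _)

theorem continuous_Ta {X : Type*} [TopologicalSpace X] {q : X → ℕ → ℝ} (hq : ∀ i, Continuous fun x => q x i)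
    (hs : 0 < s) (β K : ℝ) (R l : ℕ) (k j : Fin 3) : Continuous fun x => Ta β s K R (q x) l k j := by
  have hd : ∀ j, Continuous fun x => den β s R (q x) j := fun j =>
    continuous_const.sub (Complex.continuous_ofReal.comp (continuous_const.mul (continuous_dlev hq R j)))
  have hn : ∀ j x, den β s R (q x) j ≠ 0 := fun j x => den_ne hs _ _
  have hr : Continuous fun x => dropD R (q x) l := (continuous_dlev hq R 0).sub (continuous_dlev hq R l)
  have hc : Continuous fun x => (cut s K (dropD R (q x) l) : ℂ) := Complex.continuous_ofReal.comp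
    ((continuous_iff_continuousAt.2 fun d => (hasDerivAt_cut s K d).continuousAt).comp hr)
  have hdc : Continuous (dcut s K) := by
    unfold dcut
    exact ((by fun_prop : Continuous fun d : ℝ => -(2 * (d / (K * s)))).div
      (by fun_prop : Continuous fun d : ℝ => (1 + (d / (K * s)) ^ 2) ^ 2) fun d => by positivity).div_const _
  have hc' : Continuous fun x => (dcut s K (dropD R (q x) l) : ℂ) :=
    Complex.continuous_ofReal.comp (hdc.comp hr)
  have hl' : Continuous fun x => (q x l : ℂ) := Complex.continuous_ofReal.comp (hq l)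
  have h0 := hd 0
  have h1 := hd l
  fin_cases k <;> fin_cases j <;> simp [Ta] <;>
    fun_prop (disch := exact fun x => by simp [hn])

end Vale.Agent.P146.Lower.Res
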