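import Vale.Agent.P146.Lower.Res.Basic
import Vale.Agent.P146.Lower.SiteSplit

/-! P146, polynomial lower bound: the test form of one more site, by the Schur complement. -/

open MeasureTheory Finset Real Matrix
open Vale.Agent.P150 (gauss dot)

noncomputable section

namespace Vale.Agent.P146.Lower.Res

variable {n N : ℕ}

/-- the resolvent of a symmetric matrix applied to a vector -/
def rv (s : ℝ) (A : Matrix (Fin n) (Fin n) ℝ) (v : Fin n → ℂ) : Fin n → ℂ := (Am s A)⁻¹ *ᵥ v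

section

variable {s : ℝ} (hs : 0 < kap s) {A : Matrix (Fin n) (Fin n) ℝ} (hA : ∀ a b, A a b = A b a)
include hs hA

lemma Am_rv (v : Fin n → ℂ) : Am s A *ᵥ rv s A v = v := by
  rw [rv, Matrix.mulVec_mulVec, Matrix.mul_nonsing_inv _ (isUnit_det_Am hs hA), Matrix.one_mulVec]

lemma rv_unique {v w : Fin n → ℂ} (h : Am s A *ᵥ w = v) : w = rv s A v := by
  rw [rv, ← h, Matrix.mulVec_mulVec, Matrix.nonsing_inv_mul _ (isUnit_det_Am hs hA), Matrix.one_mulVec]

lemma cn_rv (v : Fin n → ℂ) : cn (rv s A v) ≤ cn v / kap s := by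
  rw [le_div_iff₀ hs, mul_comm]
  have := cn_Am_ge hs hA (rv s A v)
  rwa [Am_rv hs hA] at this

omit hs in
lemma Am_transpose : (Am s A)ᵀ = Am s A := by
  rw [Am, Matrix.transpose_sub, Matrix.transpose_smul, Matrix.transpose_one, ← Matrix.transpose_map]
  congr 2
  ext a b
  exact hA b a

lemma rv_comm (u v : Fin n → ℂ) : u ⬝ᵥ rv s A v = v ⬝ᵥ rv s A u := by
  have h := Matrix.dotProduct_mulVec (rv s A u) (Am s A) (rv s A v)
  rw [Am_rv hs hA, ← Matrix.mulVec_transpose, Am_transpose hA, Am_rv hs hA] at h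
  rw [← h, dotProduct_comm]

/-- the form at a real vector has nonpositive imaginary part -/
lemma im_rv_real (x : Fin n → ℝ) :
    ((fun i => (x i : ℂ)) ⬝ᵥ rv s A (fun i => (x i : ℂ))).im ≤ 0 := by
  set u := rv s A (fun i => (x i : ℂ))
  have h := im_form s hA u
  rw [Am_rv hs hA] at h
  have e : star u ⬝ᵥ (fun i => (x i : ℂ)) = (starRingEnd ℂ) ((fun i => (x i : ℂ)) ⬝ᵥ u) := by
    simp only [dotProduct, map_sum, map_mul, Pi.star_apply, RCLike.star_def, Complex.conj_ofReal]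
    exact sum_congr rfl fun i _ => mul_comm _ _
  rw [e, Complex.conj_im] at h
  have : 0 ≤ kap s * cn u ^ 2 := by positivity
  linarith

end

/-- the scaled old couplings -/
abbrev sW (g : Edge N → ℝ) : Matrix (Fin N) (Fin N) ℝ := cs N • Wm g

lemma sW_symm (g : Edge N → ℝ) (a b : Fin N) : sW g a b = sW g b a := by
  simp [sW, Wm_symm' g a b]

/-- couplings of the new spin as a complex vector -/
def uC (z : Fin N → ℝ) : Fin N → ℂ := fun i => (uv z i : ℂ)

/-- the field of the new spin -/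
def qf (s : ℝ) (g : Edge N → ℝ) (z : Fin N → ℝ) (σ : Cfg N) : ℂ := uC z ⬝ᵥ rv s (sW g) (cv σ)

lemma rv_join [NeZero N] {s : ℝ} (hs : 0 < kap s) (g : Edge N → ℝ) (z : Fin N → ℝ) (τ : Cfg (N + 1)) :
    ∃ d : ℂ, kap s ≤ d.im ∧ cv τ ⬝ᵥ (Gc s (join g z) *ᵥ cv τ) =
      cv (fun i : Fin N => τ i.castSucc) ⬝ᵥ rv s (sW g) (cv fun i : Fin N => τ i.castSucc) +
        (cv τ (Fin.last N) + qf s g z fun i => τ i.castSucc) ^ 2 / d := by
  set σ : Cfg N := fun i => τ i.castSucc
  have hA := sW_symm g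
  set t := cv τ (Fin.last N)
  set a := rv s (sW g) (cv σ)
  set b := rv s (sW g) (uC z)
  set d := zt s - uC z ⬝ᵥ b with hd
  have hdi : kap s ≤ d.im := by
    have h : (uC z ⬝ᵥ b).im ≤ 0 := im_rv_real hs hA (uv z)
    rw [hd, Complex.sub_im, kap]; linarith
  have hd0 : d ≠ 0 := fun h => by rw [h] at hdi; simp at hdi; linarith
  refine ⟨d, hdi, ?_⟩
  set w0 := (t + qf s g z σ) / d with hw0
  set w : Fin (N + 1) → ℂ := Fin.snoc (a + w0 • b) w0
  have hJ : ∀ i j : Fin N, ((Wm (join g z)) i.castSucc j.castSucc : ℂ) = (sW g i j : ℂ) ∧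
      ((Wm (join g z)) i.castSucc (Fin.last N) : ℂ) = uC z i ∧
      ((Wm (join g z)) (Fin.last N) j.castSucc : ℂ) = uC z j := fun i j => by
    have hN : √(N:ℝ) ≠ 0 := (Real.sqrt_pos.2 (by exact_mod_cast NeZero.pos N)).ne'
    obtain ⟨h1, h2, -⟩ := cpl_join g z i j
    have h3 := (cpl_join g z j i).2.2
    refine ⟨?_, ?_, ?_⟩ <;> simp only [uC, Wm, sW, uv, cs, Matrix.smul_apply, smul_eq_mul, h1, h2, h3,
      Complex.ofReal_inj, Nat.cast_add, Nat.cast_one]
    field_simp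
  have hw : w = rv s (Wm (join g z)) (cv τ) := by
    refine rv_unique hs (Wm_symm' _) (funext fun i => ?_)
    rw [Am_mulVec]
    simp only [Pi.sub_apply, Pi.smul_apply, smul_eq_mul]
    induction i using Fin.lastCases with
    | last =>
      simp only [mulVec, dotProduct, Fin.sum_univ_castSucc, Matrix.map_apply, fun j => (hJ j j).2.2, w,
        Fin.snoc_castSucc, Fin.snoc_last, Pi.add_apply, Pi.smul_apply, smul_eq_mul]
      have h0 : ((Wm (join g z)) (Fin.last N) (Fin.last N) : ℂ) = 0 := by simp [Wm, cpl_self]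
      have e : ∑ j, uC z j * (a j + w0 * b j) = qf s g z σ + w0 * (uC z ⬝ᵥ b) := by
        simp only [qf, dotProduct, mul_add, sum_add_distrib, mul_sum, a]
        exact congrArg _ (sum_congr rfl fun j _ => by ring)
      rw [e, h0, zero_mul, add_zero]
      show zt s * w0 - _ = t
      have : w0 * d = t + qf s g z σ := div_mul_cancel₀ _ hd0
      rw [hd] at this
      linear_combination this
    | cast i =>
      simp only [mulVec, dotProduct, Fin.sum_univ_castSucc, Matrix.map_apply, fun j => (hJ i j).1,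
        (hJ i i).2.1, w, Fin.snoc_castSucc, Fin.snoc_last, Pi.add_apply, Pi.smul_apply, smul_eq_mul,
        mul_add, sum_add_distrib]
      have ea := congrFun (Am_rv hs hA (cv σ)) i
      have eb := congrFun (Am_rv hs hA (uC z)) i
      rw [Am_mulVec] at ea eb
      simp only [Pi.sub_apply, Pi.smul_apply, smul_eq_mul, mulVec, dotProduct, Matrix.map_apply] at ea eb
      have e : ∑ j, (sW g i j : ℂ) * (w0 * b j) = w0 * ∑ j, (sW g i j : ℂ) * b j := by
        rw [mul_sum]; exact sum_congr rfl fun j _ => by ring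
      rw [e]
      show _ = cv σ i
      linear_combination ea + w0 * eb
  rw [show Gc s (join g z) *ᵥ cv τ = rv s (Wm (join g z)) (cv τ) from rfl, ← hw]
  have e : ∑ j, cv σ j * (w0 * b j) = w0 * qf s g z σ := by
    rw [qf, rv_comm hs hA (uC z) (cv σ)]
    simp only [dotProduct, mul_sum, b]
    exact sum_congr rfl fun j _ => by ring
  simp only [dotProduct, Fin.sum_univ_castSucc, w, Fin.snoc_castSucc, Fin.snoc_last, Pi.add_apply,
    Pi.smul_apply, smul_eq_mul, mul_add, sum_add_distrib]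
  rw [show ∑ j, cv τ (Fin.castSucc j) * (w0 * b j) = w0 * qf s g z σ from e, hw0]
  show cv σ ⬝ᵥ a + _ + t * _ = cv σ ⬝ᵥ a + _
  field_simp
  ring

lemma cn_sq_ri (w : Fin N → ℂ) :
    cn w ^ 2 = nrm (fun i => (w i).re) ^ 2 + nrm (fun i => (w i).im) ^ 2 := by
  rw [cn_sq, nrm_sq, nrm_sq, ← sum_add_distrib]
  exact sum_congr rfl fun i _ => by rw [← Complex.normSq_eq_norm_sq, Complex.normSq_apply]; ring

lemma cn_Wm_le (g : Edge N → ℝ) (w : Fin N → ℂ) :
    cn ((Wm g).map Complex.ofReal *ᵥ w) ≤ opn g * cn w := by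
  refine le_of_sq_le_sq ?_ (mul_nonneg (opn_nonneg g) (cn_nonneg w))
  rw [cn_sq_ri, mul_pow, cn_sq_ri, mul_add]
  have e1 : (fun i => (((Wm g).map Complex.ofReal *ᵥ w) i).re) = Wm g *ᵥ fun i => (w i).re := by
    funext i
    simp only [mulVec, dotProduct, Matrix.map_apply, Complex.re_sum, Complex.re_ofReal_mul]
  have e2 : (fun i => (((Wm g).map Complex.ofReal *ᵥ w) i).im) = Wm g *ᵥ fun i => (w i).im := by
    funext i
    simp only [mulVec, dotProduct, Matrix.map_apply, Complex.im_sum, Complex.im_ofReal_mul]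
  rw [e1, e2, ← mul_pow, ← mul_pow]
  exact add_le_add (pow_le_pow_left₀ (nrm_nonneg _) (nrm_mulVec_le g _) 2)
    (pow_le_pow_left₀ (nrm_nonneg _) (nrm_mulVec_le g _) 2)

/-- changing the scale of the couplings -/
lemma rv_scale {s : ℝ} (hs : 0 < kap s) (g : Edge N → ℝ) (σ : Cfg N) :
    ‖cv σ ⬝ᵥ rv s (sW g) (cv σ) - cv σ ⬝ᵥ rv s (Wm g) (cv σ)‖ ≤ opn g / kap s ^ 2 := by
  set a := rv s (sW g) (cv σ)
  set b := rv s (Wm g) (cv σ)
  have hA := Wm_symm' g
  have hc := one_sub_cs N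
  have e : cv σ ⬝ᵥ a - cv σ ⬝ᵥ b = ((cs N - 1 : ℝ) : ℂ) * (b ⬝ᵥ ((Wm g).map Complex.ofReal *ᵥ a)) := by
    have h1 : cv σ ⬝ᵥ a = b ⬝ᵥ (Am s (Wm g) *ᵥ a) := by
      rw [Matrix.dotProduct_mulVec, ← Matrix.mulVec_transpose, Am_transpose hA, Am_rv hs hA]
    have h2 : cv σ ⬝ᵥ b = b ⬝ᵥ (Am s (sW g) *ᵥ a) := by
      rw [Am_rv hs (sW_symm g), dotProduct_comm]
    have h3 : (sW g).map Complex.ofReal = (cs N : ℂ) • (Wm g).map Complex.ofReal := by
      ext i j; simp [sW]
    rw [h1, h2, Am_mulVec, Am_mulVec, h3, Matrix.smul_mulVec]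
    simp only [dotProduct_sub, dotProduct_smul, smul_eq_mul]
    push_cast
    ring
  rw [e, norm_mul, Complex.norm_real, Real.norm_eq_abs, abs_sub_comm, abs_of_nonneg (sub_nonneg.2 hc.2.1)]
  have hσ := cn_cv σ
  have ha : cn a ≤ √(N:ℝ) / kap s := (cn_rv hs (sW_symm g) _).trans_eq (by rw [hσ])
  have hb : cn b ≤ √(N:ℝ) / kap s := (cn_rv hs hA _).trans_eq (by rw [hσ])
  have h : ‖b ⬝ᵥ ((Wm g).map Complex.ofReal *ᵥ a)‖ ≤ opn g * (N / kap s ^ 2) := by
    refine (abs_cdot_le _ _).trans ?_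
    refine (mul_le_mul hb ((cn_Wm_le g a).trans (mul_le_mul_of_nonneg_left ha (opn_nonneg g)))
      (cn_nonneg _) (by positivity)).trans_eq ?_
    field_simp
    rw [Real.sq_sqrt (Nat.cast_nonneg _)]
    ring
  refine (mul_le_mul_of_nonneg_left h (sub_nonneg.2 hc.2.1)).trans ?_
  calc (1 - cs N) * (opn g * (N / kap s ^ 2)) = ((1 - cs N) * N) * (opn g / kap s ^ 2) := by ring
    _ ≤ 1 * (opn g / kap s ^ 2) := mul_le_mul_of_nonneg_right (by linarith [hc.2.2.2])
        (div_nonneg (opn_nonneg g) (sq_nonneg _))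
    _ = _ := one_mul _

/-- normalised real field of the new spin -/
def fR (s : ℝ) (g : Edge N → ℝ) (σ : Cfg N) : Fin N → ℝ :=
  fun k => kap s * (rv s (sW g) (cv σ) k).re / √((N : ℝ) + 1)

/-- normalised imaginary field of the new spin -/
def fI (s : ℝ) (g : Edge N → ℝ) (σ : Cfg N) : Fin N → ℝ :=
  fun k => kap s * (rv s (sW g) (cv σ) k).im / √((N : ℝ) + 1)

lemma fields_spec {s : ℝ} (hs : 0 < kap s) (g : Edge N → ℝ) (σ : Cfg N) (z : Fin N → ℝ) :
    dot (fR s g σ) (fR s g σ) ≤ 1 ∧ dot (fI s g σ) (fI s g σ) ≤ 1 ∧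
      kap s ^ 2 * ‖qf s g z σ‖ ^ 2 = dot (fR s g σ) z ^ 2 + dot (fI s g σ) z ^ 2 := by
  set a := rv s (sW g) (cv σ)
  have hN : (0:ℝ) < (N:ℝ) + 1 := by positivity
  have hn : kap s ^ 2 * cn a ^ 2 ≤ N := by
    have h := cn_rv hs (sW_symm g) (cv σ)
    rw [cn_cv, le_div_iff₀ hs, mul_comm] at h
    rw [← mul_pow]
    exact (pow_le_pow_left₀ (mul_nonneg hs.le (cn_nonneg _)) h 2).trans_eq (Real.sq_sqrt (Nat.cast_nonneg _))
  rw [cn_sq_ri, nrm_sq, nrm_sq] at hn
  have key : ∀ f : Fin N → ℝ, kap s ^ 2 * (∑ i, f i ^ 2) ≤ N →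
      dot (fun k => kap s * f k / √((N:ℝ) + 1)) (fun k => kap s * f k / √((N:ℝ) + 1)) ≤ 1 := fun f hf => by
    simp only [dot, div_mul_div_comm, Real.mul_self_sqrt hN.le, ← sum_div]
    rw [div_le_one hN, show ∑ x, kap s * f x * (kap s * f x) = kap s ^ 2 * ∑ i, f i ^ 2 by
      rw [mul_sum]; exact sum_congr rfl fun i _ => by ring]
    linarith
  have hr : 0 ≤ kap s ^ 2 * ∑ i, (a i).re ^ 2 := by positivity
  have hi : 0 ≤ kap s ^ 2 * ∑ i, (a i).im ^ 2 := by positivity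
  refine ⟨key _ (by linarith), key _ (by linarith), ?_⟩
  have e : ∀ f : Fin N → ℝ,
      dot (fun k => kap s * f k / √((N:ℝ) + 1)) z = kap s * ∑ k, uv z k * f k := fun f => by
    simp only [dot, uv, mul_sum]; exact sum_congr rfl fun k _ => by ring
  unfold fR fI
  rw [e, e, ← Complex.normSq_eq_norm_sq, Complex.normSq_apply]
  simp only [qf, uC, dotProduct, Complex.re_sum, Complex.im_sum, Complex.re_ofReal_mul, Complex.im_ofReal_mul]
  ring

/-- **one more site changes the test form by bounded fields** -/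
theorem pb_join [NeZero N] {s : ℝ} (hs : 0 < kap s) (hs1 : kap s ≤ 1) (g : Edge N → ℝ) (z : Fin N → ℝ)
    (τ : Cfg (N + 1)) :
    |pb s (join g z) τ τ - pb s g (fun i => τ i.castSucc) (fun i => τ i.castSucc)| ≤
      (opn g + 4 + dot (fR s g fun i => τ i.castSucc) z ^ 4 + dot (fI s g fun i => τ i.castSucc) z ^ 4) /
        kap s ^ 3 := by
  set σ : Cfg N := fun i => τ i.castSucc
  obtain ⟨d, hd, e⟩ := rv_join hs g z τ
  obtain ⟨-, -, hq⟩ := fields_spec hs g σ z
  set q := qf s g z σ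
  set κ := kap s
  have hdn : κ ≤ ‖d‖ := hd.trans ((le_abs_self _).trans (Complex.abs_im_le_norm d))
  have hsp : ‖cv τ (Fin.last N)‖ = 1 := by simp [cv, Vale.Agent.P146.abs_spin]
  have hx : ‖(cv τ (Fin.last N) + q) ^ 2 / d‖ ≤ (2 + 2 * ‖q‖ ^ 2) / κ := by
    rw [norm_div, norm_pow]
    refine div_le_div₀ (by positivity) ?_ hs hdn
    have h2 := pow_le_pow_left₀ (norm_nonneg _) (norm_add_le (cv τ (Fin.last N)) q) 2
    rw [hsp] at h2
    linarith [two_mul_le_add_sq 1 ‖q‖, show (1 + ‖q‖) ^ 2 = 1 + 2 * ‖q‖ + ‖q‖ ^ 2 by ring]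
  have hdiff : |pb s (join g z) τ τ - pb s g σ σ| ≤ opn g / κ ^ 2 + (2 + 2 * ‖q‖ ^ 2) / κ := by
    rw [pb_eq, pb_eq, show Gc s g *ᵥ cv σ = rv s (Wm g) (cv σ) from rfl, e, neg_sub_neg, abs_sub_comm,
      ← Complex.sub_im, add_sub_right_comm]
    exact (Complex.abs_im_le_norm _).trans ((norm_add_le _ _).trans (add_le_add (rv_scale hs g σ) hx))
  refine hdiff.trans ?_
  rw [le_div_iff₀ (by positivity), add_mul]
  have h1 : opn g / κ ^ 2 * κ ^ 3 = opn g * κ := by field_simp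
  have h2 : (2 + 2 * ‖q‖ ^ 2) / κ * κ ^ 3 = 2 * κ ^ 2 + 2 * (κ ^ 2 * ‖q‖ ^ 2) := by field_simp
  have h3 := mul_le_of_le_one_right (opn_nonneg g) hs1
  have h4 : κ ^ 2 ≤ 1 := pow_le_one₀ hs.le hs1
  set x := dot (fR s g σ) z
  set y := dot (fI s g σ) z
  have hx2 := two_mul_le_add_sq 1 (x ^ 2)
  have hy2 := two_mul_le_add_sq 1 (y ^ 2)
  rw [h1, h2, hq]
  nlinarith

lemma continuous_field {s : ℝ} (hs : 0 < kap s) (σ : Cfg N) (k : Fin N) :
    (Continuous fun g : Edge N → ℝ => fR s g σ k) ∧ Continuous fun g : Edge N → ℝ => fI s g σ k := by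
  have hA : Continuous fun g : Edge N → ℝ => Am s (sW g) := by
    refine continuous_pi fun i => continuous_pi fun j => ?_
    simp only [Am_apply, sW, Matrix.smul_apply, smul_eq_mul]
    exact continuous_const.sub (Complex.continuous_ofReal.comp
      (continuous_const.mul ((eb_cpl i j).1.div_const _)))
  have hr : Continuous fun g : Edge N → ℝ => rv s (sW g) (cv σ) k := by
    refine (continuous_apply k).comp (Continuous.matrix_mulVec ?_ continuous_const)
    simp only [Matrix.inv_def, Ring.inverse_eq_inv']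
    exact (hA.matrix_det.inv₀ fun g => (isUnit_det_Am hs (sW_symm g)).ne_zero).smul hA.matrix_adjugate
  exact ⟨((continuous_const.mul (Complex.continuous_re.comp hr))).div_const _,
    ((continuous_const.mul (Complex.continuous_im.comp hr))).div_const _⟩

end Vale.Agent.P146.Lower.Res
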