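import Vale.Agent.P146.Lower.Res.RecEnergy
import Vale.Agent.P146.Lower.Res.RecAlg
import Vale.Agent.P146.Lower.Res.RecTest
import Vale.Agent.P146.Lower.Res.Mean
import Vale.Agent.P146.Lower.Res.Schur

/-! P146, polynomial lower bound, recursion: in the deformed perturbed system the resolvent test is worth at least
what it is worth at the profile of mean overlaps. -/

open MeasureTheory Finset Real Matrix
open Vale.Agent.P150 (gauss)
open Vale.Agent.P168.MP (lin ET spinAt att sp Valid allBatch Mark)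
open Vale.Agent.P157.Par (qlev ovK ov adev lvlAvg Prof)
open Vale.Agent.P146.Lower.Rec (sv)

noncomputable section

namespace Vale.Agent.P146.Lower.Res

set_option linter.unusedSectionVars false

variable {n : ℕ} [NeZero n] (D : Dat n)

/-- level values of `σ' G τ / n` -/
def Dat.tc (g : Edge n → ℝ) (i : ℕ) : ℂ := ⟨D.tL Complex.reCLM g i, D.tL Complex.imCLM g i⟩

/-- mean of the test at a configuration -/
def Dat.T (g : Edge n → ℝ) : ℝ := D.E2 g D.R fun x y => pb D.s g x y / n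

lemma Dat.T_eq (g : Edge n → ℝ) :
    ET D.R (lin D.R) (D.w g) [(0, 0)]
      (fun ps => pb D.s g (spinAt D.R (ps.getD 0 [])) (spinAt D.R (ps.getD 0 [])) / n) = D.T g := by
  have h := Vale.Agent.P157.Par.ET_two (R := D.R) (D.w_pos g) (U := [(0, 0)]) Vale.Agent.P168.MP.valid_single
    (i := 0) (j := 0) Nat.one_pos Nat.one_pos fun p p' => pb D.s g (spinAt D.R p) (spinAt D.R p') / n
  rwa [Vale.Agent.P168.MP.sp_self] at h

lemma Dat.E2_same (g : Edge n → ℝ) {l : ℕ} (hl : l ≤ D.R) (k : ℕ) (hk : k < 2) :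
    ET D.R (lin D.R) (D.w g) [(0, l), (0, 0)]
      (fun ps => pb D.s g (spinAt D.R (ps.getD k [])) (spinAt D.R (ps.getD k [])) / n) = D.T g := by
  have h := Vale.Agent.P157.Par.ET_two (R := D.R) (D.w_pos g) (U := [(0, l), (0, 0)])
    (Vale.Agent.P157.Par.valid_pair hl) (i := k) (j := k) hk hk
    fun p p' => pb D.s g (spinAt D.R p) (spinAt D.R p') / n
  rwa [Vale.Agent.P168.MP.sp_self] at h

lemma pb_symm {s : ℝ} (hs : 0 < kap s) (g : Edge n → ℝ) (x y : Cfg n) : pb s g x y = pb s g y x := by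
  rw [pb_eq, pb_eq]
  congr 2
  exact rv_comm hs (Wm_symm' g) (cv x) (cv y)

/-- positivity: an off-diagonal value is at most the mean of the diagonal ones -/
lemma abs_pb_le_avg {s : ℝ} (hs : 0 < kap s) (g : Edge n → ℝ) (x y : Cfg n) :
    |pb s g x y| ≤ (pb s g x x + pb s g y y) / 2 := by
  have hQ : ∀ c : ℝ, c = 1 ∨ c = -1 → 0 ≤ pb s g x x + pb s g y y + 2 * c * pb s g x y := fun c hc => by
    have h := im_rv_real hs (Wm_symm' g) (fun i => spin (x i) + c * spin (y i))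
    have e : (fun i => ((spin (x i) + c * spin (y i) : ℝ) : ℂ)) = cv x + (c : ℂ) • cv y := by
      funext i; simp [cv]
    rw [e] at h
    have e2 : pb s g x x + pb s g y y + 2 * c * pb s g x y =
        -((cv x + (c : ℂ) • cv y) ⬝ᵥ rv s (Wm g) (cv x + (c : ℂ) • cv y)).im := by
      have hs' := pb_symm hs g y x
      have hc2 : c * c = 1 := by rcases hc with rfl | rfl <;> norm_num
      simp only [rv, Matrix.mulVec_add, Matrix.mulVec_smul, add_dotProduct, dotProduct_add, smul_dotProduct,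
        dotProduct_smul, smul_eq_mul, Complex.add_im, Complex.im_ofReal_mul]
      simp only [pb_eq, Gc] at hs' ⊢
      linear_combination -c * hs' + (cv y ⬝ᵥ ((Am s (Wm g))⁻¹ *ᵥ cv y)).im * hc2
    rw [e2]
    linarith
  have h1 := hQ 1 (Or.inl rfl)
  have h2 := hQ (-1) (Or.inr rfl)
  rw [abs_le]
  constructor <;> linarith

lemma Dat.tc_im_le (g : Edge n → ℝ) {i : ℕ} (hi : i ≤ D.R) : |(D.tc g i).im| ≤ D.T g := by
  show |D.E2 g i (Bf Complex.imCLM D.s g)| ≤ _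
  refine (Vale.Agent.P168.MP.ET_abs_le (D.w_pos g) _ _).trans ((Vale.Agent.P168.MP.ET_mono (D.w_pos g)
    (G := fun ps => 1 / 2 * (pb D.s g (spinAt D.R (ps.getD 0 [])) (spinAt D.R (ps.getD 0 [])) / n) +
      1 / 2 * (pb D.s g (spinAt D.R (ps.getD 1 [])) (spinAt D.R (ps.getD 1 [])) / n)) fun ps => ?_).trans_eq ?_)
  · rw [Bf, Complex.imCLM_apply, form, abs_div, Nat.abs_cast, ← abs_neg, ← pb_eq]
    refine (div_le_div_of_nonneg_right (abs_pb_le_avg D.hs g _ _) (Nat.cast_nonneg _)).trans_eq ?_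
    ring
  · rw [Vale.Agent.P168.MP.ET_add, Vale.Agent.P168.MP.ET_const_mul, Vale.Agent.P168.MP.ET_const_mul,
      D.E2_same g hi 0 (by norm_num), D.E2_same g hi 1 (by norm_num)]
    ring

lemma Dat.tc_norm_le (g : Edge n → ℝ) {i : ℕ} (hi : i ≤ D.R) {θ : ℝ} (hθ : 0 < θ) :
    ‖D.tc g i‖ ≤ θ / 2 + D.T g / (2 * kap D.s * θ) := by
  set r := D.tL Complex.reCLM g i with hr
  set m := D.tL Complex.imCLM g i with hm
  have hB : ∀ x y, r * Bf Complex.reCLM D.s g x y + m * Bf Complex.imCLM D.s g x y ≤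
      ‖D.tc g i‖ * (θ / 2 + pb D.s g y y / n * (1 / (2 * kap D.s * θ))) := fun x y => by
    have hn : (0:ℝ) < n := npos'
    have h1 : r * (form D.s g x y).re + m * (form D.s g x y).im ≤ ‖D.tc g i‖ * ‖form D.s g x y‖ := by
      have h := Complex.re_le_norm ((starRingEnd ℂ) (D.tc g i) * form D.s g x y)
      rw [norm_mul, Complex.norm_conj, Complex.mul_re, Complex.conj_re, Complex.conj_im] at h
      change r * _ - -m * _ ≤ _ at h
      linarith
    have h2 := mul_le_mul_of_nonneg_left (norm_form_le D.hs g x y hθ) (norm_nonneg (D.tc g i))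
    simp only [Bf, Complex.reCLM_apply, Complex.imCLM_apply]
    rw [mul_div_assoc', mul_div_assoc', ← add_div, div_le_iff₀ hn]
    refine (h1.trans h2).trans_eq ?_
    field_simp
  have h := Vale.Agent.P168.MP.ET_mono (R := D.R) (m := lin D.R) (D.w_pos g) (T := [(0, i), (0, 0)]) fun ps =>
    hB (spinAt D.R (ps.getD 0 [])) (spinAt D.R (ps.getD 1 []))
  rw [Vale.Agent.P168.MP.ET_add, Vale.Agent.P168.MP.ET_const_mul, Vale.Agent.P168.MP.ET_const_mul,
    Vale.Agent.P168.MP.ET_const_mul, Vale.Agent.P168.MP.ET_add, Vale.Agent.P168.MP.ET_const (D.w_pos g)] at h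
  have e : ET D.R (lin D.R) (D.w g) [(0, i), (0, 0)]
      (fun ps => pb D.s g (spinAt D.R (ps.getD 1 [])) (spinAt D.R (ps.getD 1 [])) / n * (1 / (2 * kap D.s * θ))) =
      D.T g / (2 * kap D.s * θ) := by
    rw [show (fun ps : List (List (Mark n D.P.S (allBatch D.P.R 2))) =>
        pb D.s g (spinAt D.R (ps.getD 1 [])) (spinAt D.R (ps.getD 1 [])) / n * (1 / (2 * kap D.s * θ))) =
        fun ps => 1 / (2 * kap D.s * θ) *
          (pb D.s g (spinAt D.R (ps.getD 1 [])) (spinAt D.R (ps.getD 1 [])) / n) from funext fun _ => mul_comm _ _,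
      Vale.Agent.P168.MP.ET_const_mul, D.E2_same g hi 1 (by norm_num)]
    ring
  rw [e] at h
  change r * r + m * m ≤ _ at h
  have hn2 : r * r + m * m = ‖D.tc g i‖ * ‖D.tc g i‖ := by
    rw [← sq ‖_‖, Complex.sq_norm, Complex.normSq_apply]
    rfl
  rw [hn2] at h
  rcases (norm_nonneg (D.tc g i)).eq_or_lt with h0 | h0
  · rw [← h0]
    have hT : 0 ≤ D.T g := (abs_nonneg _).trans (D.tc_im_le g hi)
    have := D.hs
    positivity
  · exact le_of_mul_le_mul_left h h0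

/-- the residual of the level values -/
lemma cres_res (g : Edge n → ℝ) (i : ℕ) :
    cres D.β D.s D.R (D.q g) (D.tc g) i = ⟨D.res Complex.reCLM g i, D.res Complex.imCLM g i⟩ := by
  have h1 : ∀ x y, ((zeta D.s * form D.s g x y).re / n - ov x y * 1 : ℝ) =
      (zeta D.s).re * Bf Complex.reCLM D.s g x y - (zeta D.s).im * Bf Complex.imCLM D.s g x y - ov x y := fun x y => by
    simp only [Bf, Complex.reCLM_apply, Complex.imCLM_apply, Complex.mul_re]; ring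
  have h2 : ∀ x y, ((zeta D.s * form D.s g x y).im / n - ov x y * 0 : ℝ) =
      (zeta D.s).re * Bf Complex.imCLM D.s g x y + (zeta D.s).im * Bf Complex.reCLM D.s g x y := fun x y => by
    simp only [Bf, Complex.reCLM_apply, Complex.imCLM_apply, Complex.mul_im]; ring
  apply Complex.ext
  · simp only [Dat.res, Complex.reCLM_apply, Complex.one_re, h1]
    simp only [cres, Dat.E2, Vale.Agent.P168.MP.ET_sub, Vale.Agent.P168.MP.ET_const_mul, Complex.mul_re]
    rfl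
  · simp only [Dat.res, Complex.imCLM_apply, Complex.one_im, h2]
    simp only [cres, Dat.E2, Vale.Agent.P168.MP.ET_add, Vale.Agent.P168.MP.ET_const_mul, Complex.mul_im]
    rfl

/-- the residual, as a function of the disorder -/
def Dat.cr (g : Edge n → ℝ) (i : ℕ) : ℂ := cres D.β D.s D.R (D.q g) (D.tc g) i

lemma eb_cr_im {F : (Edge n → ℝ) → ℂ} (hFr : EB fun g => (F g).re) (hFi : EB fun g => (F g).im) (i : ℕ) :
    EB fun g => (F g * D.cr g i).im := by
  simp only [Dat.cr, cres_res, Complex.mul_im]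
  exact (hFr.mul (eb_res D _ (fun w => Complex.abs_im_le_norm w) i)).add
    (hFi.mul (eb_res D _ (fun w => Complex.abs_re_le_norm w) i))

/-- the size of the integrated error at a pair of levels -/
def Dat.err (C : ℝ) (K : ℝ) (i l : ℕ) : ℝ :=
  C / (K * D.s ^ 16) * (|D.lam| + 1 / √(n : ℝ) + ∫ g, D.ad g ∂gauss (Edge n) +
    ∫ g, D.dev g i ∂gauss (Edge n) + ∫ g, D.dev g l ∂gauss (Edge n))

/-- a test against the residual at one level -/
def Tested (C K : ℝ) (F A0 A1 A2 : (Edge n → ℝ) → ℂ) (l : ℕ) : Prop :=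
  (Continuous F ∧ Continuous A0 ∧ Continuous A1 ∧ Continuous A2) ∧
    (∀ g, ‖F g‖ ≤ C / D.s ^ 2 ∧ ‖A0 g‖ ≤ C / (K * D.s ^ 3) ∧ ‖A1 g‖ ≤ C / (K * D.s ^ 3) ∧
      ‖A2 g‖ ≤ C / (K * D.s ^ 3)) ∧
    ∀ g e, HasDerivAt (fun t => F (Function.update g e t))
      (A0 g * (dlev D.R (D.dq g e) 0 : ℂ) + A1 g * (dlev D.R (D.dq g e) l : ℂ) + A2 g * (D.dq g e l : ℂ)) (g e)

lemma Tested.eb {C K : ℝ} {F A0 A1 A2 : (Edge n → ℝ) → ℂ} {l : ℕ} (h : Tested D C K F A0 A1 A2 l) :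
    (EB fun g => (F g).re) ∧ EB fun g => (F g).im :=
  ⟨EB.of_le (EB.const (C / D.s ^ 2)) (Complex.continuous_re.comp h.1.1) fun g =>
      (Complex.abs_re_le_norm _).trans (h.2.1 g).1,
    EB.of_le (EB.const (C / D.s ^ 2)) (Complex.continuous_im.comp h.1.1) fun g =>
      (Complex.abs_im_le_norm _).trans (h.2.1 g).1⟩

/-- the arithmetic of the error -/
lemma err_arith {β C K κ s N Cτ lam Δ Vi Vl E : ℝ} (hC : 0 ≤ C) (hK : 0 < K) (hK1 : K ≤ 1) (hs : 0 < s)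
    (hs1 : s ≤ 1) (hκ : s ^ 2 ≤ κ) (hN : 1 ≤ N) (hlam : |lam| ≤ 1) (hCτ : 0 ≤ Cτ) (hΔ : 0 ≤ Δ) (hVi : 0 ≤ Vi)
    (hVl : 0 ≤ Vl) (hE0 : 0 ≤ E) (hE : E ≤ √(Cτ / (s ^ 20 * N))) :
    C / (K * s ^ 3) * (6 * (2 * |β| / κ + 8 * |lam| / κ ^ 3)) * (2 * Δ + 2 * Vl) +
        C / s ^ 2 * (6 * (|β| * (1 / κ / N) + |lam| * (8 / κ ^ 3)) + |β| * (24 / κ) * (Vi + Δ) +
          (3 / κ ^ 2 / N + E / κ)) ≤
      C * (54 * |β| + 147 + √Cτ) / (K * s ^ 16) * (|lam| + 1 / √N + Δ + Vi + Vl) := by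
  have hκ0 : 0 < κ := lt_of_lt_of_le (by positivity) hκ
  set P := 1 / (K * s ^ 16) with hP
  have hP0 : 0 ≤ P := by positivity
  have hsN : 0 < √N := Real.sqrt_pos.2 (by linarith)
  have hrN : 1 / N ≤ 1 / √N := one_div_le_one_div_of_le hsN
    (by rw [Real.sqrt_le_left (by linarith)]; exact le_self_pow₀ hN two_ne_zero)
  have hk : ∀ j : ℕ, 1 / κ ^ j ≤ 1 / s ^ (2 * j) := fun j =>
    one_div_le_one_div_of_le (by positivity) (by rw [pow_mul]; exact pow_le_pow_left₀ (by positivity) hκ j)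
  have hp : ∀ j : ℕ, j ≤ 16 → 1 / s ^ j ≤ P := fun j hj => one_div_le_one_div_of_le (by positivity)
    ((mul_le_of_le_one_left (by positivity) hK1).trans (pow_le_pow_of_le_one hs.le hs1 hj))
  have hpK : ∀ j : ℕ, j ≤ 16 → 1 / (K * s ^ j) ≤ P := fun j hj => one_div_le_one_div_of_le (by positivity)
    (mul_le_mul_of_nonneg_left (pow_le_pow_of_le_one hs.le hs1 hj) hK.le)
  have a1 : 1 / (K * s ^ 3) * (1 / κ ^ 1) ≤ P := (mul_le_mul_of_nonneg_left (hk 1) (by positivity)).trans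
    (le_of_eq_of_le (by ring) (hpK 5 (by norm_num)))
  have a3 : 1 / (K * s ^ 3) * (1 / κ ^ 3) ≤ P := (mul_le_mul_of_nonneg_left (hk 3) (by positivity)).trans
    (le_of_eq_of_le (by ring) (hpK 9 (by norm_num)))
  have b : ∀ j : ℕ, j ≤ 7 → 1 / s ^ 2 * (1 / κ ^ j) ≤ P := fun j hj =>
    (mul_le_mul_of_nonneg_left (hk j) (by positivity)).trans
      (le_of_eq_of_le (by rw [pow_add]; field_simp) (hp (2 + 2 * j) (by omega)))
  set U := |lam| + 1 / √N + Δ + Vi + Vl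
  have hrn0 : 0 ≤ 1 / √N := by positivity
  have hlam0 := abs_nonneg lam
  have hb := abs_nonneg β
  have t1 : C / (K * s ^ 3) * (6 * (2 * |β| / κ + 8 * |lam| / κ ^ 3)) * (2 * Δ + 2 * Vl) ≤
      C * (24 * |β| + 96) * P * U := by
    have e : C / (K * s ^ 3) * (6 * (2 * |β| / κ + 8 * |lam| / κ ^ 3)) =
        C * (12 * |β| * (1 / (K * s ^ 3) * (1 / κ ^ 1)) + 48 * |lam| * (1 / (K * s ^ 3) * (1 / κ ^ 3))) := by ring
    have h := add_le_add (mul_le_mul_of_nonneg_left a1 (show 0 ≤ 12 * |β| by positivity))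
      (mul_le_mul (show 48 * |lam| ≤ 48 by linarith) a3 (by positivity) (by norm_num))
    rw [e]
    calc _ ≤ C * (12 * |β| * P + 48 * P) * (2 * U) :=
          mul_le_mul (mul_le_mul_of_nonneg_left h hC) (by simp only [U]; linarith) (by positivity) (by positivity)
      _ = _ := by ring
  have hE2 : E ≤ √Cτ * (1 / s ^ 10) * (1 / √N) := by
    refine hE.trans_eq ?_
    rw [Real.sqrt_div hCτ, Real.sqrt_mul (by positivity), show s ^ 20 = (s ^ 10) ^ 2 by ring,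
      Real.sqrt_sq (by positivity)]
    field_simp
  have u1 : 1 / N ≤ U := hrN.trans (by simp only [U]; linarith)
  have v1 : 1 / s ^ 2 * (|β| * (1 / κ / N)) ≤ |β| * P * U := by
    calc _ = |β| * (1 / s ^ 2 * (1 / κ ^ 1)) * (1 / N) := by ring
      _ ≤ |β| * P * U := mul_le_mul (mul_le_mul_of_nonneg_left (b 1 (by norm_num)) hb) u1 (by positivity)
          (by positivity)
  have v2 : 1 / s ^ 2 * (|lam| * (8 / κ ^ 3)) ≤ 8 * P * U := by
    calc _ = 8 * (1 / s ^ 2 * (1 / κ ^ 3)) * |lam| := by ring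
      _ ≤ 8 * P * U := mul_le_mul (mul_le_mul_of_nonneg_left (b 3 (by norm_num)) (by norm_num))
          (by simp only [U]; linarith) hlam0 (by positivity)
  have v3 : 1 / s ^ 2 * (|β| * (24 / κ) * (Vi + Δ)) ≤ 24 * |β| * P * U := by
    calc _ = 24 * |β| * (1 / s ^ 2 * (1 / κ ^ 1)) * (Vi + Δ) := by ring
      _ ≤ 24 * |β| * P * U := mul_le_mul (mul_le_mul_of_nonneg_left (b 1 (by norm_num)) (by positivity))
          (by simp only [U]; linarith) (by positivity) (by positivity)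
  have v4 : 1 / s ^ 2 * (3 / κ ^ 2 / N) ≤ 3 * P * U := by
    calc _ = 3 * (1 / s ^ 2 * (1 / κ ^ 2)) * (1 / N) := by ring
      _ ≤ 3 * P * U := mul_le_mul (mul_le_mul_of_nonneg_left (b 2 (by norm_num)) (by norm_num)) u1 (by positivity)
          (by positivity)
  have v5 : 1 / s ^ 2 * (E / κ) ≤ √Cτ * P * U := by
    calc _ = 1 / s ^ 2 * (1 / κ ^ 1) * E := by ring
      _ ≤ 1 / s ^ 2 * (1 / s ^ (2 * 1)) * (√Cτ * (1 / s ^ 10) * (1 / √N)) :=
          mul_le_mul (mul_le_mul_of_nonneg_left (hk 1) (by positivity)) hE2 hE0 (by positivity)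
      _ = √Cτ * (1 / s ^ 14) * (1 / √N) := by ring
      _ ≤ √Cτ * P * U := mul_le_mul (mul_le_mul_of_nonneg_left (hp 14 (by norm_num)) (Real.sqrt_nonneg _))
          (by simp only [U]; linarith) hrn0 (by positivity)
  have t2 : C / s ^ 2 * (6 * (|β| * (1 / κ / N) + |lam| * (8 / κ ^ 3)) + |β| * (24 / κ) * (Vi + Δ) +
      (3 / κ ^ 2 / N + E / κ)) ≤ C * (30 * |β| + 51 + √Cτ) * P * U := by
    calc _ = C * (6 * (1 / s ^ 2 * (|β| * (1 / κ / N))) + 6 * (1 / s ^ 2 * (|lam| * (8 / κ ^ 3))) +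
          1 / s ^ 2 * (|β| * (24 / κ) * (Vi + Δ)) + 1 / s ^ 2 * (3 / κ ^ 2 / N) + 1 / s ^ 2 * (E / κ)) := by ring
      _ ≤ C * ((30 * |β| + 51 + √Cτ) * (P * U)) := mul_le_mul_of_nonneg_left (by linarith) hC
      _ = _ := by ring
  have e : C * (54 * |β| + 147 + √Cτ) / (K * s ^ 16) = C * (54 * |β| + 147 + √Cτ) * P := by
    rw [hP]; ring
  rw [e]
  linarith

/-- **One test**, integrated -/
lemma tested_bound {Cτ : ℝ} (hCτ : 0 ≤ Cτ)
    (hτ : ∫ g : Edge n → ℝ, ‖tauC D.s g - (zeta D.s)⁻¹‖ ^ 2 ∂gauss (Edge n) ≤ Cτ / (D.s ^ 20 * n))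
    (hs0 : 0 < D.s) (hs4 : D.s ≤ 1 / 4) (hlam : |D.lam| ≤ 1) {C K : ℝ} (hC : 0 ≤ C) (hK : 0 < K) (hK1 : K ≤ 1)
    {F A0 A1 A2 : (Edge n → ℝ) → ℂ} {l : ℕ} (hl : l ≤ D.R) (h : Tested D C K F A0 A1 A2 l) {i : ℕ}
    (hi : i ≤ D.R) :
    |∫ g, (F g * D.cr g i).im ∂gauss (Edge n)| ≤ D.err (2 * (C * (54 * |D.β| + 147 + √Cτ))) K i l := by
  obtain ⟨⟨cF, c0, c1, c2⟩, hb, hd⟩ := h
  set B0 := C / D.s ^ 2
  set B1 := C / (K * D.s ^ 3)
  have one : ∀ (M L : ℂ →L[ℝ] ℝ), (∀ z, |M z| ≤ ‖z‖) → (∀ z, |L z| ≤ ‖z‖) →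
      |∫ g, M (F g) * D.res L g i ∂gauss (Edge n)| ≤ D.err (C * (54 * |D.β| + 147 + √Cτ)) K i l := by
    intro M L hM hL
    have hc : ∀ {f : (Edge n → ℝ) → ℂ} {B : ℝ}, Continuous f → (∀ g, ‖f g‖ ≤ B) →
        EB fun g => M (f g) := fun hf hB => EB.of_le (EB.const _) (M.continuous.comp hf) fun g =>
      (hM _).trans (hB g)
    have hib := ibp_bound D L hL (φ := fun g => M (F g)) (a0 := fun g => M (A0 g)) (a1 := fun g => M (A1 g))
      (a2 := fun g => M (A2 g)) (hc cF fun g => (hb g).1) (hc c0 fun g => (hb g).2.1)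
      (hc c1 fun g => (hb g).2.2.1) (hc c2 fun g => (hb g).2.2.2) (fun g => (hM _).trans (hb g).1)
      (fun g => (hM _).trans (hb g).2.1) (fun g => (hM _).trans (hb g).2.2.1)
      (fun g => (hM _).trans (hb g).2.2.2) hi hl fun g e => by
        refine (M.hasFDerivAt.comp_hasDerivAt (g e) (hd g e)).congr_deriv ?_
        simp only [map_add, mul_comm _ ((_ : ℝ) : ℂ), L_ofReal_mul]
        ring
    refine hib.trans ?_
    have hI : ∫ g : Edge n → ℝ, ‖tauC D.s g - (zeta D.s)⁻¹‖ ∂gauss (Edge n) ≤ √(Cτ / (D.s ^ 20 * n)) := by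
      have hc' : Continuous fun g : Edge n → ℝ => ‖tauC D.s g - (zeta D.s)⁻¹‖ :=
        ((differentiable_tauC D.hs).continuous.sub continuous_const).norm
      have hbd : ∀ g : Edge n → ℝ, ‖tauC D.s g - (zeta D.s)⁻¹‖ ≤ 1 / kap D.s + ‖(zeta D.s)⁻¹‖ := fun g => by
        refine (norm_sub_le _ _).trans (add_le_add ?_ le_rfl)
        rw [tauC, norm_div, Complex.norm_natCast]
        refine div_le_of_le_mul₀ (Nat.cast_nonneg _) (by have := D.hs; positivity) ?_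
        refine (norm_sum_le _ _).trans ((sum_le_sum fun a _ => norm_Gc D.hs g a a).trans_eq ?_)
        simp [mul_comm]
      have heb : EB fun g : Edge n → ℝ => ‖tauC D.s g - (zeta D.s)⁻¹‖ :=
        EB.of_le (EB.const _) hc' fun g => by rw [abs_norm]; exact hbd g
      have h2 := Rec.integral_mul_le_sqrt heb (EB.const (S := Edge n) 1)
      simp only [mul_one, one_pow, integral_const, probReal_univ, one_smul, Real.sqrt_one] at h2
      exact h2.trans (Real.sqrt_le_sqrt hτ)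
    exact err_arith hC hK hK1 hs0 (by linarith) (kap_bounds hs0 hs4).1
      (Nat.one_le_cast.2 NeZero.one_le) hlam hCτ (integral_nonneg fun g => D.ad_nonneg g)
      (integral_nonneg fun g => D.dev_nonneg g i) (integral_nonneg fun g => D.dev_nonneg g l)
      (integral_nonneg fun g => norm_nonneg _) hI
  have ebr := Tested.eb D ⟨⟨cF, c0, c1, c2⟩, hb, hd⟩
  have h1 := one Complex.reCLM Complex.imCLM (fun w => Complex.abs_re_le_norm w) fun w => Complex.abs_im_le_norm w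
  have h2 := one Complex.imCLM Complex.reCLM (fun w => Complex.abs_im_le_norm w) fun w => Complex.abs_re_le_norm w
  simp only [Dat.cr, cres_res, Complex.mul_im]
  rw [integral_add (ebr.1.mul (eb_res D _ (fun w => Complex.abs_im_le_norm w) i)).integrable
    (ebr.2.mul (eb_res D _ (fun w => Complex.abs_re_le_norm w) i)).integrable]
  refine (abs_add_le _ _).trans ((add_le_add h1 h2).trans_eq ?_)
  simp only [Dat.err]
  ring

lemma eb_cd_im {C K : ℝ} {F A0 A1 A2 : (Edge n → ℝ) → ℂ} {l : ℕ} (h : Tested D C K F A0 A1 A2 l) (j : ℕ) :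
    EB fun g => (F g * cdlev D.R (D.cr g) j).im := by
  have e : ∀ g, (F g * cdlev D.R (D.cr g) j).im = (F g * D.cr g D.R).im -
      ((j : ℝ) * (F g * D.cr g j).im + ∑ i ∈ Ico j D.R, (F g * D.cr g i).im) / D.R := fun g => by
    rw [cdlev, mul_sub, Complex.sub_im, mul_div_assoc', mul_add, mul_sum, Complex.div_natCast_im, Complex.add_im,
      Complex.im_sum, mul_left_comm, ← Complex.ofReal_natCast, Complex.im_ofReal_mul]
  simp only [e, div_eq_mul_inv]
  obtain ⟨hr, hi⟩ := Tested.eb D h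
  exact (eb_cr_im D hr hi _).sub ((((EB.const _).mul (eb_cr_im D hr hi _)).add
    (EB.sum _ fun i _ => eb_cr_im D hr hi i)).mul (EB.const _))

/-- a test against the susceptibility of the residual -/
lemma tested_cdlev {Cτ : ℝ} (hCτ : 0 ≤ Cτ)
    (hτ : ∫ g : Edge n → ℝ, ‖tauC D.s g - (zeta D.s)⁻¹‖ ^ 2 ∂gauss (Edge n) ≤ Cτ / (D.s ^ 20 * n))
    (hs0 : 0 < D.s) (hs4 : D.s ≤ 1 / 4) (hlam : |D.lam| ≤ 1) {C K : ℝ} (hC : 0 ≤ C) (hK : 0 < K) (hK1 : K ≤ 1)
    {F A0 A1 A2 : (Edge n → ℝ) → ℂ} {l : ℕ} (hl : l ≤ D.R) (h : Tested D C K F A0 A1 A2 l) {j : ℕ}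
    (hj : j ≤ D.R) :
    |∫ g, (F g * cdlev D.R (D.cr g) j).im ∂gauss (Edge n)| ≤
      2 * (C * (54 * |D.β| + 147 + √Cτ)) / (K * D.s ^ 16) * (5 * (|D.lam| + 1 / √(n : ℝ) +
        ∫ g, D.ad g ∂gauss (Edge n)) + 3 * ∫ g, D.dev g l ∂gauss (Edge n) +
        if j = 0 then 0 else ∫ g, D.dev g j ∂gauss (Edge n)) := by
  set μ := gauss (Edge n)
  set Cb := 2 * (C * (54 * |D.β| + 147 + √Cτ))
  set P := Cb / (K * D.s ^ 16)
  set U := |D.lam| + 1 / √(n : ℝ) + ∫ g, D.ad g ∂μ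
  set V : ℕ → ℝ := fun i => ∫ g, D.dev g i ∂μ
  set I : ℕ → ℝ := fun i => ∫ g, (F g * D.cr g i).im ∂μ
  have hI : ∀ i ≤ D.R, |I i| ≤ P * (U + V i + V l) := fun i hi => by
    refine (tested_bound D hCτ hτ hs0 hs4 hlam hC hK hK1 hl h hi).trans_eq ?_
    simp only [Dat.err, P, U, V, Cb, μ]
  have hP : 0 ≤ P := by positivity
  have hV : ∀ i, 0 ≤ V i := fun i => integral_nonneg fun g => D.dev_nonneg g i
  have had : ∫ g, D.ad g ∂μ = (∑ i ∈ range D.R, V i) / D.R + V D.R := by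
    simp only [Dat.ad_eq]
    rw [integral_add (Rec.eb_div (EB.sum _ fun i _ => eb_dev D i) _).integrable (eb_dev D _).integrable, integral_div,
      integral_finsetSum _ fun i _ => (eb_dev D i).integrable]
  obtain ⟨hr, him⟩ := Tested.eb D h
  have e : ∫ g, (F g * cdlev D.R (D.cr g) j).im ∂μ = I D.R - ((j : ℝ) * I j + ∑ i ∈ Ico j D.R, I i) / D.R := by
    have e' : ∀ g, (F g * cdlev D.R (D.cr g) j).im = (F g * D.cr g D.R).im -
        ((j : ℝ) * (F g * D.cr g j).im + ∑ i ∈ Ico j D.R, (F g * D.cr g i).im) / D.R := fun g => by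
      rw [cdlev, mul_sub, Complex.sub_im, mul_div_assoc', mul_add, mul_sum, Complex.div_natCast_im, Complex.add_im,
        Complex.im_sum, mul_left_comm, ← Complex.ofReal_natCast, Complex.im_ofReal_mul]
    simp only [e']
    have i1 := (eb_cr_im D hr him j).integrable.const_mul (j : ℝ)
    have i2 := (EB.sum (Ico j D.R) fun i _ => eb_cr_im D hr him i).integrable
    have i3 : Integrable (fun g => (j : ℝ) * (F g * D.cr g j).im + ∑ i ∈ Ico j D.R, (F g * D.cr g i).im) μ :=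
      i1.add i2
    rw [integral_sub (eb_cr_im D hr him D.R).integrable (i3.div_const _), integral_div,
      integral_add i1 i2, integral_const_mul, integral_finsetSum _ fun i _ => (eb_cr_im D hr him i).integrable]
  rw [e]
  have hR : (0:ℝ) < D.R := Nat.cast_pos.2 D.P.one_le
  have hsumV : (∑ i ∈ Ico j D.R, V i) / D.R ≤ ∫ g, D.ad g ∂μ - V D.R := by
    rw [had, add_sub_cancel_right]
    exact div_le_div_of_nonneg_right (sum_le_sum_of_subset_of_nonneg
      (fun i hi => mem_range.2 (mem_Ico.1 hi).2) fun i _ _ => hV i) hR.le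
  have hU : 0 ≤ U := by
    have : 0 ≤ ∫ g, D.ad g ∂μ := integral_nonneg fun g => D.ad_nonneg g
    positivity
  have hj' : (j : ℝ) * |I j| / D.R ≤ P * (U + (if j = 0 then 0 else V j) + V l) := by
    split_ifs with h0
    · subst h0
      simp only [Nat.cast_zero, zero_mul, zero_div]
      have := hV l
      positivity
    · rw [div_le_iff₀ hR, mul_comm (P * _)]
      exact mul_le_mul (Nat.cast_le.2 hj) (hI j hj) (abs_nonneg _) hR.le
  have hs2 : (∑ i ∈ Ico j D.R, |I i|) / D.R ≤ P * (U + V l + (∫ g, D.ad g ∂μ - V D.R)) := by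
    have h1 : (∑ i ∈ Ico j D.R, |I i|) / D.R ≤ (∑ i ∈ Ico j D.R, P * (U + V l + V i)) / D.R :=
      div_le_div_of_nonneg_right (sum_le_sum fun i hi => (hI i (mem_Ico.1 hi).2.le).trans_eq (by ring)) hR.le
    refine h1.trans ?_
    rw [← mul_sum, mul_div_assoc]
    refine mul_le_mul_of_nonneg_left ?_ hP
    rw [sum_add_distrib, sum_const, Nat.card_Ico, nsmul_eq_mul, add_div]
    refine add_le_add ?_ hsumV
    rw [div_le_iff₀ hR, mul_comm]
    refine mul_le_mul_of_nonneg_left (Nat.cast_le.2 (Nat.sub_le _ _)) ?_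
    linarith [hV l]
  refine (abs_sub _ _).trans ?_
  rw [abs_div, Nat.abs_cast]
  refine (add_le_add (hI D.R le_rfl) ((div_le_div_of_nonneg_right
    ((abs_add_le _ _).trans (add_le_add_right (abs_sum_le_sum_abs _ _) _)) hR.le).trans_eq (add_div _ _ _))).trans ?_
  rw [abs_mul, Nat.abs_cast]
  have := add_le_add hj' hs2
  have hlam0 := abs_nonneg D.lam
  have hrn : 0 ≤ 1 / √(n : ℝ) := by positivity
  have hU' : ∫ g, D.ad g ∂μ ≤ U := by simp only [U]; linarith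
  have := mul_le_mul_of_nonneg_left hU' hP
  have := mul_nonneg hP hU
  linarith

/-- the three tests of a level -/
lemma tested_Tf {β C K : ℝ} (hs0 : 0 < D.s) (hs4 : D.s ≤ 1 / 4) (hK : 0 < K) (hK1 : K ≤ 1)
    (hb : ∀ (s K : ℝ) (R l : ℕ) (q : ℕ → ℝ), 0 < s → s ≤ 1 / 4 → 0 < K → K ≤ 1 → |q l| ≤ 1 →
      ∀ k, ‖Tf β s K R q l k‖ ≤ C / s ^ 2 ∧ ∀ j, ‖Ta β s K R q l k j‖ ≤ C / (K * s ^ 3))
    {l : ℕ} (hl : l ≤ D.R) (k : Fin 3) :
    Tested D C K (fun g => Tf β D.s K D.R (D.q g) l k) (fun g => Ta β D.s K D.R (D.q g) l k 0)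
      (fun g => Ta β D.s K D.R (D.q g) l k 1) (fun g => Ta β D.s K D.R (D.q g) l k 2) l := by
  have hq : ∀ i, Continuous fun g => D.q g i := fun i => (eb_q D i).1
  refine ⟨⟨continuous_Tf hq hs0 β K _ _ _, continuous_Ta hq hs0 β K _ _ _ _, continuous_Ta hq hs0 β K _ _ _ _,
    continuous_Ta hq hs0 β K _ _ _ _⟩, fun g => ?_, fun g e => ?_⟩
  · obtain ⟨h1, h2⟩ := hb D.s K D.R l (D.q g) hs0 hs4 hK hK1 (D.q_abs_le g l) k
    exact ⟨h1, h2 0, h2 1, h2 2⟩
  · have h := hasDerivAt_Tf (β := β) hs0 hK D.R l (Q := fun t => D.q (Function.update g e t)) (dQ := D.dq g e)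
      (t₀ := g e) (fun i hi => hd_q D g e hi) hl k
    simp only [Function.update_eq_self] at h
    exact h

/-- the bottom test only depends on the bottom susceptibility -/
lemma tested_bot {β C K : ℝ} (hs0 : 0 < D.s) (hs4 : D.s ≤ 1 / 4) (hK : 0 < K) (hK1 : K ≤ 1)
    (hC : 0 ≤ C)
    (hb : ∀ (s K : ℝ) (R l : ℕ) (q : ℕ → ℝ), 0 < s → s ≤ 1 / 4 → 0 < K → K ≤ 1 → |q l| ≤ 1 →
      ∀ k, ‖Tf β s K R q l k‖ ≤ C / s ^ 2 ∧ ∀ j, ‖Ta β s K R q l k j‖ ≤ C / (K * s ^ 3)) :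
    Tested D C K (fun g => Tf β D.s K D.R (D.q g) 0 0) (fun g => Ta β D.s K D.R (D.q g) 0 0 1)
      (fun _ => 0) (fun _ => 0) D.R := by
  obtain ⟨⟨c, -, c1, -⟩, hbd, hd⟩ := tested_Tf D hs0 hs4 hK hK1 hb (Nat.zero_le _) (0 : Fin 3)
  refine ⟨⟨c, c1, continuous_const, continuous_const⟩, fun g => ⟨(hbd g).1, (hbd g).2.2.1, ?_, ?_⟩, fun g e => ?_⟩
  · rw [norm_zero]; positivity
  · rw [norm_zero]; positivity
  · refine (hd g e).congr_deriv ?_
    simp [Ta]

lemma eb_T : EB fun g => D.T g := eb_E2 D (fun x y => Rec.eb_div (eb_pb D.hs x y) _) _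

/-- the bound at one point of the grid -/
lemma worth_point {β C Cτ K γ θ : ℝ} (hβ : D.β = β) (hβ0 : 0 ≤ β) (hs0 : 0 < D.s) (hs4 : D.s ≤ 1 / 4)
    (hlam : |D.lam| ≤ 1) (hK : 0 < K) (hK1 : K ≤ 1) (hγ : 0 ≤ γ) (hγ1 : γ ≤ 1) (hθ : 0 < θ) (hC : 0 ≤ C)
    (hCτ : 0 ≤ Cτ)
    (hτ : ∫ g : Edge n → ℝ, ‖tauC D.s g - (zeta D.s)⁻¹‖ ^ 2 ∂gauss (Edge n) ≤ Cτ / (D.s ^ 20 * n))
    (hb : ∀ (s K : ℝ) (R l : ℕ) (q : ℕ → ℝ), 0 < s → s ≤ 1 / 4 → 0 < K → K ≤ 1 → |q l| ≤ 1 →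
      ∀ k, ‖Tf β s K R q l k‖ ≤ C / s ^ 2 ∧ ∀ j, ‖Ta β s K R q l k j‖ ≤ C / (K * s ^ 3))
    {L : ℕ} (hL : 0 < L) (hL3 : 3 * L ≤ D.R) :
    ∫ g, Yf β D.s K γ D.R L (D.q g) ∂gauss (Edge n) ≤
      3 * ∫ g, D.T g ∂gauss (Edge n) +
        β * (γ * K * (θ + (∫ g, D.T g ∂gauss (Edge n)) / (D.s ^ 2 * θ))) +
        40 * (2 * (C * (54 * |β| + 147 + √Cτ))) / (K * D.s ^ 16) * ((D.R : ℝ) / L) ^ 2 *
          (|D.lam| + 1 / √(n : ℝ) + ∫ g, D.ad g ∂gauss (Edge n)) := by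
  subst hβ
  set μ := gauss (Edge n)
  set P := 2 * (C * (54 * |D.β| + 147 + √Cτ)) / (K * D.s ^ 16) with hPdef
  have hP : 0 ≤ P := by positivity
  set U := |D.lam| + 1 / √(n : ℝ) + ∫ g, D.ad g ∂μ
  set V : ℕ → ℝ := fun i => ∫ g, D.dev g i ∂μ
  have hR : (0:ℝ) < D.R := Nat.cast_pos.2 D.P.one_le
  have hLpos : (0:ℝ) < L := Nat.cast_pos.2 hL
  have hk := D.hs
  obtain ⟨hk2, -, -⟩ := kap_bounds hs0 hs4
  have hV : ∀ i, 0 ≤ V i := fun i => integral_nonneg fun g => D.dev_nonneg g i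
  have hΔ : 0 ≤ ∫ g, D.ad g ∂μ := integral_nonneg fun g => D.ad_nonneg g
  have hU : 0 ≤ U := by positivity
  have hT0 : ∀ g, 0 ≤ D.T g := fun g => (abs_nonneg _).trans (D.tc_im_le g le_rfl)
  have hVR : V D.R ≤ ∫ g, D.ad g ∂μ := integral_mono (eb_dev D _).integrable (eb_ad D).integrable fun g =>
    le_add_of_nonneg_left (div_nonneg (sum_nonneg fun i _ => D.dev_nonneg g i) (Nat.cast_nonneg _))
  have hblock : (∑ l ∈ Ico (2 * L) (3 * L), V l) / L ≤ (D.R : ℝ) / L * ∫ g, D.ad g ∂μ := by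
    have h1 : ∑ l ∈ Ico (2 * L) (3 * L), V l ≤ ∑ l ∈ range D.R, V l :=
      sum_le_sum_of_subset_of_nonneg (fun i hi => mem_range.2 ((mem_Ico.1 hi).2.trans_le hL3)) fun i _ _ => hV i
    have h2 : (∑ l ∈ range D.R, V l) / D.R ≤ ∫ g, D.ad g ∂μ := by
      have : ∫ g, D.ad g ∂μ = (∑ i ∈ range D.R, V i) / D.R + V D.R := by
        simp only [Dat.ad_eq]
        rw [integral_add (Rec.eb_div (EB.sum _ fun i _ => eb_dev D i) _).integrable (eb_dev D _).integrable,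
          integral_div, integral_finsetSum _ fun i _ => (eb_dev D i).integrable]
      have := hV D.R
      linarith
    rw [div_le_iff₀ hR] at h2
    rw [div_le_iff₀ hLpos, div_mul_eq_mul_div, div_mul_cancel₀ _ hLpos.ne', mul_comm (D.R : ℝ)]
    exact h1.trans h2
  set b0 := fun g => (Tf D.β D.s K D.R (D.q g) 0 0 * cdlev D.R (D.cr g) 0).im
  set bl := fun l g => (Tf D.β D.s K D.R (D.q g) l 0 * cdlev D.R (D.cr g) l).im
  set f3 := fun l g => (Tf D.β D.s K D.R (D.q g) l 2 * cdlev D.R (D.cr g) 0).im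
  set f2 := fun l g => (Tf D.β D.s K D.R (D.q g) l 1 * D.cr g l).im
  set Z := fun g => (2 + γ) * D.T g + γ * (D.β * K / 2 * (θ / 2 + D.T g / (2 * kap D.s * θ)))
  have ebZ : EB Z := ((EB.const _).mul (eb_T D)).add
    ((EB.const _).mul ((EB.const _).mul ((EB.const _).add (Rec.eb_div (eb_T D) _))))
  set W := fun l g => (D.R : ℝ) / l * (b0 g - bl l g) + γ * (f3 l g + f2 l g)
  have hbot := tested_bot D hs0 hs4 hK hK1 hC hb
  have htf : ∀ l ≤ D.R, ∀ k, Tested D C K (fun g => Tf D.β D.s K D.R (D.q g) l k)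
      (fun g => Ta D.β D.s K D.R (D.q g) l k 0) (fun g => Ta D.β D.s K D.R (D.q g) l k 1)
      (fun g => Ta D.β D.s K D.R (D.q g) l k 2) l := fun l hl k => tested_Tf D hs0 hs4 hK hK1 hb hl k
  have hle : ∀ l ∈ Ico (2 * L) (3 * L), l ≤ D.R := fun l hl => (mem_Ico.1 hl).2.le.trans hL3
  have ebb0 : EB b0 := eb_cd_im D hbot 0
  have ebbl : ∀ l ≤ D.R, EB (bl l) := fun l hl => eb_cd_im D (htf l hl 0) l
  have ebf3 : ∀ l ≤ D.R, EB (f3 l) := fun l hl => eb_cd_im D (htf l hl 2) 0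
  have ebf2 : ∀ l ≤ D.R, EB (f2 l) := fun l hl =>
    eb_cr_im D (Tested.eb D (htf l hl 1)).1 (Tested.eb D (htf l hl 1)).2 l
  have ebW : ∀ l ≤ D.R, EB (W l) := fun l hl =>
    ((EB.const _).mul (ebb0.sub (ebbl l hl))).add ((EB.const _).mul ((ebf3 l hl).add (ebf2 l hl)))
  have hpt : ∀ g, Yf D.β D.s K γ D.R L (D.q g) ≤ Z g + (∑ l ∈ Ico (2 * L) (3 * L), W l g) / L := fun g => by
    obtain ⟨hq, hq1⟩ := qlev_wgt_prof D.P D.β D.s D.lam D.v g D.u
    have h : ∀ l ∈ Ico (2 * L) (3 * L), worth D.β D.s K γ D.R (D.q g) l ≤ Z g + W l g := fun l hl => by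
      have h := worth_le (t := D.tc g) hβ0 hs0 hK hγ hq hq1 (show 0 < l by have := (mem_Ico.1 hl).1; omega)
        (hle l hl) (fun i hi => D.tc_im_le g hi) fun i hi => D.tc_norm_le g hi hθ
      refine h.trans_eq ?_
      simp only [Z, W, b0, bl, f3, f2]
      rw [add_assoc]
      show _ = _ + ((D.R : ℝ) / l * _ + _)
      rfl
    refine (div_le_div_of_nonneg_right (sum_le_sum h) hLpos.le).trans_eq ?_
    rw [sum_add_distrib, sum_const, Nat.card_Ico, show 3 * L - 2 * L = L by omega, nsmul_eq_mul, add_div,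
      mul_div_cancel_left₀ _ hLpos.ne']
  have hWi : ∀ l ∈ Ico (2 * L) (3 * L), ∫ g, W l g ∂μ ≤ (D.R : ℝ) / L * P * (20 * U + 12 * V l) := fun l hl => by
    have hlR := hle l hl
    have hl0 : (0:ℝ) < l := by
      have := (mem_Ico.1 hl).1
      exact Nat.cast_pos.2 (by omega)
    have hrl : (D.R : ℝ) / l ≤ (D.R : ℝ) / L := div_le_div_of_nonneg_left hR.le hLpos
      (Nat.cast_le.2 (le_trans (by omega) (mem_Ico.1 hl).1))
    have hr1 : (1:ℝ) ≤ (D.R : ℝ) / L := by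
      rw [one_le_div hLpos]; exact Nat.cast_le.2 (le_trans (by omega) hL3)
    have n0 : l ≠ 0 := fun h => by subst h; simp at hl0
    have bound : ∀ x : ℝ, |x| ≤ P * (5 * U + 3 * V l + V l) → |x| ≤ P * (5 * U + 4 * V l) := fun x h => by linarith
    have i0 := tested_cdlev D hCτ hτ hs0 hs4 hlam hC hK hK1 le_rfl hbot (Nat.zero_le D.R)
    have il := tested_cdlev D hCτ hτ hs0 hs4 hlam hC hK hK1 hlR (htf l hlR 0) hlR
    have i3 := tested_cdlev D hCτ hτ hs0 hs4 hlam hC hK hK1 hlR (htf l hlR 2) (Nat.zero_le D.R)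
    have i2 := tested_bound D hCτ hτ hs0 hs4 hlam hC hK hK1 hlR (htf l hlR 1) hlR
    rw [if_pos rfl, ← hPdef, add_zero] at i0 i3
    rw [if_neg n0, ← hPdef] at il
    simp only [Dat.err, ← hPdef] at i2
    change |∫ g, b0 g ∂μ| ≤ P * (5 * U + 3 * V D.R) at i0
    change |∫ g, bl l g ∂μ| ≤ P * (5 * U + 3 * V l + V l) at il
    change |∫ g, f3 l g ∂μ| ≤ P * (5 * U + 3 * V l) at i3
    change |∫ g, f2 l g ∂μ| ≤ P * (U + V l + V l) at i2
    have q1 : ∫ g, W l g ∂μ = (D.R : ℝ) / l * (∫ g, b0 g ∂μ - ∫ g, bl l g ∂μ) +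
        γ * (∫ g, f3 l g ∂μ + ∫ g, f2 l g ∂μ) := by
      simp only [W]
      rw [integral_add ((ebb0.sub (ebbl l hlR)).integrable.const_mul _)
        (((ebf3 l hlR).add (ebf2 l hlR)).integrable.const_mul _), integral_const_mul, integral_const_mul,
        integral_sub ebb0.integrable (ebbl l hlR).integrable,
        integral_add (ebf3 l hlR).integrable (ebf2 l hlR).integrable]
    have hVU : V D.R ≤ U := hVR.trans (by simp only [U]; linarith [abs_nonneg D.lam, show 0 ≤ 1 / √(n : ℝ) by positivity])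
    have q2 : (D.R : ℝ) / l * (∫ g, b0 g ∂μ - ∫ g, bl l g ∂μ) ≤ (D.R : ℝ) / L * (P * (14 * U + 4 * V l)) := by
      refine (mul_le_mul_of_nonneg_left ((le_abs_self _).trans (abs_sub _ _)) (by positivity)).trans
        (mul_le_mul hrl ?_ (by positivity) (by positivity))
      have := mul_le_mul_of_nonneg_left hVU hP
      linarith [mul_nonneg hP hU]
    have q3 : γ * (∫ g, f3 l g ∂μ + ∫ g, f2 l g ∂μ) ≤ (D.R : ℝ) / L * (P * (6 * U + 8 * V l)) := by
      refine (mul_le_mul_of_nonneg_left ((le_abs_self _).trans (abs_add_le _ _)) hγ).trans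
        (mul_le_mul (hγ1.trans hr1) ?_ (by positivity) (by positivity))
      linarith [mul_nonneg hP (hV l)]
    rw [q1]
    refine (add_le_add q2 q3).trans_eq ?_
    ring
  have ebYf : EB fun g => Yf D.β D.s K γ D.R L (D.q g) := by
    obtain ⟨CB, hCB, hB⟩ := worth_bound D.β
    exact EB.of_le (EB.const (CB * ((D.R : ℝ) / L) / D.s ^ 2))
      (continuous_Yf D.β hs0 K γ D.R L fun i => (eb_q D i).1) fun g =>
      hB D.R L (D.q g) D.s K γ hs0 hs4 hγ hγ1 (qlev_wgt_prof D.P D.β D.s D.lam D.v g D.u).1 hL hL3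
  have isum : Integrable (fun g => (∑ l ∈ Ico (2 * L) (3 * L), W l g) / L) μ :=
    (integrable_finsetSum _ fun l hl => (ebW l (hle l hl)).integrable).div_const _
  refine (integral_mono ebYf.integrable (ebZ.integrable.add isum) hpt).trans ?_
  simp only [Pi.add_apply]
  rw [integral_add ebZ.integrable isum, integral_div,
    integral_finsetSum _ fun l hl => (ebW l (hle l hl)).integrable]
  refine add_le_add ?_ ?_
  · have hIT : 0 ≤ ∫ g, D.T g ∂μ := integral_nonneg hT0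
    have e : ∫ g, Z g ∂μ = (2 + γ) * ∫ g, D.T g ∂μ +
        γ * (D.β * K / 2 * (θ / 2 + (∫ g, D.T g ∂μ) / (2 * kap D.s * θ))) := by
      simp only [Z]
      have iT : Integrable (fun g => θ / 2 + D.T g / (2 * kap D.s * θ)) μ :=
        (integrable_const _).add ((eb_T D).integrable.div_const _)
      rw [integral_add ((eb_T D).integrable.const_mul _) ((iT.const_mul _).const_mul _),
        integral_const_mul, integral_const_mul, integral_const_mul,
        integral_add (integrable_const _) ((eb_T D).integrable.div_const _), integral_const, integral_div,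
        probReal_univ, one_smul]
    rw [e]
    have h1 : (∫ g, D.T g ∂μ) / (2 * kap D.s * θ) ≤ (∫ g, D.T g ∂μ) / (D.s ^ 2 * θ) := by
      refine div_le_div_of_nonneg_left hIT (by positivity) (mul_le_mul_of_nonneg_right ?_ hθ.le)
      linarith
    have h2 : D.β * K / 2 * (θ / 2 + (∫ g, D.T g ∂μ) / (2 * kap D.s * θ)) ≤
        D.β * K * (θ + (∫ g, D.T g ∂μ) / (D.s ^ 2 * θ)) :=
      mul_le_mul (by linarith [mul_nonneg hβ0 hK.le]) (by linarith) (by positivity) (by positivity)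
    have := mul_le_mul_of_nonneg_left h2 hγ
    have := mul_le_mul_of_nonneg_right (show 2 + γ ≤ 3 by linarith) hIT
    linarith
  · refine (div_le_div_of_nonneg_right (sum_le_sum hWi) hLpos.le).trans ?_
    rw [← mul_sum, sum_add_distrib, sum_const, Nat.card_Ico, show 3 * L - 2 * L = L by omega, nsmul_eq_mul,
      ← mul_sum, mul_div_assoc, add_div, mul_div_cancel_left₀ _ hLpos.ne', mul_div_assoc]
    have hr1 : (1:ℝ) ≤ (D.R : ℝ) / L := by
      rw [one_le_div hLpos]; exact Nat.cast_le.2 (le_trans (by omega) hL3)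
    have h1 : 20 * U + 12 * ((∑ l ∈ Ico (2 * L) (3 * L), V l) / L) ≤ (D.R : ℝ) / L * (40 * U) := by
      have a := le_mul_of_one_le_left hU hr1
      have b : ∫ g, D.ad g ∂μ ≤ U := by simp only [U]; linarith [abs_nonneg D.lam, show 0 ≤ 1 / √(n : ℝ) by positivity]
      have c := mul_le_mul_of_nonneg_left b (show 0 ≤ (D.R : ℝ) / L by positivity)
      linarith
    refine (mul_le_mul_of_nonneg_left h1 (by positivity)).trans_eq ?_
    rw [hPdef]
    ring

lemma avg_affine {ι : Type*} [Fintype ι] [Nonempty ι] (a b c : ℝ) (x y : ι → ℝ) :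
    (Vale.Agent.P168.MP.avg fun u => a * x u + b + c * y u) =
      a * Vale.Agent.P168.MP.avg x + b + c * Vale.Agent.P168.MP.avg y := by
  have hc : (Fintype.card ι : ℝ) ≠ 0 := Nat.cast_ne_zero.2 Fintype.card_ne_zero
  simp only [Vale.Agent.P168.MP.avg, sum_add_distrib, ← mul_sum, sum_const, card_univ, nsmul_eq_mul]
  field_simp

lemma worth_arith {β Cb K s γ θ T δ lam r : ℝ} (hβ : 0 ≤ β) (hCb : 0 ≤ Cb) (hK : 0 < K) (hs : 0 < s)
    (hγ : 0 ≤ γ) (hθ : 0 < θ) (hT : 0 ≤ T) (hδ : 0 ≤ δ) (_hlam : |lam| ≤ 1) (n : ℕ) :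
    (3 + β * (γ * K / (s ^ 2 * θ))) * T + (β * (γ * K * θ) + Cb / (K * s ^ 16) * r ^ 2 * (|lam| + 1 / √(n : ℝ))) +
        Cb / (K * s ^ 16) * r ^ 2 * δ ≤
      3 * T + (β + Cb) * (γ * K * (θ + T / (s ^ 2 * θ))) +
        (β + Cb) * r ^ 2 / (K * s ^ 16) * (δ + |lam| + 1 / √(n : ℝ)) := by
  have hx : 0 ≤ γ * K * (θ + T / (s ^ 2 * θ)) := by positivity
  have hy : 0 ≤ r ^ 2 / (K * s ^ 16) * (δ + |lam| + 1 / √(n : ℝ)) := by positivity
  have p1 := mul_nonneg hCb hx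
  have p2 := mul_nonneg hβ hy
  have e : (3 + β * (γ * K / (s ^ 2 * θ))) * T +
        (β * (γ * K * θ) + Cb / (K * s ^ 16) * r ^ 2 * (|lam| + 1 / √(n : ℝ))) + Cb / (K * s ^ 16) * r ^ 2 * δ =
      3 * T + (β + Cb) * (γ * K * (θ + T / (s ^ 2 * θ))) +
        (β + Cb) * r ^ 2 / (K * s ^ 16) * (δ + |lam| + 1 / √(n : ℝ)) -
        (Cb * (γ * K * (θ + T / (s ^ 2 * θ))) +
          β * (r ^ 2 / (K * s ^ 16) * (δ + |lam| + 1 / √(n : ℝ)))) := by ring
  rw [e]
  linarith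

/-- **Worth of the test**: the diagonal is at least the worth at the profile of mean overlaps -/
theorem diag_worth {β : ℝ} (hβ : 0 ≤ β) : ∃ C : ℝ, 0 ≤ C ∧ ∀ (P : Par) (δ : ℝ), 0 ≤ δ → P.Good δ →
    ∀ (n : ℕ) [NeZero n] (s lam : ℝ) (v : Cfg n → ℝ), 0 < s → s ≤ 1 / 4 → |lam| ≤ 1 →
    ∀ (L : ℕ) (K γ θ : ℝ), 0 < L → 3 * L ≤ P.R → 0 < K → K ≤ 1 → 0 ≤ γ → γ ≤ 1 → 0 < θ →
      mean (n := n) P β s lam v (fun _ w => Yf β s K γ P.R L (qlev P.R w (spinAt P.R))) ≤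
        3 * diag P n β s lam v + C * (γ * K * (θ + diag P n β s lam v / (s ^ 2 * θ))) +
          C * ((P.R : ℝ) / L) ^ 2 / (K * s ^ 16) * (δ + |lam| + 1 / √(n : ℝ)) := by
  obtain ⟨CT, hCT, hb⟩ := test_bounds hβ
  obtain ⟨Cτ, hCτ, hτ⟩ := tau_close
  set Cb := 40 * (2 * (CT * (54 * |β| + 147 + √Cτ)))
  have hCb : 0 ≤ Cb := by positivity
  refine ⟨β + Cb, by positivity, fun P δ hδ hG n _ s lam v hs0 hs4 hlam L K γ θ hL hL3 hK hK1 hγ hγ1 hθ => ?_⟩
  obtain ⟨-, -, hk⟩ := kap_bounds hs0 hs4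
  have : Nonempty (Fin P.M) := ⟨⟨0, P.M_pos⟩⟩
  set X : P.Grid → Dat n := fun u => ⟨P, β, s, hk, lam, v, u⟩ with hX
  have hdev := avg_ad_le P hG X (β := β) (s := s) (lam := lam) (v := v) fun u g => rfl
  set T := Vale.Agent.P168.MP.avg fun u => ∫ g, (X u).T g ∂gauss (Edge n)
  have hdiag : diag P n β s lam v = T := by
    simp only [diag, mean, T]
    refine congrArg _ (funext fun u => integral_congr_ae (Filter.Eventually.of_forall fun g => ?_))
    exact (X u).T_eq g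
  set P' := Cb / (K * s ^ 16) * ((P.R : ℝ) / L) ^ 2
  have hP' : 0 ≤ P' :=
    mul_nonneg (div_nonneg hCb (mul_nonneg hK.le (pow_nonneg hs0.le _))) (sq_nonneg _)
  have hu : ∀ u, ∫ g, Yf β s K γ P.R L (qlev P.R (P.wp (wgt β s lam v g) u) (spinAt P.R)) ∂gauss (Edge n) ≤
      (3 + β * (γ * K / (s ^ 2 * θ))) * ∫ g, (X u).T g ∂gauss (Edge n) +
        (β * (γ * K * θ) + P' * (|lam| + 1 / √(n : ℝ))) + P' * ∫ g, (X u).ad g ∂gauss (Edge n) := fun u => by
    have h := worth_point (⟨P, β, s, hk, lam, v, u⟩ : Dat n) (β := β) (γ := γ) (θ := θ) (K := K) rfl hβ hs0 hs4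
      hlam hK hK1 hγ hγ1 hθ hCT hCτ (hτ n NeZero.one_le s hs0 hs4) hb (L := L) hL hL3
    simp only [Dat.q, Dat.w, Dat.R] at h
    refine h.trans_eq ?_
    simp only [hX, P', Cb]
    ring
  have hmean : mean (n := n) P β s lam v (fun _ w => Yf β s K γ P.R L (qlev P.R w (spinAt P.R))) ≤
      (3 + β * (γ * K / (s ^ 2 * θ))) * T + (β * (γ * K * θ) + P' * (|lam| + 1 / √(n : ℝ))) + P' * δ := by
    refine (Vale.Agent.P168.MP.avg_le_avg hu).trans ?_
    rw [avg_affine]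
    exact add_le_add le_rfl (mul_le_mul_of_nonneg_left hdev hP')
  refine hmean.trans ?_
  rw [hdiag]
  have hIT : 0 ≤ T := by
    refine div_nonneg (sum_nonneg fun u _ => integral_nonneg fun g => ?_) (Nat.cast_nonneg _)
    exact (abs_nonneg _).trans ((X u).tc_im_le g le_rfl)
  exact worth_arith hβ hCb hK hs0 hγ hθ hIT hδ hlam n

end Vale.Agent.P146.Lower.Res
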