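import Vale.Agent.P146.Lower.Res.RecDat

/-! P146, polynomial lower bound, recursion: the energy form of the deformed perturbed system is the energy level of
its mean overlaps. -/

open MeasureTheory Finset Real Matrix
open Vale.Agent.P150 (gauss)
open Vale.Agent.P168.MP (lin ET spinAt att sp Valid allBatch Mark)
open Vale.Agent.P157.Par (qlev ovK ov adev lvlAvg)
open Vale.Agent.P146.Lower.Rec (Fe sv nr)

noncomputable section

namespace Vale.Agent.P146.Lower.Res

set_option linter.unusedSectionVars false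

variable {n : ℕ} [NeZero n]

/-- grid average of the integrated deviation -/
lemma avg_ad_le (P : Par) {δ : ℝ} (hG : P.Good δ) (X : P.Grid → Dat n) 
    {β s lam : ℝ} {v : Cfg n → ℝ}
    (hw : ∀ u g, (X u).ad g = adev P.R (P.wp (wgt β s lam v g) u) (ovK (spinAt P.R))
      (qlev P.R (P.wp (wgt β s lam v g) u) (spinAt P.R))) :
    (Vale.Agent.P168.MP.avg fun u => ∫ g, (X u).ad g ∂gauss (Edge n)) ≤ δ := by
  rw [Vale.Agent.P168.MP.avg, ← integral_finsetSum _ fun u _ => (eb_ad (X u)).integrable, ← integral_div]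
  refine (integral_mono ((Rec.eb_div (EB.sum univ fun u _ => eb_ad (X u)) _).integrable)
    (integrable_const δ) fun g => ?_).trans_eq (by simp)
  have h := hG n (wgt β s lam v g) (wgt_pos β s lam v g)
  simp only [hw]
  exact h

/-- the integrand of the energy -/
def fe (e : Edge n) (x y : Cfg n) : ℝ := Fe e (sv x) (sv y) / ((n : ℝ) * √(n : ℝ))

lemma nr_sv' (x : Cfg n) : nr (sv x) = √(n : ℝ) := Rec.nr_sv x

lemma fe_xi_close {s : ℝ} (hs : 0 < kap s) (β lam : ℝ) (g : Edge n → ℝ) (x y z : Cfg n) :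
    |∑ e : Edge n, fe e x y * xiw β s lam g e z - β * (ov x z * ov z y)| ≤
      |β| * (1 / n) + |lam| * (8 / kap s ^ 2) := by
  have hn : (0:ℝ) < n := npos'
  have hb : ∀ e : Edge n, bond z e = Fe e (sv z) (sv z) / 2 := fun e => by simp only [bond, Fe, sv]; ring
  have hz : ∀ a, sv z a * sv z a = 1 := fun a => by cases h : z a <;> simp [sv, spin, h]
  have e1 : ∑ e : Edge n, fe e x y * (bond z e / √(n : ℝ)) =
      ((sv x ⬝ᵥ sv z) * (sv y ⬝ᵥ sv z) - sv x ⬝ᵥ sv y) / (n:ℝ) ^ 2 := by
    have h := Rec.sum_Fe_Fe (sv x) (sv y) (sv z) (sv z)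
    simp only [hz, mul_one] at h
    rw [show (sv x ⬝ᵥ sv z) * (sv y ⬝ᵥ sv z) - sv x ⬝ᵥ sv y =
      (∑ e, Fe e (sv x) (sv y) * Fe e (sv z) (sv z)) / 2 from by
        rw [h, show ∑ a, sv x a * sv y a = sv x ⬝ᵥ sv y from rfl]; ring, sum_div, sum_div]
    refine sum_congr rfl fun e _ => ?_
    rw [hb, fe]
    field_simp
    rw [Real.sq_sqrt hn.le]
  have h1 : |∑ e : Edge n, fe e x y * (bond z e / √(n : ℝ)) - ov x z * ov z y| ≤ 1 / n := by
    rw [e1, Rec.ov_eq_dot, Rec.ov_eq_dot, dotProduct_comm (sv y), div_mul_div_comm, ← sq, sub_div,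
      sub_sub_cancel_left, abs_neg, abs_div, abs_of_pos (pow_pos hn 2), div_le_div_iff₀ (pow_pos hn 2) hn]
    have h := Rec.abs_dot_le (sv x) (sv y)
    rw [Rec.nr_sv, Rec.nr_sv, Real.mul_self_sqrt hn.le] at h
    nlinarith [mul_le_mul_of_nonneg_right h hn.le]
  have h2 : |∑ e : Edge n, fe e x y * (dpb s g e z / √(n : ℝ))| ≤ 8 / kap s ^ 2 := by
    set u1 := rL Complex.reCLM s g z with hu1
    set u2 := rL Complex.imCLM s g z with hu2
    have hd : ∀ e : Edge n, dpb s g e z = -2 * Fe e u1 u2 := fun e => by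
      simp only [dpb, Fe, hu1, hu2, rL, Complex.reCLM_apply, Complex.imCLM_apply, Complex.mul_im, Complex.re_ofNat,
        Complex.im_ofNat]
      ring
    have e2 : ∑ e : Edge n, fe e x y * (dpb s g e z / √(n : ℝ)) =
        -2 * (∑ e : Edge n, Fe e (sv x) (sv y) * Fe e u1 u2) / (n:ℝ) ^ 2 := by
      rw [mul_sum, sum_div]
      refine sum_congr rfl fun e _ => ?_
      rw [hd, fe]
      field_simp
      rw [Real.sq_sqrt hn.le]
    have b1 := nr_rL Complex.reCLM (fun w => Complex.abs_re_le_norm w) hs g z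
    have b2 := nr_rL Complex.imCLM (fun w => Complex.abs_im_le_norm w) hs g z
    have h := (Rec.abs_sum_Fe_Fe_le (sv x) (sv y) u1 u2).trans (mul_le_mul_of_nonneg_left
      (mul_le_mul_of_nonneg_left (mul_le_mul b1 b2 (Rec.nr_nonneg _) (by positivity))
        (mul_nonneg (Rec.nr_nonneg _) (Rec.nr_nonneg _))) (by norm_num))
    rw [e2, abs_div, abs_mul, abs_of_pos (pow_pos hn 2), div_le_iff₀ (pow_pos hn 2)]
    refine (mul_le_mul_of_nonneg_left h (abs_nonneg _)).trans_eq ?_
    rw [Rec.nr_sv, Rec.nr_sv, show |(-2:ℝ)| = 2 by norm_num]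
    field_simp
    rw [show √(n:ℝ) ^ 4 = (√(n:ℝ) ^ 2) ^ 2 by ring, Real.sq_sqrt hn.le]
    ring
  have e : ∑ e : Edge n, fe e x y * xiw β s lam g e z =
      β * ∑ e : Edge n, fe e x y * (bond z e / √(n : ℝ)) +
        lam * ∑ e : Edge n, fe e x y * (dpb s g e z / √(n : ℝ)) := by
    simp only [xiw, mul_sum, ← sum_add_distrib]
    exact sum_congr rfl fun e _ => by ring
  rw [e, add_sub_right_comm, ← mul_sub]
  refine (abs_add_le _ _).trans (add_le_add ?_ ?_) <;> rw [abs_mul]
  · exact mul_le_mul_of_nonneg_left h1 (abs_nonneg _)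
  · exact mul_le_mul_of_nonneg_left h2 (abs_nonneg _)

variable (D : Dat n)

lemma energy_eq (g : Edge n → ℝ) :
    D.E2 g D.R (fun x y => bil (Wm g) x y / n) = ∑ e, g e * D.E2 g D.R (fe e) := by
  have e : (fun x y => bil (Wm g) x y / (n:ℝ)) = fun x y => ∑ e, g e * fe e x y := by
    funext x y
    rw [Rec.bil_eq, Rec.dot_Wm, sum_div]
    refine sum_congr rfl fun e _ => ?_
    rw [fe, mul_comm (n : ℝ), ← div_div, mul_div_assoc]
  rw [e, D.E2_sum]
  simp only [D.E2_const_mul]

lemma eb_energy_top : EB fun g => D.E2 g D.R (fun x y => bil (Wm g) x y / n) := by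
  simp only [energy_eq]
  exact EB.sum univ fun e _ => (EB.proj e).mul (eb_E2 D (f := fun _ => fe e) (fun _ _ => EB.const _) _)

/-- the energy at one grid point -/
lemma energy_point :
    |∫ g, D.E2 g D.R (fun x y => bil (Wm g) x y / n) ∂gauss (Edge n) -
        ∫ g, D.β * conv D.R (D.q g) (D.q g) D.R ∂gauss (Edge n)| ≤
      6 * (|D.β| * (1 / n) + |D.lam| * (8 / kap D.s ^ 2)) + 48 * |D.β| * ∫ g, D.ad g ∂gauss (Edge n) := by
  set μ := gauss (Edge n)
  set dA : Edge n → (Edge n → ℝ) → ℝ := fun e g => D.D3 g D.R (fun x y z => fe e x y * D.xi g e z)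
  have ebdA : ∀ e, EB (dA e) := fun e =>
    eb_D3 D (fun x y z => (EB.const _).mul (eb_xiw D.hs D.β D.lam e z)) D.R
  have ebA : ∀ e, EB fun g => D.E2 g D.R (fe e) := fun e => eb_E2 D (f := fun _ => fe e) (fun _ _ => EB.const _) _
  have ibp : ∀ e, ∫ g, g e * D.E2 g D.R (fe e) ∂μ = ∫ g, dA e g ∂μ := fun e =>
    EB.ibp e (ebA e) (ebdA e) (Rec.deriv_line (F := fun g => D.E2 g D.R (fe e)) (F' := dA e) (e := e) fun g => by
      refine (hd_E2 D g e le_rfl (f := fun _ => fe e) (f' := fun _ _ => 0)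
        fun x y => hasDerivAt_const _ _).congr_deriv ?_
      rw [D.E2_one, add_zero])
  have ebc : EB fun g => conv D.R (D.q g) (D.q g) D.R := Rec.eb_conv (eb_q D) (eb_q D) _
  simp only [energy_eq D]
  rw [integral_finsetSum _ fun e _ => ((EB.proj e).mul (ebA e)).integrable, sum_congr rfl fun e _ => ibp e,
    ← integral_finsetSum _ fun e _ => (ebdA e).integrable,
    ← integral_sub (EB.sum univ fun e _ => ebdA e).integrable ((EB.const _).mul ebc).integrable]
  refine abs_integral_le_integral_abs.trans ((integral_mono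
    (EB.abs' ((EB.sum univ fun e _ => ebdA e).sub ((EB.const _).mul ebc))).integrable
    ((integrable_const (6 * (|D.β| * (1 / n) + |D.lam| * (8 / kap D.s ^ 2)))).add
      ((eb_ad D).integrable.const_mul (48 * |D.β|))) fun g => ?_).trans_eq ?_)
  · simp only [dA, Pi.add_apply, ← D.D3_sum]
    refine (abs_sub_le _ (D.D3 g D.R fun x y z => D.β * (ov x z * ov z y)) _).trans (add_le_add ?_ ?_)
    · rw [← D.D3_sub]
      refine (D.abs_D3_le g le_rfl (k := fun _ _ => 1) fun x y z => ?_).trans_eq (by rw [D.E2_one, mul_one])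
      rw [mul_one]
      exact fe_xi_close D.hs D.β D.lam g x y z
    · rw [D.D3_const_mul, ← mul_sub, abs_mul, show 48 * |D.β| * D.ad g = |D.β| * (48 * D.ad g) by ring]
      refine mul_le_mul_of_nonneg_left ?_ (abs_nonneg _)
      unfold Dat.D3 conv
      rw [← Rec.list_sum_sub]
      refine (Vale.Agent.P157.Par.abs_list_sum _ _).trans ((Vale.Agent.P157.Par.list_sum_le
        (g := fun c => |c.2| * D.dev g (sp D.R (c.1 :: [(0, D.R), (0, 0)]) 0 2)) fun c hc => ?_).trans ?_)
      · rw [← mul_sub, abs_mul]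
        refine mul_le_mul_of_nonneg_left ?_ (abs_nonneg _)
        rw [show D.q g (sp D.R (c.1 :: [(0, D.R), (0, 0)]) 2 1) = _ from
          (D.E_pair g le_rfl hc (i := 2) (j := 1) (by norm_num) (by norm_num) ov).symm,
          ← Vale.Agent.P168.MP.ET_const_mul, ← Vale.Agent.P168.MP.ET_sub, Dat.dev,
          ← D.E_pair g le_rfl hc (i := 0) (j := 2) (by norm_num) (by norm_num)]
        refine (Vale.Agent.P168.MP.ET_abs_le (D.w_pos g) _ _).trans
          (Vale.Agent.P168.MP.ET_mono (D.w_pos g) fun ps => ?_)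
        rw [← sub_mul, abs_mul]
        exact mul_le_of_le_one_right (abs_nonneg _) (Vale.Agent.P157.Par.abs_ov_le _ _)
      · have hT : Valid D.R [(0, D.R), (0, 0)] := Vale.Agent.P157.Par.valid_pair le_rfl
        refine le_of_eq_of_le (congrArg List.sum (List.map_congr_left fun c _ => ?_))
          ((Vale.Agent.P157.Par.att_pair_le D.P.one_le (φ := D.dev g) (D.dev_nonneg g) hT (b := 0) (by simp)).trans ?_)
        · rw [Vale.Agent.P168.MP.sp_comm]
          rfl
        · rw [Vale.Agent.P157.Par.pairSum_two (D.dev g) le_rfl]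
          have h1 : D.dev g D.R ≤ D.ad g := le_add_of_nonneg_left
            (div_nonneg (sum_nonneg fun l _ => D.dev_nonneg g l) (Nat.cast_nonneg _))
          have h2 : lvlAvg D.R (D.dev g) = D.ad g := rfl
          have := D.dev_nonneg g D.R
          have := D.ad_nonneg g
          simp only [List.length_cons, List.length_nil] at *
          norm_num
          linarith
  · simp only [Pi.add_apply]
    rw [integral_add (integrable_const _) ((eb_ad D).integrable.const_mul _), integral_const, integral_const_mul,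
      probReal_univ, one_smul]

lemma conv_top_eq {R : ℕ} (hR : 1 ≤ R) (q : ℕ → ℝ) :
    conv R q q R = ∑ l ∈ range (R + 1), Vale.Agent.P157.Par.coef R l * q l ^ 2 := by
  have hR0 : (R:ℝ) ≠ 0 := Nat.cast_ne_zero.2 (by omega)
  have hc : Vale.Agent.P157.Par.coef R R = 1 := by
    simp [Vale.Agent.P157.Par.coef, lin, show R ≠ 0 by omega]
  have hsum : ∑ l ∈ range R, Vale.Agent.P157.Par.coef R l * q l ^ 2 = -((∑ l ∈ range R, q l * q l) / R) := by
    rw [sum_div, ← sum_neg_distrib]
    refine sum_congr rfl fun l hl => ?_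
    rw [Vale.Agent.P157.Par.coef_lt (mem_range.1 hl)]
    ring
  rw [conv_eq hR q q le_rfl, dlev_top hR, sum_range_succ, hc, hsum]
  field_simp
  ring

/-- **The energy of the perturbed system** -/
theorem energy_close {β : ℝ} (_hβ : 0 ≤ β) : ∃ C : ℝ, 0 ≤ C ∧ ∀ (P : Par) (δ : ℝ), 0 ≤ δ → P.Good δ →
    ∀ (n : ℕ) [NeZero n] (s lam : ℝ) (v : Cfg n → ℝ), 0 < s → s ≤ 1 / 4 → |lam| ≤ 1 →
      |ediag P n β s lam v - mean (n := n) P β s lam v (fun _ w => elev β P.R (qlev P.R w (spinAt P.R)))| ≤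
        C * (δ + |lam| / s ^ 16 + 1 / √(n : ℝ)) := by
  refine ⟨48 * |β| + 48, by positivity, fun P δ hδ hG n _ s lam v hs0 hs4 hlam => ?_⟩
  obtain ⟨hk2, -, hk⟩ := kap_bounds hs0 hs4
  have : Nonempty (Fin P.M) := ⟨⟨0, P.M_pos⟩⟩
  set X : P.Grid → Dat n := fun u => ⟨P, β, s, hk, lam, v, u⟩ with hX
  have hdev := avg_ad_le P hG X (β := β) (s := s) (lam := lam) (v := v) fun u g => rfl
  have hediag : ediag P n β s lam v - mean (n := n) P β s lam v (fun _ w => elev β P.R (qlev P.R w (spinAt P.R))) =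
      Vale.Agent.P168.MP.avg fun u : P.Grid =>
        ∫ g, (X u).E2 g P.R (fun x y => bil (Wm g) x y / n) ∂gauss (Edge n) -
          ∫ g, β * conv P.R ((X u).q g) ((X u).q g) P.R ∂gauss (Edge n) := by
    simp only [ediag, mean, Vale.Agent.P168.MP.avg]
    rw [← sub_div, ← sum_sub_distrib]
    refine congrArg (· / (Fintype.card P.Grid : ℝ)) (sum_congr rfl fun u _ => ?_)
    refine congrArg₂ (· - ·) (integral_congr_ae (Filter.Eventually.of_forall fun g => ?_))
      (integral_congr_ae (Filter.Eventually.of_forall fun g => ?_))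
    · have h := Vale.Agent.P157.Par.ET_two (R := P.R) ((X u).w_pos g) (U := [(0, 0)])
        Vale.Agent.P168.MP.valid_single (i := 0) (j := 0) Nat.one_pos Nat.one_pos
        fun p p' => bil (Wm g) (spinAt P.R p) (spinAt P.R p') / n
      rwa [Vale.Agent.P168.MP.sp_self] at h
    · simp only [elev, conv_top_eq P.one_le]
      rfl
  rw [hediag]
  refine (abs_div _ _).trans_le ?_
  rw [Nat.abs_cast]
  refine (div_le_div_of_nonneg_right ((abs_sum_le_sum_abs _ _).trans (sum_le_sum fun u _ => energy_point (X u)))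
    (Nat.cast_nonneg _)).trans ?_
  have hc : (Fintype.card P.Grid : ℝ) ≠ 0 := Nat.cast_ne_zero.2 Fintype.card_ne_zero
  simp only [hX, sum_add_distrib, sum_const, card_univ, nsmul_eq_mul, ← mul_sum, add_div,
    mul_div_cancel_left₀ _ hc, mul_div_assoc]
  rw [Vale.Agent.P168.MP.avg] at hdev
  have h1 := mul_le_mul_of_nonneg_left hdev (show 0 ≤ 48 * |β| by positivity)
  simp only [hX] at h1
  have hk16 : s ^ 16 ≤ kap s ^ 2 :=
    le_trans (by rw [← pow_mul]; exact pow_le_pow_of_le_one hs0.le (by linarith) (by norm_num))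
      (pow_le_pow_left₀ (sq_nonneg s) hk2 2)
  have h2 : |lam| * (8 / kap s ^ 2) ≤ 8 * (|lam| / s ^ 16) := by
    rw [mul_div_left_comm]
    exact mul_le_mul_of_nonneg_left (div_le_div_of_nonneg_left (abs_nonneg _) (by positivity) hk16) (by norm_num)
  have hn1 : (1:ℝ) ≤ n := Nat.one_le_cast.2 NeZero.one_le
  have h3 : 1 / (n : ℝ) ≤ 1 / √(n : ℝ) :=
    one_div_le_one_div_of_le (Real.sqrt_pos.2 (by linarith))
      (by rw [Real.sqrt_le_left (by linarith)]; exact le_self_pow₀ hn1 two_ne_zero)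
  have h4 := mul_le_mul_of_nonneg_left h3 (abs_nonneg β)
  have h5 : 0 ≤ 1 / √(n : ℝ) := by positivity
  have h6 : 0 ≤ |lam| / s ^ 16 := by positivity
  have p1 := mul_nonneg (abs_nonneg β) h5
  have p2 := mul_nonneg (abs_nonneg β) h6
  linarith

end Vale.Agent.P146.Lower.Res
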