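import Vale.Agent.P146.Lower.Res.Eb
import Vale.Agent.P146.Lower.Res.RecEnergy
import Vale.Agent.P146.Lower.Res.Schur
import Vale.Agent.P146.Lower.Res.Grow
import Vale.Agent.P146.Lower.Site

/-! P146, polynomial lower bound: one more site of the deformed perturbed system is worth the Parisi functional
at the profile of the base system, with polynomial errors. -/

open MeasureTheory ProbabilityTheory Finset Real Filter
open Vale.Agent.P150 (gauss dot l1)
open Vale.Agent.P168.MP (lin logZ0 ET nest pw spinAt allBatch BIdx gu Mark ok_lin)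
open Vale.Agent.P157.Par (qlev adev devOf ovK Prof dist1 Phi)

noncomputable section

namespace Vale.Agent.P146.Lower.Res

variable {N : ℕ}

lemma wp_vz (P : Par) [NeZero N] (β s lam : ℝ) (z : Fin N → ℝ) (g : Edge N → ℝ) (u : P.Grid) :
    P.wp (wgt β s lam (vz β z) g) u = fun p => P.wp (wgt β s lam 0 g) u p * yF β (spinAt P.R) z p := by
  funext p
  simp only [Par.wp, pw, wgt, yF, Vale.Agent.P157.Par.fac, vz, exp_add, Pi.zero_apply, exp_zero, mul_one]
  ring

/-- the bound of the change of the deformation under the tilt, times `kap ^ 3` -/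
def chB (P : Par) [NeZero N] (β s lam : ℝ) (u : P.Grid) (g : Edge N → ℝ) (z : Fin N → ℝ) : ℝ :=
  (opn g + 4) +
    ((ET P.R (lin P.R) (P.wp (wgt β s lam (vz β z) g) u) [(0, 0)]
        fun ps => dot (fR s g (spinAt P.R (ps.getD 0 []))) z ^ 4) +
      ET P.R (lin P.R) (P.wp (wgt β s lam (vz β z) g) u) [(0, 0)]
        fun ps => dot (fI s g (spinAt P.R (ps.getD 0 []))) z ^ 4)

/-- **One more site, pointwise**: convexity around the cosh tilt of the base system -/
lemma site_step (P : Par) [NeZero N] (β : ℝ) {s : ℝ} (hs : 0 < kap s) (hs1 : kap s ≤ 1) (lam : ℝ) (u : P.Grid)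
    (g : Edge N → ℝ) (z : Fin N → ℝ) :
    logZ0 P.R (lin P.R) (P.wp (wgt β s lam 0 g) u) +
        log (nest (lin P.R) (P.wp (wgt β s lam 0 g) u) (yF β (spinAt P.R) z) P.R []) -
        ((1 - cs N) * N / 2 * β * ET P.R (lin P.R) (P.wp (wgt β s lam (vz β z) g) u) [(0, 0)]
            (fun ps => dv g (spinAt P.R (ps.getD 0 []))) +
          |lam| / kap s ^ 3 * chB P β s lam u g z +
          (P.R : ℝ) * ((Fintype.card (BIdx P.R 2) : ℝ) * P.S) / N) ≤
      logZ0 P.R (lin P.R) (P.wp (wgt β s lam 0 (join g z)) u) := by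
  set W := wgt β s lam 0 g
  set E := fun σ : Cfg N => β * energy g σ + lam * pb s g σ σ
  set E' := fun τ : Cfg (N + 1) => β * energy (join g z) τ + lam * pb s (join g z) τ τ
  set c := fun (σ : Cfg N) (t : Bool) => exp (E' (Fin.snoc σ t) - E σ)
  set Cb := |lam| / kap s ^ 3
  set κ := (1 - cs N) * N / 2
  set B := fun σ : Cfg N => (opn g + 4) + (dot (fR s g σ) z ^ 4 + dot (fI s g σ) z ^ 4)
  set A := fun σ : Cfg N => -(κ * β * dv g σ + Cb * B σ)
  have hW : ∀ σ, 0 < W σ := fun σ => wgt_pos β s lam 0 g σ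
  have hc : ∀ σ, cosh (dot (cvec β σ) z) * exp (A σ) ≤ Vale.Agent.P168.MP.avg (c σ) := fun σ => by
    rw [← avg_spin_exp, mul_comm, ← Vale.Agent.P168.MP.avg_mul_left]
    refine Vale.Agent.P168.MP.avg_le_avg fun t => ?_
    rw [← exp_add]
    refine exp_le_exp.2 ?_
    set τ : Cfg (N + 1) := Fin.snoc σ t
    have hτ : (fun i : Fin N => τ i.castSucc) = σ := funext fun i => by simp [τ]
    have ht : τ (Fin.last N) = t := by simp [τ]
    have hD := pb_join hs hs1 g z τ
    rw [hτ] at hD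
    set D := pb s (join g z) τ τ - pb s g σ σ
    have hl : -(Cb * B σ) ≤ lam * D := by
      have h1 : |lam * D| ≤ Cb * B σ := by
        rw [abs_mul]
        refine (mul_le_mul_of_nonneg_left hD (abs_nonneg _)).trans_eq ?_
        simp only [Cb, B]; ring
      linarith [neg_abs_le (lam * D)]
    have hN : (N:ℝ) ≠ 0 := Nat.cast_ne_zero.2 (NeZero.ne N)
    have hE : E' τ - E σ = -(κ * β * dv g σ) + spin t * dot (cvec β σ) z + lam * D := by
      simp only [E', E, D, energy_join, hτ, ht, dot_cvec, dv, κ]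
      rw [show cheb (Wm g) 1 = Wm g from rfl, energy_bil]
      field_simp
      ring
    show A σ + spin t * dot (cvec β σ) z ≤ E' τ - E σ
    rw [hE]
    simp only [A]
    linarith
  have hcp : ∀ σ t, 0 < c σ t := fun σ t => exp_pos _
  have hWt : (fun τ : Cfg (N + 1) => W (fun x => τ x.castSucc) * c (fun x => τ x.castSucc) (τ (Fin.last N))) =
      wgt β s lam 0 (join g z) := funext fun τ => by
    have hτ : (Fin.snoc (fun x : Fin N => τ x.castSucc) (τ (Fin.last N)) : Cfg (N + 1)) = τ := Fin.snoc_init_self τ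
    simp only [W, c, wgt, E, E', hτ, ← exp_add, Pi.zero_apply]
    ring_nf
  have h1 := grow_lower (S := P.S) (β := allBatch P.R 2) P.two_le hW hcp (fun _ => P.h) (gu P.ub P.M u)
  rw [hWt, Vale.Agent.P168.MP.logZ0_pw_mul hW fun σ => Vale.Agent.P168.MP.avg_pos (hcp σ)] at h1
  set w := P.wp W u
  set Y := yF β (spinAt P.R) z
  have hw : ∀ p, 0 < w p := wp_pos P hW u
  have hY : ∀ p, 0 < Y p := yF_pos β (spinAt P.R) z
  have hok := ok_lin (R := P.R) P.one_le hw
  have h2 := Vale.Agent.P157.Par.log_nest_add_ET_le hok hY fun p => A (spinAt P.R p)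
  have h3 : log (nest (lin P.R) w (fun p => Y p * exp (A (spinAt P.R p))) P.R []) ≤
      Vale.Agent.P168.MP.nestC (S := P.S) (β := allBatch P.R 2) P.R W (fun _ => P.h) (gu P.ub P.M u)
        (fun σ => Vale.Agent.P168.MP.avg (c σ)) :=
    log_le_log (Vale.Agent.P168.MP.nest_pos hw (fun p => mul_pos (hY p) (exp_pos _)) _ _)
      (Vale.Agent.P168.MP.nest_le_nest hok (fun p => mul_pos (hY p) (exp_pos _))
        (fun p => le_trans (le_of_eq (by simp only [Y, yF_eq])) (hc _)) P.R [] (by simp))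
  have hwY : ∀ p, 0 < w p * Y p := fun p => mul_pos (hw p) (hY p)
  set T := fun F : List (Mark N P.S (allBatch P.R 2)) → ℝ =>
    ET P.R (lin P.R) (fun p => w p * Y p) [(0, 0)] fun ps => F (ps.getD 0 [])
  have h4 : -(κ * β * T (fun p => dv g (spinAt P.R p)) + Cb * chB P β s lam u g z) ≤
      T fun p => A (spinAt P.R p) := by
    have h5 : T (fun p => B (spinAt P.R p)) = chB P β s lam u g z := by
      simp only [T, B]
      rw [Vale.Agent.P168.MP.ET_add, Vale.Agent.P168.MP.ET_const hwY, Vale.Agent.P168.MP.ET_add, chB, wp_vz]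
    have e : T (fun p => A (spinAt P.R p)) =
        (-1) * (κ * β * T (fun p => dv g (spinAt P.R p)) + Cb * T fun p => B (spinAt P.R p)) := by
      simp only [T, ← Vale.Agent.P168.MP.ET_const_mul, ← Vale.Agent.P168.MP.ET_add]
      refine congrArg _ (funext fun ps => ?_)
      simp only [A]
      ring
    rw [e, h5]
    linarith
  rw [wp_vz]
  change logZ0 P.R (lin P.R) w + log (nest (lin P.R) w Y P.R []) - (κ * β * T (fun p => dv g (spinAt P.R p)) +
    Cb * chB P β s lam u g z + _) ≤ logZ0 P.R (lin P.R) (P.wp (wgt β s lam 0 (join g z)) u)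
  simp only [T] at h4
  simp only [Par.wp, w, T] at *
  linarith

section mean

variable (P : Par) [NeZero N] (β : ℝ) {s : ℝ} (hs : 0 < kap s) (lam : ℝ) (u : P.Grid)
include hs

omit [NeZero N] in
lemma continuous_wgt_vz (σ : Cfg N) :
    Continuous fun x : (Edge N → ℝ) × (Fin N → ℝ) => wgt β s lam (vz β x.2) x.1 σ := by
  have h : Continuous fun z : Fin N → ℝ => vz β z σ :=
    Vale.Agent.P157.Par.sm_logcosh.cont0.comp (Vale.Agent.P157.Par.continuous_dot_left _)
  simp only [wgt]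
  exact continuous_exp.comp (((continuous_const.mul ((eb_energy σ).1.comp continuous_fst)).add
    (continuous_const.mul ((eb_pb hs σ σ).1.comp continuous_fst))).add (h.comp continuous_snd))

lemma continuous_ET_vz {T : List (ℕ × ℕ)}
    {F : (Edge N → ℝ) × (Fin N → ℝ) → List (List (Mark N P.S (allBatch P.R 2))) → ℝ}
    (hF : ∀ ps, Continuous fun x => F x ps) :
    Continuous fun x : (Edge N → ℝ) × (Fin N → ℝ) =>
      ET P.R (lin P.R) (P.wp (wgt β s lam (vz β x.2) x.1) u) T (F x) :=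
  Vale.Agent.P157.Par.continuous_ET (fun _ => (continuous_wgt_vz β hs lam _).mul continuous_const)
    (fun _ p => wp_pos P (fun σ => wgt_pos β s lam _ _ σ) u p) P.R T hF

lemma chB_mean : Integrable (fun x : (Edge N → ℝ) × (Fin N → ℝ) => chB P β s lam u x.1 x.2)
      ((gauss (Edge N)).prod (gauss (Fin N))) ∧
    ∀ C, (∫ g : Edge N → ℝ, (opn g + 2) ∂gauss (Edge N) ≤ C) →
      ∫ x, chB P β s lam u x.1 x.2 ∂(gauss (Edge N)).prod (gauss (Fin N)) ≤
        (C + 2) + 2 * (24 * (exp 2 + exp (2 * β ^ 2))) := by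
  have one : ∀ (b : (Edge N → ℝ) → Cfg N → Fin N → ℝ), (∀ σ k, Continuous fun g => b g σ k) →
      (∀ g σ, dot (b g σ) (b g σ) ≤ 1) →
      Integrable (fun x : (Edge N → ℝ) × (Fin N → ℝ) => ET P.R (lin P.R) (P.wp (wgt β s lam (vz β x.2) x.1) u)
          [(0, 0)] fun ps => dot (b x.1 (spinAt P.R (ps.getD 0 []))) x.2 ^ 4)
        ((gauss (Edge N)).prod (gauss (Fin N))) ∧
      ∫ x, ET P.R (lin P.R) (P.wp (wgt β s lam (vz β x.2) x.1) u)
          [(0, 0)] (fun ps => dot (b x.1 (spinAt P.R (ps.getD 0 []))) x.2 ^ 4)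
          ∂(gauss (Edge N)).prod (gauss (Fin N)) ≤ 24 * (exp 2 + exp (2 * β ^ 2)) := by
    intro b hb hb1
    have hI : Integrable (fun x : (Edge N → ℝ) × (Fin N → ℝ) => ET P.R (lin P.R)
        (P.wp (wgt β s lam (vz β x.2) x.1) u) [(0, 0)] fun ps => dot (b x.1 (spinAt P.R (ps.getD 0 []))) x.2 ^ 4)
        ((gauss (Edge N)).prod (gauss (Fin N))) := by
      refine (((Vale.Agent.P150.integrable_exp_l1 (ι := Fin N) (√1)).const_mul 48).comp_snd
        (gauss (Edge N))).mono' (continuous_ET_vz P β hs lam u (fun ps => (Continuous.pow ?_ 4))).aestronglyMeasurable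
        (Eventually.of_forall fun x => ?_)
      · exact continuous_finsetSum _ fun k _ =>
          ((hb _ k).comp continuous_fst).mul ((continuous_apply k).comp continuous_snd)
      · rw [Real.norm_eq_abs]
        refine Vale.Agent.P168.MP.ET_bound (wp_pos P (fun σ => wgt_pos β s lam _ _ σ) u) fun ps => ?_
        rw [abs_of_nonneg (Even.pow_nonneg (by decide) _)]
        exact (pow_four_le_cosh _).trans (mul_le_mul_of_nonneg_left (cosh_dot_le (hb1 _ _) _) (by norm_num))
    refine ⟨hI, ?_⟩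
    rw [integral_prod _ hI]
    refine (integral_mono hI.integral_prod_left (integrable_const _) fun g => ?_).trans_eq
      (by rw [integral_const, probReal_univ, one_smul])
    have h := (tilt_quart P.one_le (wp_pos P (fun σ => wgt_pos β s lam 0 g σ) u) β (spinAt P.R)
      (b := fun p => b g (spinAt P.R p)) fun p => hb1 g _).2
    simpa only [wp_vz] using h
  obtain ⟨iR, eR⟩ := one (fun g σ => fR s g σ) (fun σ k => (continuous_field hs σ k).1)
    fun g σ => (fields_spec hs g σ 0).1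
  obtain ⟨iI, eI⟩ := one (fun g σ => fI s g σ) (fun σ k => (continuous_field hs σ k).2)
    fun g σ => (fields_spec hs g σ 0).2.1
  have io : Integrable (fun x : (Edge N → ℝ) × (Fin N → ℝ) => opn x.1 + 4)
      ((gauss (Edge N)).prod (gauss (Fin N))) := by
    have h := ((eb_opn (n := N)).integrable.comp_fst (gauss (Fin N))).add (integrable_const (2:ℝ))
    refine h.congr (Eventually.of_forall fun x => ?_)
    simp only [Pi.add_apply]; ring
  unfold chB
  refine ⟨io.add (iR.add iI), fun C hC => ?_⟩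
  rw [integral_add io (by exact iR.add iI), integral_add iR iI]
  refine add_le_add ?_ (by linarith)
  rw [integral_fun_fst (fun g : Edge N → ℝ => opn g + 4), probReal_univ, one_smul]
  calc ∫ g : Edge N → ℝ, (opn g + 4) ∂gauss (Edge N) = ∫ g : Edge N → ℝ, ((opn g + 2) + 2) ∂gauss (Edge N) := by
        congr 1; funext g; ring
    _ = (∫ g : Edge N → ℝ, (opn g + 2) ∂gauss (Edge N)) + 2 := by
        rw [integral_add (eb_opn (n := N)).integrable (integrable_const _), integral_const, probReal_univ, one_smul]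
    _ ≤ _ := by linarith

omit hs in
/-- the profile of the base system -/
def qb (s : ℝ) (g : Edge N → ℝ) : ℕ → ℝ := qlev P.R (P.wp (wgt β s lam 0 g) u) (spinAt P.R)

omit hs in
/-- the deviation of the base system -/
def ab (s : ℝ) (g : Edge N → ℝ) : ℝ :=
  adev P.R (P.wp (wgt β s lam 0 g) u) (ovK (spinAt P.R)) (qb P β lam u s g)

lemma integrable_ab : Integrable (ab P β lam u s) (gauss (Edge N)) := by
  have hw : ∀ g p, 0 < P.wp (wgt β s lam (0 : Cfg N → ℝ) g) u p := fun g =>
    wp_pos P (fun σ => wgt_pos β s lam 0 g σ) u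
  refine (Vale.Agent.P157.Par.integrable_adev_of P.one_le fun l hl => ?_).1
  refine Integrable.of_bound (Vale.Agent.P157.Par.continuous_ET (continuous_wp P β hs lam 0 u) hw P.R _
    fun ps => (continuous_const.sub (continuous_qlev P β hs lam 0 u l)).abs).aestronglyMeasurable 2
    (Eventually.of_forall fun g => ?_)
  rw [Real.norm_eq_abs, abs_of_nonneg (Vale.Agent.P157.Par.devOf_nn (hw g) l)]
  refine (Vale.Agent.P157.Par.devOf_le (hw g) hl (V := 1) (W := 1)
    (fun p p' => Vale.Agent.P157.Par.abs_ov_le _ _) ?_).trans_eq (by norm_num)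
  have := (qlev_wgt_prof P β s lam 0 g u).1.upper hl
  rw [qb, abs_le]; constructor <;> linarith

lemma integrable_dT : Integrable (fun x : (Edge N → ℝ) × (Fin N → ℝ) => ET P.R (lin P.R)
      (P.wp (wgt β s lam (vz β x.2) x.1) u) [(0, 0)] fun ps => dv x.1 (spinAt P.R (ps.getD 0 [])))
    ((gauss (Edge N)).prod (gauss (Fin N))) := by
  have h := (eb_abs_entries (n := N) (A := fun g => cheb (Wm g) 1) (eb_cheb 1)).integrable
  refine ((h.div_const (N:ℝ)).comp_fst (gauss (Fin N))).mono'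
    (continuous_ET_vz P β hs lam u fun ps => ((eb_bil (eb_cheb 1) _ _).1.div_const _).comp continuous_fst).aestronglyMeasurable
    (Eventually.of_forall fun x => ?_)
  rw [Real.norm_eq_abs]
  refine Vale.Agent.P168.MP.ET_bound (wp_pos P (fun σ => wgt_pos β s lam _ _ σ) u) fun ps => ?_
  rw [dv, abs_div, Nat.abs_cast]
  exact div_le_div_of_nonneg_right (abs_bil_le _ _ _) (Nat.cast_nonneg _)

lemma continuous_qlev_vz (l : ℕ) : Continuous fun x : (Edge N → ℝ) × (Fin N → ℝ) =>
    qlev P.R (P.wp (wgt β s lam (vz β x.2) x.1) u) (spinAt P.R) l :=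
  continuous_ET_vz P β hs lam u (T := [(0, l), (0, 0)])
    (F := fun _ ps => ovK (spinAt P.R) (ps.getD 0 []) (ps.getD 1 [])) fun _ => continuous_const

omit hs in
lemma continuous_qlev_z (g : Edge N → ℝ) (l : ℕ) : Continuous fun z : Fin N → ℝ =>
    qlev P.R (P.wp (wgt β s lam (vz β z) g) u) (spinAt P.R) l := by
  simp only [wp_vz]
  exact Vale.Agent.P157.Par.continuous_ET (fun p => continuous_const.mul (continuous_yF β (spinAt P.R) p))
    (fun z p => mul_pos (wp_pos P (fun σ => wgt_pos β s lam 0 g σ) u p) (yF_pos β (spinAt P.R) z p)) P.R _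
    fun _ => continuous_const

lemma integrable_elev : Integrable (fun x : (Edge N → ℝ) × (Fin N → ℝ) =>
      β * s2 P.R (qlev P.R (P.wp (wgt β s lam (vz β x.2) x.1) u) (spinAt P.R)))
    ((gauss (Edge N)).prod (gauss (Fin N))) := by
  refine (Integrable.of_bound (continuous_finsetSum _ fun l _ => continuous_const.mul
    ((continuous_qlev_vz P β hs lam u l).pow 2)).aestronglyMeasurable 1
    (Eventually.of_forall fun x => ?_)).const_mul β
  obtain ⟨h0, h1⟩ := s2_mem P.one_le (qlev_wgt_prof P β s lam (vz β x.2) x.1 u).1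
    (qlev_wgt_prof P β s lam (vz β x.2) x.1 u).2
  exact abs_le.2 ⟨le_trans (by norm_num) h0, h1⟩

lemma integrable_s2 : Integrable (fun g => s2 P.R (qb P β lam u s g)) (gauss (Edge N)) := by
  refine Integrable.of_bound (continuous_finsetSum _ fun l _ => continuous_const.mul
    ((continuous_qlev P β hs lam 0 u l).pow 2)).aestronglyMeasurable 1 (Eventually.of_forall fun g => ?_)
  obtain ⟨h0, h1⟩ := s2_mem P.one_le (qlev_wgt_prof P β s lam 0 g u).1 (qlev_wgt_prof P β s lam 0 g u).2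
  exact abs_le.2 ⟨le_trans (by norm_num) h0, h1⟩

lemma integral_elev_le {β : ℝ} (hβ : 0 ≤ β) :
    ∫ x : (Edge N → ℝ) × (Fin N → ℝ),
        β * s2 P.R (qlev P.R (P.wp (wgt β s lam (vz β x.2) x.1) u) (spinAt P.R))
        ∂(gauss (Edge N)).prod (gauss (Fin N)) ≤
      β * (∫ g, s2 P.R (qb P β lam u s g) ∂gauss (Edge N)) +
        2 * β * exp (2 * β ^ 2) * ∫ g, ab P β lam u s g ∂gauss (Edge N) := by
  have hs2 := (integrable_s2 (N := N) P β hs lam u).const_mul β
  have ha := (integrable_ab (N := N) P β hs lam u).const_mul (2 * β * exp (2 * β ^ 2))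
  have hI := integrable_elev (N := N) P β hs lam u
  rw [integral_prod _ hI, ← integral_const_mul, ← integral_const_mul, ← integral_add hs2 ha]
  refine integral_mono hI.integral_prod_left (hs2.add ha) fun g => ?_
  have hw := wp_pos P (fun σ => wgt_pos β s lam (0 : Cfg N → ℝ) g σ) u
  obtain ⟨hi, he⟩ := tilt_adev P.one_le hw β (spinAt P.R) (qb P β lam u s g)
  have hle : ∀ z : Fin N → ℝ, β * s2 P.R (qlev P.R (P.wp (wgt β s lam (vz β z) g) u) (spinAt P.R)) ≤
      β * s2 P.R (qb P β lam u s g) + 2 * β * adev P.R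
        (fun p => P.wp (wgt β s lam 0 g) u p * yF β (spinAt P.R) z p) (ovK (spinAt P.R)) (qb P β lam u s g) :=
    fun z => by
    rw [wp_vz]
    set w' := fun p => P.wp (wgt β s lam (0 : Cfg N → ℝ) g) u p * yF β (spinAt P.R) z p
    have hw' : ∀ p, 0 < w' p := fun p => mul_pos (hw p) (yF_pos β (spinAt P.R) z p)
    have h1 := s2_lip P.one_le (Vale.Agent.P157.Par.qlev_prof (R := P.R) (rd := spinAt P.R) hw').1
      (qlev_wgt_prof P β s lam 0 g u).1
    have h2 := dist1_qlev_le (R := P.R) hw' (spinAt P.R) (qb P β lam u s g)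
    have h3 := mul_le_mul_of_nonneg_left ((le_abs_self _).trans (h1.trans
      (mul_le_mul_of_nonneg_left h2 zero_le_two))) hβ
    simp only [qb] at h3 ⊢
    linarith
  have iz : Integrable (fun z : Fin N → ℝ => β * s2 P.R
      (qlev P.R (P.wp (wgt β s lam (vz β z) g) u) (spinAt P.R))) (gauss (Fin N)) := by
    refine (Integrable.of_bound (Continuous.aestronglyMeasurable ?_) 1 (Eventually.of_forall fun z => ?_)).const_mul β
    · exact (continuous_finsetSum _ fun l _ => continuous_const.mul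
        ((continuous_qlev_z P β lam u g l).pow 2))
    · obtain ⟨h0, h1⟩ := s2_mem P.one_le (qlev_wgt_prof P β s lam (vz β z) g u).1
        (qlev_wgt_prof P β s lam (vz β z) g u).2
      exact abs_le.2 ⟨le_trans (by norm_num) h0, h1⟩
  refine (integral_mono iz ((integrable_const _).add (hi.const_mul (2 * β))) hle).trans ?_
  simp only [Pi.add_apply]
  rw [integral_add (integrable_const _) (hi.const_mul _), integral_const, probReal_univ, one_smul, integral_const_mul]
  have := mul_le_mul_of_nonneg_left he (show 0 ≤ 2 * β by linarith)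
  simp only [ab]
  linarith

/-- one site at a fixed grid point -/
lemma site_grid {β : ℝ} (hβ : 0 ≤ β) (hs1 : kap s ≤ 1) {CV CL : ℝ}
    (hV : ∀ g : Edge N → ℝ, Phi cosh P.R (lin P.R) (fun l => β ^ 2 * qb P β lam u s g l) -
        CV * (ab P β lam u s g + 2 / ((N:ℝ) + 1)) ≤
      ∫ z, log (nest (lin P.R) (P.wp (wgt β s lam 0 g) u) (yF β (spinAt P.R) z) P.R []) ∂gauss (Fin N))
    (hL : ∫ g : Edge N → ℝ, (opn g + 2) ∂gauss (Edge N) ≤ CL) :
    (∫ g, Vsk β P.R (qb P β lam u s g) ∂gauss (Edge N)) -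
        ((CV + β ^ 2 * exp (2 * β ^ 2)) * (∫ g, ab P β lam u s g ∂gauss (Edge N)) +
          (1 - cs N) * N / 2 * β *
            ((∫ x, ET P.R (lin P.R) (P.wp (wgt β s lam (vz β x.2) x.1) u) [(0, 0)]
                (fun ps => dv x.1 (spinAt P.R (ps.getD 0 []))) ∂(gauss (Edge N)).prod (gauss (Fin N))) -
              ∫ x : (Edge N → ℝ) × (Fin N → ℝ),
                β * s2 P.R (qlev P.R (P.wp (wgt β s lam (vz β x.2) x.1) u) (spinAt P.R))
                ∂(gauss (Edge N)).prod (gauss (Fin N))) +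
          (CV * (2 / ((N:ℝ) + 1)) + |lam| / kap s ^ 3 * ((CL + 2) + 2 * (24 * (exp 2 + exp (2 * β ^ 2)))) +
            (P.R : ℝ) * ((Fintype.card (BIdx P.R 2) : ℝ) * P.S) / N)) ≤
      (∫ g, logZ0 P.R (lin P.R) (P.wp (wgt β s lam 0 g) u) ∂gauss (Edge (N + 1))) -
        ∫ g, logZ0 P.R (lin P.R) (P.wp (wgt β s lam 0 g) u) ∂gauss (Edge N) := by
  set μ := (gauss (Edge N)).prod (gauss (Fin N))
  set κ := (1 - cs N) * N / 2
  set G := (P.R : ℝ) * ((Fintype.card (BIdx P.R 2) : ℝ) * P.S) / N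
  set w := fun g : Edge N → ℝ => P.wp (wgt β s lam 0 g) u
  have hw : ∀ g p, 0 < w g p := fun g => wp_pos P (fun σ => wgt_pos β s lam 0 g σ) u
  have iT0 := (eb_logZ0 (n := N + 1) P β hs lam 0 u).integrable
  have iT := (measurePreserving_join (N := N)).integrable_comp_of_integrable iT0
  have iL := ((eb_logZ0 (n := N) P β hs lam 0 u).integrable).comp_fst (gauss (Fin N))
  have iN : Integrable (fun x : (Edge N → ℝ) × (Fin N → ℝ) =>
      log (nest (lin P.R) (w x.1) (yF β (spinAt P.R) x.2) P.R [])) μ := by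
    have hl1 : Integrable (fun z : Fin N → ℝ => √(β ^ 2) * l1 z) (gauss (Fin N)) :=
      Vale.Agent.P150.integrable_of_bound (by unfold l1; fun_prop) (C := √(β ^ 2)) (M := 1) fun z => by
        rw [abs_mul, abs_of_nonneg (Real.sqrt_nonneg _), abs_of_nonneg (Vale.Agent.P150.l1_nonneg z), one_mul]
        exact mul_le_mul_of_nonneg_left (le_trans (le_add_of_nonneg_right zero_le_one) (add_one_le_exp _))
          (Real.sqrt_nonneg _)
    refine (hl1.comp_snd (gauss (Edge N))).mono' ?_ (Eventually.of_forall fun x => ?_)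
    · exact ((Vale.Agent.P157.Par.continuous_nest
        (fun p => (continuous_wp P β hs lam 0 u p).comp continuous_fst) (fun x => hw x.1)
        (fun p => (continuous_yF β (spinAt P.R) p).comp continuous_snd) (fun x => yF_pos β (spinAt P.R) x.2)
        P.R []).log fun x => (Vale.Agent.P168.MP.nest_pos (hw x.1) (yF_pos β _ x.2) P.R []).ne').aestronglyMeasurable
    · rw [Real.norm_eq_abs]; exact log_nest_yF_bound P.one_le (hw x.1) β _ _
  have iD := integrable_dT (N := N) P β hs lam u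
  obtain ⟨iE, eE⟩ := chB_mean (N := N) P β hs lam u
  set Cb := |lam| / kap s ^ 3
  have hm := integral_mono ((iL.add iN).sub (((iD.const_mul (κ * β)).add (iE.const_mul Cb)).add
    (integrable_const G))) iT fun x => site_step P β hs hs1 lam u x.1 x.2
  simp only [Pi.add_apply, Pi.sub_apply, Function.comp_def] at hm
  have eT : ∫ x, logZ0 P.R (lin P.R) (P.wp (wgt β s lam 0 (join x.1 x.2)) u) ∂μ =
      ∫ g, logZ0 P.R (lin P.R) (P.wp (wgt β s lam 0 g) u) ∂gauss (Edge (N + 1)) := by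
    conv_rhs => rw [← (measurePreserving_join (N := N)).map_eq]
    exact (integral_map measurePreserving_join.measurable.aemeasurable
      ((measurePreserving_join (N := N)).map_eq ▸ iT0.aestronglyMeasurable)).symm
  rw [eT, integral_sub, integral_add iL iN, integral_add, integral_add, integral_const_mul, integral_const_mul,
    integral_const, probReal_univ, one_smul,
    integral_fun_fst (fun g : Edge N → ℝ => logZ0 P.R (lin P.R) (P.wp (wgt β s lam 0 g) u)),
    probReal_univ, one_smul] at hm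
  rotate_left
  · exact iD.const_mul _
  · exact iE.const_mul _
  · exact (iD.const_mul _).add (iE.const_mul _)
  · exact integrable_const _
  · exact iL.add iN
  · exact ((iD.const_mul _).add (iE.const_mul _)).add (integrable_const _)
  have hN1 : ∫ x, log (nest (lin P.R) (w x.1) (yF β (spinAt P.R) x.2) P.R []) ∂μ ≥
      (∫ g, Vsk β P.R (qb P β lam u s g) ∂gauss (Edge N)) +
        β ^ 2 / 4 * (∫ g, s2 P.R (qb P β lam u s g) ∂gauss (Edge N)) -
        CV * ((∫ g, ab P β lam u s g ∂gauss (Edge N)) + 2 / ((N:ℝ) + 1)) := by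
    have hs2 := integrable_s2 (N := N) P β hs lam u
    have hv := (eb_vsk (n := N) P β hs lam 0 u).integrable
    have ha : Integrable (fun g => ab P β lam u s g + 2 / ((N:ℝ) + 1)) (gauss (Edge N)) :=
      (integrable_ab P β hs lam u).add (integrable_const _)
    rw [integral_prod _ iN]
    refine le_trans (le_of_eq ?_) (integral_mono ((hv.add (hs2.const_mul (β ^ 2 / 4))).sub (ha.const_mul CV))
      iN.integral_prod_left fun g => ?_)
    · simp only [Pi.add_apply, Pi.sub_apply, qb]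
      rw [integral_sub (f := fun g => Vsk β P.R (qlev P.R (P.wp (wgt β s lam 0 g) u) (spinAt P.R)) +
          β ^ 2 / 4 * s2 P.R (qlev P.R (P.wp (wgt β s lam 0 g) u) (spinAt P.R)))
          (hv.add (hs2.const_mul _)) (ha.const_mul _), integral_add hv (by exact hs2.const_mul _),
        integral_const_mul, integral_const_mul,
        integral_add (integrable_ab P β hs lam u) (integrable_const _), integral_const, probReal_univ, one_smul]
    · refine le_trans (le_of_eq ?_) (hV g)
      simp only [Pi.add_apply, Pi.sub_apply, Vsk, s2, qb]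
      ring
  obtain ⟨hk0, -, -, hk1⟩ := one_sub_cs N
  have hκ0 : 0 ≤ κ * β := by
    have := (one_sub_cs N).2.1
    have : 0 ≤ (1 - cs N) * N := mul_nonneg (by linarith) (Nat.cast_nonneg _)
    simp only [κ]; positivity
  have hκ1 : κ * β ≤ β / 4 := by
    have : κ ≤ 1 / 4 := by simp only [κ]; linarith
    linarith [mul_le_mul_of_nonneg_right this hβ]
  have hS : 0 ≤ ∫ g, s2 P.R (qb P β lam u s g) ∂gauss (Edge N) := integral_nonneg fun g =>
    (s2_mem P.one_le (qlev_wgt_prof P β s lam 0 g u).1 (qlev_wgt_prof P β s lam 0 g u).2).1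
  have hA : 0 ≤ ∫ g, ab P β lam u s g ∂gauss (Edge N) :=
    integral_nonneg fun g => Vale.Agent.P157.Par.adev_nn (hw g)
  set S := ∫ g, s2 P.R (qb P β lam u s g) ∂gauss (Edge N)
  set A := ∫ g, ab P β lam u s g ∂gauss (Edge N)
  have hlev := mul_le_mul_of_nonneg_left (integral_elev_le (N := N) P hs lam u hβ) hκ0
  have hlev2 := mul_le_mul_of_nonneg_right hκ1 (show 0 ≤ β * S + 2 * β * exp (2 * β ^ 2) * A by positivity)
  have hE := mul_le_mul_of_nonneg_left (eE CL hL) (show 0 ≤ Cb by positivity)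
  have hp : 0 ≤ β ^ 2 * exp (2 * β ^ 2) * A := by positivity
  simp only [w] at hN1 hm
  linarith

end mean

/-- the energy closure needed by `site` -/
def EnergyClose (β : ℝ) : Prop :=
  ∃ C : ℝ, 0 ≤ C ∧ ∀ (P : Par) (δ : ℝ), 0 ≤ δ → P.Good δ →
    ∀ (n : ℕ) [NeZero n] (s lam : ℝ) (v : Cfg n → ℝ), 0 < s → s ≤ 1 / 4 → |lam| ≤ 1 →
      |ediag P n β s lam v - mean (n := n) P β s lam v (fun _ w => elev β P.R (qlev P.R w (spinAt P.R)))| ≤
        C * (δ + |lam| / s ^ 16 + 1 / √(n : ℝ))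

/-- energy of the tilted base system minus its level value -/
def jT (P : Par) [NeZero N] (β s lam : ℝ) (u : P.Grid) (x : (Edge N → ℝ) × (Fin N → ℝ)) : ℝ :=
  ET P.R (lin P.R) (P.wp (wgt β s lam (vz β x.2) x.1) u) [(0, 0)] (fun ps => dv x.1 (spinAt P.R (ps.getD 0 []))) -
    β * s2 P.R (qlev P.R (P.wp (wgt β s lam (vz β x.2) x.1) u) (spinAt P.R))

lemma avg_jT_le (P : Par) [NeZero N] [Nonempty P.Grid] (β : ℝ) {s : ℝ} (hs : 0 < kap s) (lam err : ℝ)
    (hT : ∀ v : Cfg N → ℝ, ediag P N β s lam v -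
      mean (n := N) P β s lam v (fun _ w => elev β P.R (qlev P.R w (spinAt P.R))) ≤ err) :
    (Vale.Agent.P168.MP.avg fun u : P.Grid =>
      ∫ x, jT P β s lam u x ∂(gauss (Edge N)).prod (gauss (Fin N))) ≤ err := by
  have iJ : ∀ u : P.Grid, Integrable (jT (N := N) P β s lam u) ((gauss (Edge N)).prod (gauss (Fin N))) := fun u =>
    (integrable_dT P β hs lam u).sub (integrable_elev P β hs lam u)
  have e : (Vale.Agent.P168.MP.avg fun u : P.Grid => ∫ x, jT P β s lam u x ∂(gauss (Edge N)).prod (gauss (Fin N))) = ∫ z : Fin N → ℝ, Vale.Agent.P168.MP.avg (fun u : P.Grid =>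
      ∫ g, jT P β s lam u (g, z) ∂gauss (Edge N)) ∂gauss (Fin N) := by
    rw [integral_avg' fun u => (iJ u).integral_prod_right]
    exact congrArg Vale.Agent.P168.MP.avg (funext fun u => integral_prod_symm _ (iJ u))
  rw [e]
  refine (integral_mono ?_ (integrable_const err) fun z => ?_).trans_eq
    (by rw [integral_const, probReal_univ, one_smul])
  · exact (integrable_finsetSum univ fun u _ => (iJ u).integral_prod_right).div_const _
  · have h := hT (vz β z)
    refine le_trans (le_of_eq ?_) h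
    have hd : ∀ u : P.Grid, Integrable (fun g : Edge N → ℝ => ET P.R (lin P.R)
        (P.wp (wgt β s lam (vz β z) g) u) [(0, 0)] fun ps => dv g (spinAt P.R (ps.getD 0 [])))
        (gauss (Edge N)) := fun u =>
      (eb_ET P β hs lam (vz β z) u (fun ps => (eb_bil (eb_cheb 1) _ _).1.div_const _)
        ((eb_abs_entries (eb_cheb 1)).mul (EB.const (1 / (N:ℝ)))) fun g ps => by
          rw [abs_div, Nat.abs_cast, mul_one_div]
          exact div_le_div_of_nonneg_right (abs_bil_le _ _ _) (Nat.cast_nonneg _)).integrable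
    have he : ∀ u : P.Grid, Integrable (fun g : Edge N → ℝ => β * s2 P.R
        (qlev P.R (P.wp (wgt β s lam (vz β z) g) u) (spinAt P.R))) (gauss (Edge N)) := fun u => by
      refine (Integrable.of_bound (Continuous.aestronglyMeasurable (continuous_finsetSum _ fun l _ =>
        continuous_const.mul ((continuous_qlev P β hs lam (vz β z) u l).pow 2))) 1
        (Eventually.of_forall fun g => ?_)).const_mul β
      obtain ⟨h0, h1⟩ := s2_mem P.one_le (qlev_wgt_prof P β s lam (vz β z) g u).1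
        (qlev_wgt_prof P β s lam (vz β z) g u).2
      exact abs_le.2 ⟨le_trans (by norm_num) h0, h1⟩
    simp only [jT, integral_sub (hd _) (he _)]
    simp only [ediag, mean, Vale.Agent.P168.MP.avg, sum_sub_distrib, sub_div]
    rfl

/-- one site, averaged over the grid -/
lemma site_avg (P : Par) [NeZero N] [Nonempty P.Grid] {β : ℝ} {s : ℝ} (hs : 0 < kap s) (lam : ℝ) (hβ : 0 ≤ β)
    (hs1 : kap s ≤ 1) {CV CL : ℝ}
    (hV : ∀ {Ω : Type} [Fintype Ω] [Nonempty Ω] {M : ℕ} [NeZero M]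
      {R : ℕ} (_ : 1 ≤ R) {w : List Ω → ℝ} (_ : ∀ p, 0 < w p) (rd : List Ω → Cfg M),
      Phi cosh R (lin R) (fun l => β ^ 2 * qlev R w rd l) -
          CV * (adev R w (ovK rd) (qlev R w rd) + 2 / ((M:ℝ) + 1)) ≤
        ∫ z, log (nest (lin R) w (yF β rd z) R []) ∂gauss (Fin M))
    (hL : ∫ g : Edge N → ℝ, (opn g + 2) ∂gauss (Edge N) ≤ CL) :
    Vale.Agent.P168.MP.avg (fun u : P.Grid => ∫ g, Vsk β P.R (qb P β lam u s g) ∂gauss (Edge N)) -
        ((CV + β ^ 2 * exp (2 * β ^ 2)) *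
            Vale.Agent.P168.MP.avg (fun u : P.Grid => ∫ g, ab P β lam u s g ∂gauss (Edge N)) +
          (1 - cs N) * N / 2 * β * Vale.Agent.P168.MP.avg (fun u : P.Grid =>
            ∫ x, jT P β s lam u x ∂(gauss (Edge N)).prod (gauss (Fin N))) +
          (CV * (2 / ((N:ℝ) + 1)) + |lam| / kap s ^ 3 * ((CL + 2) + 2 * (24 * (exp 2 + exp (2 * β ^ 2)))) +
            (P.R : ℝ) * ((Fintype.card (BIdx P.R 2) : ℝ) * P.S) / N)) ≤
      free P (N + 1) β s lam - free P N β s lam := by
  set Vu := fun u : P.Grid => ∫ g, Vsk β P.R (qb P β lam u s g) ∂gauss (Edge N)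
  set Au := fun u : P.Grid => ∫ g, ab P β lam u s g ∂gauss (Edge N)
  set Ju := fun u : P.Grid => ∫ x, jT P β s lam u x ∂(gauss (Edge N)).prod (gauss (Fin N))
  set C1 := CV + β ^ 2 * exp (2 * β ^ 2)
  set κ := (1 - cs N) * N / 2 * β
  set cst := CV * (2 / ((N:ℝ) + 1)) + |lam| / kap s ^ 3 * ((CL + 2) + 2 * (24 * (exp 2 + exp (2 * β ^ 2)))) +
    (P.R : ℝ) * ((Fintype.card (BIdx P.R 2) : ℝ) * P.S) / N
  have h : ∀ u : P.Grid, Vu u - (C1 * Au u + κ * Ju u + cst) ≤
      (∫ g, logZ0 P.R (lin P.R) (P.wp (wgt β s lam 0 g) u) ∂gauss (Edge (N + 1))) -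
        ∫ g, logZ0 P.R (lin P.R) (P.wp (wgt β s lam 0 g) u) ∂gauss (Edge N) := fun u => by
    have h := site_grid (N := N) P hs lam u hβ hs1
      (fun g => hV P.one_le (wp_pos P (fun σ => wgt_pos β s lam 0 g σ) u) (spinAt P.R)) hL
    rw [← integral_sub (integrable_dT P β hs lam u) (integrable_elev P β hs lam u)] at h
    exact h
  have k := Vale.Agent.P168.MP.avg_le_avg h
  have e1 : Vale.Agent.P168.MP.avg (fun u : P.Grid => Vu u - (C1 * Au u + κ * Ju u + cst)) =
      Vale.Agent.P168.MP.avg Vu - (C1 * Vale.Agent.P168.MP.avg Au + κ * Vale.Agent.P168.MP.avg Ju + cst) := by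
    rw [← avg_affine Au Ju]
    simp only [Vale.Agent.P168.MP.avg, sum_sub_distrib, sub_div]
  rw [e1] at k
  refine k.trans_eq ?_
  simp only [free, mean, Vale.Agent.P168.MP.avg, sum_sub_distrib, sub_div]

/-- the errors of one site against `pc / √N` -/
lemma err_le (P : Par) (n : ℕ) {s : ℝ} (hs0 : 0 < s) (hs4 : s ≤ 1 / 4) (lam : ℝ) {CV Cch : ℝ} (hCV : 0 ≤ CV)
    (hCch : 0 ≤ Cch) :
    1 / √((n:ℝ) + 1) ≤ pc P / √((n:ℝ) + 1) ∧
      CV * (2 / (((n + 1 : ℕ) : ℝ) + 1)) + |lam| / kap s ^ 3 * Cch +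
          (P.R : ℝ) * ((Fintype.card (BIdx P.R 2) : ℝ) * P.S) / ((n + 1 : ℕ) : ℝ) ≤
        (2 * CV + 1) * (pc P / √((n:ℝ) + 1)) + Cch * (|lam| / s ^ 16) := by
  obtain ⟨hk2, -, hs⟩ := kap_bounds hs0 hs4
  set r := pc P / √((n:ℝ) + 1)
  have hsq : 0 < √((n:ℝ) + 1) := Real.sqrt_pos.2 (by positivity)
  have hpc : 1 ≤ pc P := le_add_of_nonneg_right (by positivity)
  have hr0 : 1 / √((n:ℝ) + 1) ≤ r := div_le_div_of_nonneg_right hpc hsq.le
  have hsN : √((n:ℝ) + 1) ≤ (n:ℝ) + 1 := by
    rw [Real.sqrt_le_left (by positivity)]; nlinarith [Nat.cast_nonneg (α := ℝ) n]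
  push_cast
  have hr1 : 1 / ((n:ℝ) + 1 + 1) ≤ r := le_trans (one_div_le_one_div_of_le hsq (by linarith)) hr0
  have hr2 : (P.R : ℝ) * ((Fintype.card (BIdx P.R 2) : ℝ) * P.S) / ((n:ℝ) + 1) ≤ r := by
    refine div_le_div₀ (zero_le_one.trans hpc) ?_ hsq hsN
    simp only [pc]; linarith
  have hlam3 : |lam| / kap s ^ 3 ≤ |lam| / s ^ 16 := by
    refine div_le_div_of_nonneg_left (abs_nonneg _) (by positivity) ?_
    calc s ^ 16 ≤ s ^ 6 := pow_le_pow_of_le_one hs0.le (by linarith) (by norm_num)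
      _ = (s ^ 2) ^ 3 := by ring
      _ ≤ _ := pow_le_pow_left₀ (sq_nonneg s) hk2 3
  refine ⟨hr0, ?_⟩
  have h1 := mul_le_mul_of_nonneg_left hr1 (show 0 ≤ 2 * CV by positivity)
  have h2 := mul_le_mul_of_nonneg_right hlam3 hCch
  have h3 : CV * (2 / ((n:ℝ) + 1 + 1)) = 2 * CV * (1 / ((n:ℝ) + 1 + 1)) := by ring
  linarith

/-- **One more site**, given the energy of the perturbed system -/
theorem site_of {β : ℝ} (hβ : 0 ≤ β) (hdiag : EnergyClose β) :
    ∃ C : ℝ, 0 ≤ C ∧ ∀ (P : Par) (δ : ℝ), 0 ≤ δ → δ ≤ 1 → P.Good δ →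
    ∀ (n : ℕ) (s lam : ℝ), 0 < s → s ≤ 1 / 4 → |lam| ≤ 1 →
      mean (n := n + 1) P β s lam 0 (fun _ w => Vsk β P.R (qlev P.R w (spinAt P.R))) -
          C * (δ + |lam| / s ^ 16 + pc P / √((n : ℝ) + 1)) ≤
        free P (n + 2) β s lam - free P (n + 1) β s lam := by
  obtain ⟨CT, hCT, hT⟩ := hdiag
  obtain ⟨CV, hCV, hV⟩ := value_yF β
  obtain ⟨CL, hCL, hL⟩ := opn_mom 1
  set Cch := (CL + 2) + 2 * (24 * (exp 2 + exp (2 * β ^ 2)))
  refine ⟨CV + β ^ 2 * exp (2 * β ^ 2) + β / 4 * CT + 2 * CV + Cch + 1, by positivity,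
    fun P δ hδ _ hP n s lam hs0 hs4 hlam => ?_⟩
  obtain ⟨hk2, hks, hs⟩ := kap_bounds hs0 hs4
  have : Nonempty P.Grid := ⟨fun _ => ⟨0, P.M_pos⟩⟩
  set N := n + 1
  set μ := (gauss (Edge N)).prod (gauss (Fin N))
  have hN : ((N : ℝ)) = (n:ℝ) + 1 := by simp [N]
  set Vu := fun u : P.Grid => ∫ g, Vsk β P.R (qb P β lam u s g) ∂gauss (Edge N)
  set Au := fun u : P.Grid => ∫ g, ab P β lam u s g ∂gauss (Edge N)
  set Ju := fun u : P.Grid => ∫ x, jT P β s lam u x ∂μ
  have key := site_avg (N := N) P hs lam hβ (hks.trans (by linarith))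
    (fun {Ω} _ _ {M} _ {R} hR {w} hw rd => hV hR hw rd) (CL := CL) (by simpa using (hL N (NeZero.pos N)).2)
  -- the deviations
  have hA : Vale.Agent.P168.MP.avg Au ≤ δ := by
    rw [show Vale.Agent.P168.MP.avg Au = ∫ g, Vale.Agent.P168.MP.avg (fun u : P.Grid => ab P β lam u s g)
      ∂gauss (Edge N) from (integral_avg' fun u => integrable_ab P β hs lam u).symm]
    refine (integral_mono ?_ (integrable_const δ) fun g => ?_).trans_eq
      (by rw [integral_const, probReal_univ, one_smul])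
    · exact (integrable_finsetSum univ fun u _ => integrable_ab P β hs lam u).div_const _
    · exact hP N (wgt β s lam 0 g) (fun x => wgt_pos β s lam 0 g x)
  -- the energy
  set err := CT * (δ + |lam| / s ^ 16 + 1 / √((n:ℝ) + 1))
  have herr : 0 ≤ err := by positivity
  have hJ : Vale.Agent.P168.MP.avg Ju ≤ err := avg_jT_le P β hs lam err fun v => by
    have h := (abs_le.1 (hT P δ hδ hP N s lam v hs0 hs4 hlam)).2
    rwa [hN] at h
  -- assemble
  have hk := one_sub_cs N
  have hκ0 : 0 ≤ (1 - cs N) * N / 2 * β := by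
    have : 0 ≤ (1 - cs N) * N := mul_nonneg (by linarith [hk.2.1]) (Nat.cast_nonneg _)
    positivity
  have hκ1 : (1 - cs N) * N / 2 * β ≤ β / 4 := by
    linarith [mul_le_mul_of_nonneg_right (show (1 - cs N) * N / 2 ≤ 1 / 4 by linarith [hk.2.2.2]) hβ]
  have hκJ : (1 - cs N) * N / 2 * β * Vale.Agent.P168.MP.avg Ju ≤ β / 4 * err :=
    (mul_le_mul_of_nonneg_left hJ hκ0).trans (mul_le_mul_of_nonneg_right hκ1 herr)
  have hA' := mul_le_mul_of_nonneg_left hA (show 0 ≤ CV + β ^ 2 * exp (2 * β ^ 2) by positivity)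
  set r := pc P / √((n:ℝ) + 1)
  obtain ⟨hr0, hcst⟩ := err_le P n hs0 hs4 lam hCV (show 0 ≤ Cch by positivity)
  set cst := CV * (2 / ((N:ℝ) + 1)) + |lam| / kap s ^ 3 * Cch +
    (P.R : ℝ) * ((Fintype.card (BIdx P.R 2) : ℝ) * P.S) / N
  have key' : Vale.Agent.P168.MP.avg Vu - ((CV + β ^ 2 * exp (2 * β ^ 2)) * Vale.Agent.P168.MP.avg Au +
      (1 - cs N) * N / 2 * β * Vale.Agent.P168.MP.avg Ju + cst) ≤
      free P (n + 2) β s lam - free P (n + 1) β s lam := key
  have hVmean : mean (n := n + 1) P β s lam 0 (fun _ w => Vsk β P.R (qlev P.R w (spinAt P.R))) =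
      Vale.Agent.P168.MP.avg Vu := rfl
  rw [hVmean]
  set t := |lam| / s ^ 16
  have ht : 0 ≤ t := by positivity
  have hr : 0 ≤ r := le_trans (by positivity) hr0
  have herr' : β / 4 * err ≤ β / 4 * CT * (δ + t + r) := by
    rw [mul_assoc]
    exact mul_le_mul_of_nonneg_left (mul_le_mul_of_nonneg_left (by linarith) hCT) (by positivity)
  have hAb : 0 ≤ CV + β ^ 2 * exp (2 * β ^ 2) := by positivity
  have hCch : 0 ≤ Cch := by positivity
  have p1 := mul_nonneg hAb (show 0 ≤ t + r by linarith)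
  have p2 := mul_nonneg (show 0 ≤ 2 * CV + 1 by positivity) (show 0 ≤ δ + t by linarith)
  have p3 := mul_nonneg hCch (show 0 ≤ δ + r by linarith)
  linarith

/-- **One more site**, with polynomial errors -/
theorem site {β : ℝ} (hβ : 0 ≤ β) : ∃ C : ℝ, 0 ≤ C ∧ ∀ (P : Par) (δ : ℝ), 0 ≤ δ → δ ≤ 1 → P.Good δ →
    ∀ (n : ℕ) (s lam : ℝ), 0 < s → s ≤ 1 / 4 → |lam| ≤ 1 →
      mean (n := n + 1) P β s lam 0 (fun _ w => Vsk β P.R (qlev P.R w (spinAt P.R))) -
          C * (δ + |lam| / s ^ 16 + pc P / √((n : ℝ) + 1)) ≤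
        free P (n + 2) β s lam - free P (n + 1) β s lam :=
  site_of hβ (energy_close hβ)

end Vale.Agent.P146.Lower.Res
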