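import Vale.Agent.P146.Lower.Res.Mean
import Vale.Agent.P146.Lower.Res.Convex
import Vale.Agent.P146.Lower.Res.Good
import Vale.Agent.P146.Lower.Res.Rec
import Vale.Agent.P146.Lower.Res.Site
import Vale.Agent.P146.Lower.Res.Anti
import Vale.Agent.P146.Lower.Marg.Spread

/-! P146, polynomial lower bound, assembly. Scales, in powers of one small `ν`: `μ = ν²`, `K = ν`, `s = ν^44`,
`γ = ν^33/2`, deformation `w = ν^1800`, accuracy of the perturbation `ν^1900`; the size is at least `ν^-B`. -/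

open MeasureTheory Finset Real Filter ProbabilityTheory
open Vale.Agent.P150 (gauss)
open Vale.Agent.P168.MP (lin logZ0 spinAt)
open Vale.Agent.P157.Par (qlev Prof)

noncomputable section

namespace Vale.Agent.P146.Lower.Res

variable {n : ℕ}

lemma pow_small {C c ν : ℝ} (hC : 0 ≤ C) (hν : 0 < ν) (hν1 : ν ≤ 1) (h : C * ν ≤ c) {i j : ℕ}
    (hij : j + 1 ≤ i) : C * ν ^ i ≤ c * ν ^ j :=
  calc C * ν ^ i ≤ C * ν ^ (j + 1) := mul_le_mul_of_nonneg_left (pow_le_pow_of_le_one hν.le hν1 hij) hC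
    _ = C * ν * ν ^ j := by ring
    _ ≤ c * ν ^ j := mul_le_mul_of_nonneg_right h (by positivity)

lemma block {ν : ℝ} (hν : 0 < ν) (hν1 : ν ≤ 1 / 4) {R : ℕ} (hR : 3 ≤ ν ^ 2 * R) :
    0 < ⌈ν ^ 2 * (R : ℝ)⌉₊ ∧ 3 * ⌈ν ^ 2 * (R : ℝ)⌉₊ ≤ R ∧ 3 * (⌈ν ^ 2 * (R : ℝ)⌉₊ : ℝ) ≤ 4 * ν ^ 2 * R ∧
      (R : ℝ) / ⌈ν ^ 2 * (R : ℝ)⌉₊ ≤ 1 / ν ^ 2 := by
  have hRpos : (0:ℝ) < R := by
    by_contra h
    linarith [mul_nonpos_of_nonneg_of_nonpos (sq_nonneg ν) (not_lt.1 h)]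
  have h1 := Nat.le_ceil (ν ^ 2 * (R : ℝ))
  have h2 := Nat.ceil_lt_add_one (show 0 ≤ ν ^ 2 * (R : ℝ) by positivity)
  have hLpos : 0 < ⌈ν ^ 2 * (R : ℝ)⌉₊ := Nat.ceil_pos.2 (by linarith)
  have h3 : 3 * (⌈ν ^ 2 * (R : ℝ)⌉₊ : ℝ) ≤ 4 * ν ^ 2 * R := by linarith
  have h4 : 4 * ν ^ 2 * (R : ℝ) ≤ 1 * R := by
    gcongr
    have := mul_le_mul hν1 hν1 hν.le (by norm_num)
    nlinarith
  refine ⟨hLpos, ?_, h3, ?_⟩
  · have : 3 * (⌈ν ^ 2 * (R : ℝ)⌉₊ : ℝ) ≤ R := by linarith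
    exact_mod_cast this
  · rw [div_le_div_iff₀ (by exact_mod_cast hLpos) (by positivity)]
    linarith

/-- near minimisers of the variational problem are worth at least `c / ν^45` -/
lemma mean_worth_low {β : ℝ} (hβ : 1 < β) : ∃ m₀ e₀ ν₀ : ℝ, 0 < m₀ ∧ 0 < e₀ ∧ 0 < ν₀ ∧ ν₀ ≤ 1 / 4 ∧
    ∀ ν : ℝ, 0 < ν → ν ≤ ν₀ → ∀ P : Par, 1 / (e₀ * ν ^ 176) ≤ P.R → ∀ (n : ℕ) [NeZero n] (lam : ℝ),
      mean (n := n) P β (ν ^ 44) lam 0 (fun _ w => Vsk β P.R (qlev P.R w (spinAt P.R))) - sInf (skValues β) ≤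
        e₀ * ν ^ 397 / 2 →
      3 ≤ ν ^ 2 * P.R ∧ m₀ / ν ^ 45 ≤ mean (n := n) P β (ν ^ 44) lam 0
        (fun _ w => Yf β (ν ^ 44) ν (ν ^ 33 / 2) P.R ⌈ν ^ 2 * (P.R : ℝ)⌉₊ (qlev P.R w (spinAt P.R))) := by
  obtain ⟨cs, hcs, hsp⟩ := Vale.Agent.P146.Lower.Marg.spread hβ
  obtain ⟨cW, hcW, hW⟩ := worth_low hβ.le
  obtain ⟨CB, hCB, hB⟩ := worth_bound β
  obtain ⟨e₀, he₀e⟩ : ∃ e, e = min (min (cs / 8 ^ 4) (1 / 3))
      (cW / 4 * cs / 8 ^ 8 / (cW + CB)) := ⟨_, rfl⟩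
  have he₀ : 0 < e₀ := by rw [he₀e]; positivity
  have he1 : e₀ ≤ cs / 8 ^ 4 := he₀e ▸ (min_le_left _ _).trans (min_le_left _ _)
  have he2 : e₀ ≤ 1 / 3 := he₀e ▸ (min_le_left _ _).trans (min_le_right _ _)
  have he3 : e₀ * (cW + CB) ≤ cW / 4 * cs / 8 ^ 8 := by
    rw [← le_div_iff₀ (by positivity)]
    exact he₀e ▸ min_le_right _ _
  refine ⟨cW / 8, e₀, min (min cW cs) (1 / 4), by positivity, he₀,
    lt_min (lt_min hcW hcs) (by norm_num), min_le_right _ _, fun ν hν hν₀ P hR n _ lam hV => ?_⟩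
  have hν4 : ν ≤ 1 / 4 := hν₀.trans (min_le_right _ _)
  have hν1 : ν ≤ 1 := hν4.trans (by norm_num)
  have hνc : ν ≤ cW := hν₀.trans ((min_le_left _ _).trans (min_le_left _ _))
  have hνs : ν ≤ cs := hν₀.trans ((min_le_left _ _).trans (min_le_right _ _))
  have hp : ∀ i : ℕ, 1 ≤ i → ν ^ i ≤ ν := fun i hi =>
    (pow_le_pow_of_le_one hν.le hν1 hi).trans_eq (pow_one ν)
  have hs : (0:ℝ) < ν ^ 44 := by positivity
  have hs4 : ν ^ 44 ≤ 1 / 4 := (hp 44 (by norm_num)).trans hν4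
  have hk : 0 < kap (ν ^ 44) := (kap_bounds hs hs4).2.2
  have hR1 : (1:ℝ) ≤ P.R * (e₀ * ν ^ 176) := by rwa [div_le_iff₀ (by positivity)] at hR
  have h3 : 3 ≤ ν ^ 2 * (P.R : ℝ) := by
    have : (P.R : ℝ) * (e₀ * ν ^ 176) ≤ P.R * (1 / 3 * ν ^ 2) :=
      mul_le_mul_of_nonneg_left (mul_le_mul he2 (pow_le_pow_of_le_one hν.le hν1 (by norm_num)) (by positivity)
        (by norm_num)) (Nat.cast_nonneg _)
    linarith
  refine ⟨h3, ?_⟩
  obtain ⟨hL, hL3, hL4, hRL⟩ := block hν hν4 h3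
  set L := ⌈ν ^ 2 * (P.R : ℝ)⌉₊
  set I := sInf (skValues β)
  obtain ⟨m, hm⟩ : ∃ m, m = cW / 4 / ν ^ 45 := ⟨_, rfl⟩
  obtain ⟨E, hE⟩ : ∃ E, E = cs * (ν ^ 44 / 8) ^ 8 := ⟨_, rfl⟩
  obtain ⟨G, hG⟩ : ∃ G, G = (m + CB / ν ^ 90) / E := ⟨_, rfl⟩
  have hm0 : 0 < m := by rw [hm]; positivity
  have hE0 : 0 < E := by rw [hE]; positivity
  have hG0 : 0 ≤ G := by rw [hG]; positivity
  have hbnd : ∀ q, Prof P.R q 1 → |Yf β (ν ^ 44) ν (ν ^ 33 / 2) P.R L q| ≤ CB / ν ^ 90 := fun q hq => by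
    refine (hB P.R L q _ ν _ hs hs4 (by positivity) (by linarith [hp 33 (by norm_num)]) hq hL hL3).trans ?_
    calc CB * ((P.R : ℝ) / L) / (ν ^ 44) ^ 2 ≤ CB * (1 / ν ^ 2) / (ν ^ 44) ^ 2 :=
          div_le_div_of_nonneg_right (mul_le_mul_of_nonneg_left hRL hCB) (by positivity)
      _ = CB / ν ^ 90 := by field_simp
  have hlow : ∀ q, Prof P.R q 1 → q P.R = 1 →
      (m + G * I) + -G * Vsk β P.R q ≤ Yf β (ν ^ 44) ν (ν ^ 33 / 2) P.R L q := fun q hq hq1 => by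
    have hge := sInf_le_vsk (show 0 ≤ β by linarith) P.one_le hq hq1
    rcases le_or_gt (Vsk β P.R q) (I + E) with hv | hv
    · obtain ⟨htop, hlev⟩ := hsp (ν ^ 2) (ν ^ 44 / 8) (by positivity) ((hp 2 (by norm_num)).trans hνs)
        (by positivity) (by
          rw [← pow_mul]
          have := pow_le_pow_of_le_one hν.le hν1 (show 2 * 10 ≤ 44 by norm_num)
          exact (div_le_self hs.le (by norm_num)).trans this) P.R q P.one_le (by
          rw [div_le_iff₀ (Nat.cast_pos.2 P.one_le)]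
          refine hR1.trans ?_
          have : e₀ * ν ^ 176 ≤ cs / 8 ^ 4 * ν ^ 176 := mul_le_mul_of_nonneg_right he1 (by positivity)
          refine (mul_le_mul_of_nonneg_left this (Nat.cast_nonneg _)).trans_eq ?_
          ring) hq hq1 (hE ▸ hv)
      have hY := hW P.R L q (ν ^ 44) ν (ν ^ 33 / 2) ((ν ^ 2) ^ 5 / 2) (4 * ν ^ 2) hs
        ((hp 44 (by norm_num)).trans hνc) hν hνc (by positivity) (by linarith [hp 33 (by norm_num)]) hq hq1
        hL hL3 (le_of_le_of_eq htop (by ring)) hL4 hlev (by positivity)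
      have e1 : ν / (ν ^ 44 * (4 * ν ^ 2)) = 1 / 4 / ν ^ 45 := by field_simp
      have e2 : ν ^ 33 / 2 * ((ν ^ 2) ^ 5 / 2) / (ν ^ 44) ^ 2 = 1 / 4 / ν ^ 45 := by field_simp; ring
      rw [e1, e2, min_self] at hY
      have : m ≤ Yf β (ν ^ 44) ν (ν ^ 33 / 2) P.R L q := le_trans (le_of_eq (by rw [hm]; ring)) hY
      have := mul_le_mul_of_nonneg_left hge hG0
      linarith
    · have h1 := mul_le_mul_of_nonneg_left (show E ≤ Vsk β P.R q - I by linarith) hG0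
      have h2 : G * E = m + CB / ν ^ 90 := by rw [hG]; field_simp
      have := (abs_le.1 (hbnd q hq)).1
      linarith
  have key := mean_affine_le P (n := n) β (ν ^ 44) lam 0 (m + G * I) (-G)
    (Φ := fun w => Vsk β P.R (qlev P.R w (spinAt P.R)))
    (Ψ := fun w => Yf β (ν ^ 44) ν (ν ^ 33 / 2) P.R L (qlev P.R w (spinAt P.R)))
    (fun u => (eb_vsk P β hk lam 0 u).integrable)
    (fun u => (EB.of_le (EB.const (CB / ν ^ 90)) (continuous_Yf β hs ν (ν ^ 33 / 2) P.R L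
      fun l => continuous_qlev P β hk lam 0 u l) fun g => hbnd _ (qlev_wgt_prof P β _ lam 0 g u).1).integrable)
    fun g u => hlow _ (qlev_wgt_prof P β _ lam 0 g u).1 (qlev_wgt_prof P β _ lam 0 g u).2
  refine le_trans ?_ key
  have h5 := mul_le_mul_of_nonneg_left hV hG0
  have h6 : G * (e₀ * ν ^ 397 / 2) ≤ m / 2 := by
    rw [hG, div_mul_eq_mul_div, div_le_iff₀ hE0]
    have h7 : e₀ * (cW / 4 * ν ^ 45 + CB) ≤ cW / 4 * cs / 8 ^ 8 := by
      refine le_trans ?_ he3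
      gcongr
      have := mul_le_mul_of_nonneg_left (pow_le_one₀ hν.le hν1 : ν ^ 45 ≤ 1) (show 0 ≤ cW / 4 by positivity)
      linarith
    have h8 := mul_le_mul_of_nonneg_right h7 (show 0 ≤ ν ^ 307 / 2 by positivity)
    refine le_of_eq_of_le ?_ (h8.trans_eq ?_)
    · rw [hm]; field_simp
    · rw [hm, hE]; field_simp
  have e : cW / 8 / ν ^ 45 = m / 2 := by rw [hm]; ring
  rw [e]
  linarith

/-- at a near minimising size the diagonal test is at least `c / ν^45` -/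
lemma diag_low {β : ℝ} (hβ : 1 < β) : ∃ h₀ e₀ ν₀ : ℝ, 0 < h₀ ∧ 0 < e₀ ∧ 0 < ν₀ ∧ ν₀ ≤ 1 / 4 ∧
    ∀ ν : ℝ, 0 < ν → ν ≤ ν₀ → ∀ (P : Par) (δ : ℝ), 0 ≤ δ → P.Good δ → 1 / (e₀ * ν ^ 176) ≤ P.R →
    ∀ (n : ℕ) [NeZero n] (lam : ℝ), δ + |lam| + 1 / √(n : ℝ) ≤ ν ^ 665 →
      mean (n := n) P β (ν ^ 44) lam 0 (fun _ w => Vsk β P.R (qlev P.R w (spinAt P.R))) - sInf (skValues β) ≤
        e₀ * ν ^ 397 / 2 →
      h₀ / ν ^ 45 ≤ diag P n β (ν ^ 44) lam 0 := by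
  obtain ⟨m₀, e₀, ν₁, hm₀, he₀, hν₁, hν₁4, hmean⟩ := mean_worth_low hβ
  obtain ⟨CD, hCD, hdw⟩ := diag_worth (show 0 ≤ β by linarith)
  refine ⟨m₀ / 8, e₀, min ν₁ (min (1 / (CD + 1)) (m₀ / (4 * (CD + 1)))), by positivity, he₀,
    lt_min hν₁ (lt_min (by positivity) (by positivity)), (min_le_left _ _).trans hν₁4,
    fun ν hν hν₀ P δ hδ hP hR n _ lam hsm hV => ?_⟩
  have hνa : ν ≤ ν₁ := hν₀.trans (min_le_left _ _)
  have hC1 : CD * ν ≤ 1 := by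
    have h := hν₀.trans ((min_le_right _ _).trans (min_le_left _ _))
    rw [le_div_iff₀ (by positivity)] at h
    linarith
  have hC2 : CD * ν ≤ m₀ / 4 := by
    have h := hν₀.trans ((min_le_right _ _).trans (min_le_right _ _))
    rw [le_div_iff₀ (by positivity)] at h
    linarith
  have hν4 := hνa.trans hν₁4
  have hν1 : ν ≤ 1 := hν4.trans (by norm_num)
  have hp : ∀ i : ℕ, 1 ≤ i → ν ^ i ≤ ν := fun i hi =>
    (pow_le_pow_of_le_one hν.le hν1 hi).trans_eq (pow_one ν)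
  obtain ⟨h3, hY⟩ := hmean ν hν hνa P hR n lam hV
  obtain ⟨hL, hL3, -, hRL⟩ := block hν hν4 h3
  set L := ⌈ν ^ 2 * (P.R : ℝ)⌉₊
  have hd0 : 0 ≤ δ + |lam| + 1 / √(n : ℝ) := by positivity
  have hlam : |lam| ≤ 1 := by
    have := hsm.trans (pow_le_one₀ hν.le hν1)
    have : 0 ≤ 1 / √(n : ℝ) := by positivity
    linarith
  have h := hdw P δ hδ hP n (ν ^ 44) lam 0 (by positivity) ((hp 44 (by norm_num)).trans hν4) hlam L ν
    (ν ^ 33 / 2) (1 / ν ^ 66) hL hL3 hν hν1 (by positivity) (by linarith [hp 33 (by norm_num)]) (by positivity)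
  set T := diag P n β (ν ^ 44) lam 0
  have e1 : CD * (ν ^ 33 / 2 * ν * (1 / ν ^ 66 + T / ((ν ^ 44) ^ 2 * (1 / ν ^ 66)))) =
      CD / 2 * ν ^ 13 / ν ^ 45 + CD / 2 * ν ^ 12 * T := by field_simp
  have e2 : CD * ((P.R : ℝ) / L) ^ 2 / (ν * (ν ^ 44) ^ 16) * (δ + |lam| + 1 / √(n : ℝ)) ≤ CD * ν / ν ^ 45 :=
    calc _ ≤ CD * (1 / ν ^ 2) ^ 2 / (ν * (ν ^ 44) ^ 16) * ν ^ 665 :=
          mul_le_mul (div_le_div_of_nonneg_right (mul_le_mul_of_nonneg_left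
            (pow_le_pow_left₀ (by positivity) hRL 2) hCD) (by positivity)) hsm hd0 (by positivity)
      _ = CD * ν / ν ^ 45 * ν ^ 0 := by field_simp
      _ = _ := by rw [pow_zero, mul_one]
  have e3 : CD / 2 * ν ^ 13 / ν ^ 45 ≤ m₀ / 8 / ν ^ 45 := by
    refine div_le_div_of_nonneg_right ?_ (by positivity)
    have := mul_le_mul_of_nonneg_left (hp 13 (by norm_num)) hCD
    linarith
  have e4 : CD * ν / ν ^ 45 ≤ m₀ / 4 / ν ^ 45 := div_le_div_of_nonneg_right hC2 (by positivity)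
  have e5 : CD / 2 * ν ^ 12 ≤ 1 := by
    have := mul_le_mul_of_nonneg_left (hp 12 (by norm_num)) hCD
    linarith
  rw [e1] at h
  have h5 : m₀ / ν ^ 45 * (5 / 8) ≤ (3 + CD / 2 * ν ^ 12) * T := by
    have ea : m₀ / 8 / ν ^ 45 = m₀ / ν ^ 45 / 8 := by ring
    have eb : m₀ / 4 / ν ^ 45 = m₀ / ν ^ 45 / 4 := by ring
    linarith
  have hpos : 0 < 3 + CD / 2 * ν ^ 12 := by positivity
  have hT : 0 ≤ T := by
    by_contra hT
    have := mul_neg_of_pos_of_neg hpos (not_le.1 hT)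
    have : 0 < m₀ / ν ^ 45 * (5 / 8) := by positivity
    linarith
  have := mul_le_mul_of_nonneg_right e5 hT
  have : 0 < m₀ / ν ^ 45 := by positivity
  have ec : m₀ / 8 / ν ^ 45 = m₀ / ν ^ 45 / 8 := by ring
  linarith

/-- the numerical conditions -/
lemma scale_num {ν : ℝ} {N n₀ q D : ℕ} (hν : 0 < ν) (hν4 : ν ≤ 1 / 4)
    (hNB : ∀ i : ℕ, i ≤ 2 * D + 7999 → 1 ≤ ν ^ i * (N : ℝ)) {CS Cq C2 C3 e₀ h₀ δ ε w h u Eu A Cw Z : ℝ}
    (hCS : 0 ≤ CS) (hCq : 0 < Cq) (hC3 : 0 < C3)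
    (hsm : ∀ C : ℝ, 0 ≤ C → C ≤ C2 ^ 2 + 2 + Cq + 12 * C3 * Cq + 8 * C3 + 96 * Cq * (CS + 1) +
      24 * Cq * (CS + 4) + 32 * (2 * CS + 1) → C * ν ≤ 1 ∧ C * ν ≤ e₀ ∧ C * ν ≤ h₀)
    (hu : u = 1 / ν) (hEue : Eu = u ^ (2 * D + 3800)) (hδe : δ = ν ^ 1900) (hεe : ε = (2 * CS + 1) * δ)
    (hwe : w = ν ^ 1800) (hhe : h = h₀ / ν ^ 45) (hAe : A = u ^ 88) (hCwe : Cw = CS * u ^ 704)
    (hn₀u : (n₀ : ℝ) + 1 ≤ (C2 ^ 2 + 2) * Eu) (hq2 : (q : ℝ) ≤ Cq * u ^ 659) (hZ : Z ≤ C3 * Eu) :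
    n₀ ≤ N ∧ q ≤ N ∧ ε * (48 * q) ≤ e₀ * ν ^ 397 ∧ w * (3 * A + Cw + 1) * (12 * q) ≤ e₀ * ν ^ 397 ∧
      Z * (12 * q) ≤ e₀ * ν ^ 397 * N ∧ 4 * ε * N ≤ w * h * N / 8 ∧ Z ≤ w * h * N / 8 := by
  have hν1 : ν ≤ 1 := hν4.trans (by norm_num)
  have hu0 : 0 < u := by rw [hu]; positivity
  have hu1 : 1 ≤ u := by rw [hu, le_div_iff₀ hν]; linarith
  have hup' : ∀ i j : ℕ, i ≤ j → u ^ i ≤ u ^ j := fun i j h => pow_le_pow_right₀ hu1 h
  have huν : ∀ i : ℕ, ν ^ i * u ^ i = 1 := fun i => by rw [hu, ← mul_pow]; field_simp; rw [one_pow]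
  have hε : 0 ≤ ε := by rw [hεe, hδe]; positivity
  have hw : 0 < w := by rw [hwe]; positivity
  have hA : 0 ≤ A := by rw [hAe]; positivity
  have hCw : 0 ≤ Cw := by rw [hCwe]; positivity
  have hEu1 : 1 ≤ Eu := by rw [hEue]; exact one_le_pow₀ hu1
  have hEN : Eu ≤ ν ^ 4199 * N := by
    have h1 : 1 * Eu ≤ ν ^ (4199 + (2 * D + 3800)) * N * Eu :=
      mul_le_mul_of_nonneg_right (hNB _ (by omega)) (by linarith)
    have h2 : ν ^ (4199 + (2 * D + 3800)) * (N : ℝ) * Eu = ν ^ 4199 * N * (ν ^ (2 * D + 3800) * Eu) := by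
      rw [pow_add]; ring
    rw [h2, hEue, huν, mul_one, one_mul, ← hEue] at h1
    exact h1
  have hn0N : n₀ ≤ N := by
    have h1 := mul_le_mul_of_nonneg_left hEN (show 0 ≤ C2 ^ 2 + 2 by positivity)
    have h2 := pow_small (show 0 ≤ C2 ^ 2 + 2 by positivity) hν hν1
      (hsm (C2 ^ 2 + 2) (by positivity) (by linarith [mul_pos hC3 hCq, mul_nonneg hCq.le hCS])).1
      (show 0 + 1 ≤ 4199 by norm_num)
    have h3 := mul_le_mul_of_nonneg_right h2 (Nat.cast_nonneg (α := ℝ) N)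
    have h4 : (n₀ : ℝ) ≤ N := by linarith
    exact_mod_cast h4
  have hqN : q ≤ N := by
    have h1 := mul_le_mul_of_nonneg_left (hNB 660 (by omega)) (show 0 ≤ Cq * u ^ 659 by positivity)
    have h2 : Cq * u ^ 659 * (ν ^ 660 * N) = Cq * ν * N * (ν ^ 659 * u ^ 659) := by ring
    rw [h2, huν, mul_one, mul_one] at h1
    have h3 := mul_le_mul_of_nonneg_right
      (hsm Cq hCq.le (by linarith [mul_pos hC3 hCq, mul_nonneg hCq.le hCS, sq_nonneg C2])).1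
      (Nat.cast_nonneg (α := ℝ) N)
    have h4 : (q : ℝ) ≤ N := by linarith
    exact_mod_cast h4
  have hεq : ε * (48 * q) ≤ e₀ * ν ^ 397 := by
    have h1 := mul_le_mul_of_nonneg_left hq2 (show 0 ≤ ε * 48 by positivity)
    have h2 : ε * 48 * (Cq * u ^ 659) = 48 * (2 * CS + 1) * Cq * ν ^ 1241 * (ν ^ 659 * u ^ 659) := by
      rw [hεe, hδe]; ring
    rw [h2, huν, mul_one] at h1
    have h3 := pow_small (show 0 ≤ 48 * (2 * CS + 1) * Cq by positivity) hν hν1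
      (hsm _ (by positivity) (by linarith [mul_pos hC3 hCq, mul_nonneg hCq.le hCS, sq_nonneg C2])).2.1
      (show 397 + 1 ≤ 1241 by norm_num)
    linarith
  have hwA : w * (3 * A + Cw + 1) * (12 * q) ≤ e₀ * ν ^ 397 := by
    have h1 : 3 * A + Cw + 1 ≤ (CS + 4) * u ^ 704 := by
      have a := hup' 88 704 (by norm_num)
      have b : 1 ≤ u ^ 704 := one_le_pow₀ hu1
      rw [hAe, hCwe]
      linarith
    have h2 := mul_le_mul (mul_le_mul_of_nonneg_left h1 hw.le)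
      (mul_le_mul_of_nonneg_left hq2 (show (0:ℝ) ≤ 12 by norm_num)) (by positivity) (by positivity)
    have h3 : w * ((CS + 4) * u ^ 704) * (12 * (Cq * u ^ 659)) =
        12 * Cq * (CS + 4) * ν ^ 437 * (ν ^ 1363 * u ^ 1363) := by
      rw [hwe]; ring
    rw [h3, huν, mul_one] at h2
    have h4 := pow_small (show 0 ≤ 12 * Cq * (CS + 4) by positivity) hν hν1
      (hsm _ (by positivity) (by linarith [mul_pos hC3 hCq, mul_nonneg hCq.le hCS, sq_nonneg C2])).2.1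
      (show 397 + 1 ≤ 437 by norm_num)
    linarith
  have hZN : Z * (12 * q) ≤ e₀ * ν ^ 397 * N := by
    have h0 : Z ≤ C3 * (ν ^ 4199 * N) := hZ.trans (mul_le_mul_of_nonneg_left hEN hC3.le)
    have h1 := mul_le_mul h0 (mul_le_mul_of_nonneg_left hq2 (show (0:ℝ) ≤ 12 by norm_num)) (by positivity)
      (mul_nonneg hC3.le (mul_nonneg (pow_nonneg hν.le _) (Nat.cast_nonneg _)))
    have h2 : C3 * (ν ^ 4199 * (N:ℝ)) * (12 * (Cq * u ^ 659)) =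
        12 * C3 * Cq * ν ^ 3540 * N * (ν ^ 659 * u ^ 659) := by ring
    rw [h2, huν, mul_one] at h1
    have h3 := pow_small (show 0 ≤ 12 * C3 * Cq by positivity) hν hν1
      (hsm _ (by positivity) (by linarith [mul_pos hC3 hCq, mul_nonneg hCq.le hCS, sq_nonneg C2])).2.1
      (show 397 + 1 ≤ 3540 by norm_num)
    have h4 := mul_le_mul_of_nonneg_right h3 (Nat.cast_nonneg (α := ℝ) N)
    linarith
  have e1 : 4 * ε * N ≤ w * h * N / 8 := by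
    have h1 := pow_small (show 0 ≤ 32 * (2 * CS + 1) by positivity) hν hν1
      (hsm _ (by positivity) (by linarith [mul_pos hC3 hCq, mul_nonneg hCq.le hCS, sq_nonneg C2])).2.2
      (show 1755 + 1 ≤ 1900 by norm_num)
    have h2 : w * h = h₀ * ν ^ 1755 := by rw [hwe, hhe]; field_simp
    have h3 := mul_le_mul_of_nonneg_right h1 (Nat.cast_nonneg (α := ℝ) N)
    rw [h2, hεe, hδe]
    linarith
  have e2 : Z ≤ w * h * N / 8 := by
    have h1 := pow_small (show 0 ≤ 8 * C3 by positivity) hν hν1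
      (hsm _ (by positivity) (by linarith [mul_pos hC3 hCq, mul_nonneg hCq.le hCS, sq_nonneg C2])).2.2
      (show 1755 + 1 ≤ 4199 by norm_num)
    have h2 : w * h = h₀ * ν ^ 1755 := by rw [hwe, hhe]; field_simp
    have h3 := mul_le_mul_of_nonneg_right h1 (Nat.cast_nonneg (α := ℝ) N)
    have h4 := mul_le_mul_of_nonneg_left hEN hC3.le
    rw [h2]
    linarith
  exact ⟨hn0N, hqN, hεq, hwA, hZN, e1, e2⟩

/-- the size of the errors at a size in the window -/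
lemma scale_err {ν : ℝ} {N k : ℕ} (hν : 0 < ν) (hν4 : ν ≤ 1 / 4) (hN : 1 ≤ ν ^ 1400 * (N : ℝ))
    (hk : (N : ℝ) ≤ k) :
    ν ^ 1900 + ν ^ 1800 + 1 / √(((k + 1 : ℕ) : ℝ)) ≤ ν ^ 665 := by
  have hν1 : ν ≤ 1 := hν4.trans (by norm_num)
  have h1 : 1 / √(((k + 1 : ℕ) : ℝ)) ≤ ν ^ 700 := by
    rw [div_le_iff₀ (by positivity), ← div_le_iff₀' (by positivity)]
    refine Real.le_sqrt_of_sq_le ?_
    rw [div_pow, one_pow, ← pow_mul, div_le_iff₀ (by positivity)]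
    push_cast
    have h2 := mul_le_mul_of_nonneg_right hk (show 0 ≤ ν ^ 1400 by positivity)
    linarith [pow_pos hν 1400]
  have a : ∀ i : ℕ, 666 ≤ i → 4 * ν ^ i ≤ 1 * ν ^ 665 := fun i hi =>
    pow_small (by norm_num) hν hν1 (by linarith) hi
  linarith [a 1900 (by norm_num), a 1800 (by norm_num), a 700 (by norm_num), pow_pos hν 665]

/-- **the drop grows polynomially** in `1/ν` once the size is polynomially large -/
lemma drop_low : ∃ B : ℕ, 8000 ≤ B ∧ ∀ β : ℝ, 1 < β → ∃ h₀ ν₀ : ℝ, 0 < h₀ ∧ 0 < ν₀ ∧ ν₀ ≤ 1 / 4 ∧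
    ∀ (ν : ℝ) (N : ℕ), 0 < ν → ν ≤ ν₀ → 1 ≤ ν ^ B * ((N : ℝ) + 1) →
      h₀ / ν ^ 45 * ν ^ 1800 * ((N : ℝ) + 1) ≤ drop (N + 1) β (ν ^ 44) (ν ^ 1800) := by
  obtain ⟨CG, kG, hCG, hgood⟩ := exists_good_poly
  obtain ⟨D, hD⟩ : ∃ D, D = kG * (1900 * kG + 2076) := ⟨_, rfl⟩
  refine ⟨2 * D + 8000, by omega, fun β hβ1 => ?_⟩
  have hβ : 0 ≤ β := by linarith
  obtain ⟨h₀, e₀, ν₁, hh₀, he₀, hν₁, hν₁4, hdiag⟩ := diag_low hβ1
  obtain ⟨CS, hCS, hsite⟩ := site_of hβ (energy_close hβ)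
  obtain ⟨CP, hCP, hplain⟩ := plain_size hβ
  set I := sInf (skValues β) with hI
  obtain ⟨Cq, hCqe⟩ : ∃ x, x = 4 * CS / h₀ + 2 := ⟨_, rfl⟩
  have hCq : 0 < Cq := by rw [hCqe]; positivity
  obtain ⟨C1, hC1e⟩ : ∃ x, x = 1 / e₀ + 1 + CG := ⟨_, rfl⟩
  have hC1 : 0 < C1 := by rw [hC1e]; positivity
  obtain ⟨C2, hC2e⟩ : ∃ x, x = CG * C1 ^ kG := ⟨_, rfl⟩
  have hC2 : 0 < C2 := by rw [hC2e]; positivity
  obtain ⟨C3, hC3e⟩ : ∃ x, x = CP * (C2 ^ 2 + 2) + C2 + (C2 ^ 2 + 2) * (|I| + (2 * CS + 1)) + |I| +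
      (2 * CS + 1) + 5 * C2 + 2 := ⟨_, rfl⟩
  have hC3 : 0 < C3 := by rw [hC3e]; positivity
  obtain ⟨Cmax, hCmaxe⟩ : ∃ x, x = C2 ^ 2 + 2 + Cq + 12 * C3 * Cq + 8 * C3 + 96 * Cq * (CS + 1) +
      24 * Cq * (CS + 4) + 32 * (2 * CS + 1) := ⟨_, rfl⟩
  have hCmax : 0 < Cmax := by rw [hCmaxe]; positivity
  refine ⟨h₀ / 8, min ν₁ (min (1 / 4) (min (1 / Cmax) (min (e₀ / Cmax) (h₀ / Cmax)))), by positivity,
    lt_min hν₁ (lt_min (by norm_num) (lt_min (by positivity) (lt_min (by positivity) (by positivity)))),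
    (min_le_right _ _).trans (min_le_left _ _), fun ν N hν hν₀ hN => ?_⟩
  have hνa : ν ≤ ν₁ := hν₀.trans (min_le_left _ _)
  have hν4 : ν ≤ 1 / 4 := hν₀.trans ((min_le_right _ _).trans (min_le_left _ _))
  have hν1 : ν ≤ 1 := hν4.trans (by norm_num)
  have hp : ∀ i : ℕ, 1 ≤ i → ν ^ i ≤ ν := fun i hi =>
    (pow_le_pow_of_le_one hν.le hν1 hi).trans_eq (pow_one ν)
  have hsm : ∀ C : ℝ, 0 ≤ C → C ≤ Cmax → C * ν ≤ 1 ∧ C * ν ≤ e₀ ∧ C * ν ≤ h₀ := fun C hC hC' => by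
    have b := mul_le_mul_of_nonneg_right hC' hν.le
    have h1 := hν₀.trans ((min_le_right _ _).trans ((min_le_right _ _).trans (min_le_left _ _)))
    have h2 := hν₀.trans
      ((min_le_right _ _).trans ((min_le_right _ _).trans ((min_le_right _ _).trans (min_le_left _ _))))
    have h3 := hν₀.trans
      ((min_le_right _ _).trans ((min_le_right _ _).trans ((min_le_right _ _).trans (min_le_right _ _))))
    rw [le_div_iff₀ hCmax] at h1 h2 h3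
    refine ⟨?_, ?_, ?_⟩ <;> linarith
  have hN2 : (1:ℝ) ≤ N := by
    have h := mul_le_mul_of_nonneg_right (hp (2 * D + 8000) (by omega)) (show (0:ℝ) ≤ N + 1 by positivity)
    have h2 := mul_le_mul_of_nonneg_right hν4 (show (0:ℝ) ≤ N + 1 by positivity)
    linarith
  have hNB : ∀ i : ℕ, i ≤ 2 * D + 7999 → 1 ≤ ν ^ i * (N : ℝ) := fun i hi => by
    have h1 : ν ^ (2 * D + 8000) * ((N : ℝ) + 1) ≤ ν ^ (i + 1) * (2 * N) :=
      mul_le_mul (pow_le_pow_of_le_one hν.le hν1 (by omega)) (by linarith) (by positivity) (by positivity)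
    have h2 : ν ^ (i + 1) * (2 * (N:ℝ)) ≤ ν ^ i * N := by
      rw [pow_succ, mul_assoc]
      refine mul_le_mul_of_nonneg_left ?_ (by positivity)
      rw [← mul_assoc]
      exact mul_le_of_le_one_left (Nat.cast_nonneg _) (by linarith)
    linarith
  obtain ⟨δ, hδe⟩ : ∃ x, x = ν ^ 1900 := ⟨_, rfl⟩
  have hδ : 0 < δ := by rw [hδe]; positivity
  have hδ1 : δ ≤ 1 := by rw [hδe]; exact pow_le_one₀ hν.le hν1
  obtain ⟨P, hPR, hgoodP, hPRle, hPcap⟩ := hgood δ hδ hδ1 ⌈1 / (e₀ * ν ^ 176)⌉₊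
  have hR : 1 / (e₀ * ν ^ 176) ≤ (P.R : ℝ) := (Nat.le_ceil _).trans (Nat.cast_le.2 hPR)
  obtain ⟨u, hu⟩ : ∃ x, x = 1 / ν := ⟨_, rfl⟩
  have hu0 : 0 < u := by rw [hu]; positivity
  have hu1 : 1 ≤ u := by rw [hu, le_div_iff₀ hν]; linarith
  have hup' : ∀ i j : ℕ, i ≤ j → u ^ i ≤ u ^ j := fun i j h => pow_le_pow_right₀ hu1 h
  have huν : ∀ i : ℕ, ν ^ i * u ^ i = 1 := fun i => by rw [hu, ← mul_pow]; field_simp; rw [one_pow]
  have hdu : ∀ i : ℕ, 1 / ν ^ i = u ^ i := fun i => by rw [hu, div_pow, one_pow]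
  have hRu : (P.R : ℝ) ≤ C1 * u ^ (1900 * kG + 176) := by
    refine hPRle.trans ?_
    have h1 : (⌈1 / (e₀ * ν ^ 176)⌉₊ : ℝ) ≤ (1 / e₀ + 1) * u ^ (1900 * kG + 176) := by
      refine (Nat.ceil_lt_add_one (by positivity)).le.trans ?_
      have e : 1 / (e₀ * ν ^ 176) = 1 / e₀ * u ^ 176 := by rw [← hdu]; field_simp
      have a := mul_le_mul_of_nonneg_left (hup' 176 (1900 * kG + 176) (by omega))
        (show 0 ≤ 1 / e₀ by positivity)
      have b : 1 ≤ u ^ (1900 * kG + 176) := one_le_pow₀ hu1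
      linarith
    have h2 : CG / δ ^ kG ≤ CG * u ^ (1900 * kG + 176) := by
      rw [hδe, ← pow_mul, div_eq_mul_one_div, hdu]
      exact mul_le_mul_of_nonneg_left (hup' _ _ (by omega)) hCG.le
    rw [hC1e]
    linarith
  have hcapu : P.cap + pc P ≤ C2 * u ^ D := by
    refine hPcap.trans ?_
    rw [hC2e, mul_assoc]
    refine mul_le_mul_of_nonneg_left ?_ hCG.le
    calc ((P.R : ℝ) / δ) ^ kG ≤ (C1 * u ^ (1900 * kG + 176) * u ^ 1900) ^ kG := by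
          refine pow_le_pow_left₀ (by positivity) ?_ kG
          rw [hδe, div_eq_mul_one_div, hdu]
          exact mul_le_mul_of_nonneg_right hRu (by positivity)
      _ = C1 ^ kG * u ^ D := by
          rw [mul_assoc, ← pow_add, mul_pow, ← pow_mul, hD]
          congr 2
          ring
  have hc0 : 0 ≤ P.cap := cap_nonneg P
  have hpc : 1 ≤ pc P := le_add_of_nonneg_right (by positivity)
  obtain ⟨Eu, hEue⟩ : ∃ x, x = u ^ (2 * D + 3800) := ⟨_, rfl⟩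
  have hEu1 : 1 ≤ Eu := by rw [hEue]; exact one_le_pow₀ hu1
  have hpu : P.cap ≤ C2 * Eu := by
    have h1 : u ^ D ≤ Eu := hEue ▸ hup' _ _ (by omega)
    have := mul_le_mul_of_nonneg_left h1 hC2.le
    linarith
  obtain ⟨n₀, hn₀e⟩ : ∃ x, x = ⌈(pc P / δ) ^ 2⌉₊ := ⟨_, rfl⟩
  have hn₀u : (n₀ : ℝ) + 1 ≤ (C2 ^ 2 + 2) * Eu := by
    have h1 : (pc P / δ) ^ 2 ≤ C2 ^ 2 * Eu := by
      calc (pc P / δ) ^ 2 ≤ (C2 * u ^ D * u ^ 1900) ^ 2 := by
            refine pow_le_pow_left₀ (by positivity) ?_ 2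
            rw [hδe, div_eq_mul_one_div, hdu]
            exact mul_le_mul_of_nonneg_right (by linarith) (by positivity)
        _ = C2 ^ 2 * Eu := by
            rw [hEue, mul_assoc, ← pow_add, mul_pow, ← pow_mul, show (D + 1900) * 2 = 2 * D + 3800 by ring]
    have h2 := Nat.ceil_lt_add_one (show 0 ≤ (pc P / δ) ^ 2 by positivity)
    rw [← hn₀e] at h2
    linarith
  obtain ⟨ε, hεe⟩ : ∃ x, x = (2 * CS + 1) * δ := ⟨_, rfl⟩
  have hε : 0 < ε := by rw [hεe]; positivity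
  have hε1 : ε ≤ 2 * CS + 1 := by rw [hεe]; exact mul_le_of_le_one_right (by positivity) hδ1
  obtain ⟨w, hwe⟩ : ∃ x, x = ν ^ 1800 := ⟨_, rfl⟩
  have hw : 0 < w := by rw [hwe]; positivity
  have hw1 : w ≤ 1 := by rw [hwe]; exact pow_le_one₀ hν.le hν1
  have hs4 : ν ^ 44 ≤ 1 / 4 := (hp 44 (by norm_num)).trans hν4
  obtain ⟨hka, -, hk⟩ := kap_bounds (show (0:ℝ) < ν ^ 44 by positivity) hs4
  obtain ⟨A, hAe⟩ : ∃ x, x = u ^ 88 := ⟨_, rfl⟩
  have hA : 0 ≤ A := by rw [hAe]; positivity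
  have hAk : ∀ m : ℕ, (m : ℝ) / kap (ν ^ 44) ≤ m * A := fun m => by
    rw [div_eq_mul_one_div]
    refine mul_le_mul_of_nonneg_left ?_ (Nat.cast_nonneg _)
    refine (one_div_le_one_div_of_le (by positivity) hka).trans_eq ?_
    rw [hAe, ← hdu, ← pow_mul]
  obtain ⟨Cw, hCwe⟩ : ∃ x, x = CS * u ^ 704 := ⟨_, rfl⟩
  have hCw : 0 ≤ Cw := by rw [hCwe]; positivity
  obtain ⟨q, hqe⟩ : ∃ x, x = ⌈4 * CS / h₀ * u ^ 659⌉₊ + 1 := ⟨_, rfl⟩
  have hq : 0 < q := by omega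
  have hqR : (0:ℝ) < q := Nat.cast_pos.2 hq
  have hq1 : 4 * CS / h₀ * u ^ 659 ≤ q := by
    rw [hqe]; push_cast
    linarith [Nat.le_ceil (4 * CS / h₀ * u ^ 659)]
  have hq2 : (q : ℝ) ≤ Cq * u ^ 659 := by
    rw [hqe, hCqe]; push_cast
    have := Nat.ceil_lt_add_one (show 0 ≤ 4 * CS / h₀ * u ^ 659 by positivity)
    have : 1 ≤ u ^ 659 := one_le_pow₀ hu1
    linarith
  obtain ⟨h, hhe⟩ : ∃ x, x = h₀ / ν ^ 45 := ⟨_, rfl⟩
  have hh : 0 < h := by rw [hhe]; positivity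
  have hCwq : Cw / q ≤ h / 4 := by
    rw [div_le_iff₀ hqR]
    refine le_trans ?_ (mul_le_mul_of_nonneg_left hq1 (by positivity))
    rw [hCwe, hhe, div_eq_mul_one_div h₀, hdu, show 704 = 45 + 659 by rfl, pow_add]
    exact le_of_eq (by field_simp)
  set f0 : ℕ → ℝ := fun k => free P (k + 1) β (ν ^ 44) 0 with hf0
  set fw : ℕ → ℝ := fun k => free P (k + 1) β (ν ^ 44) (-w) with hfw
  set Mv : ℕ → ℝ := fun k => mean (n := k + 1) P β (ν ^ 44) (-w) 0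
    (fun _ w => Vsk β P.R (qlev P.R w (spinAt P.R))) with hMv
  have hlamw : |(-w)| = w := by rw [abs_neg, abs_of_pos hw]
  have hpck : ∀ k, n₀ ≤ k → pc P / √((k : ℝ) + 1) ≤ δ := fun k hk' => by
    rw [div_le_iff₀ (by positivity), ← div_le_iff₀' hδ]
    refine Real.le_sqrt_of_sq_le ?_
    have h1 := Nat.le_ceil ((pc P / δ) ^ 2)
    rw [← hn₀e] at h1
    have h2 : (n₀ : ℝ) ≤ k := Nat.cast_le.2 hk'
    linarith
  have hinc : ∀ (lam : ℝ), |lam| ≤ 1 → ∀ k, n₀ ≤ k →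
      mean (n := k + 1) P β (ν ^ 44) lam 0 (fun _ w => Vsk β P.R (qlev P.R w (spinAt P.R))) -
          (ε + Cw * |lam|) ≤
        free P (k + 2) β (ν ^ 44) lam - free P (k + 1) β (ν ^ 44) lam := fun lam hl k hk' => by
    refine le_trans ?_ (hsite P δ hδ.le hδ1 hgoodP k (ν ^ 44) lam (by positivity) hs4 hl)
    have h1 := mul_le_mul_of_nonneg_left (hpck k hk') hCS
    have h2 : CS * (|lam| / (ν ^ 44) ^ 16) = Cw * |lam| := by
      rw [hCwe, ← pow_mul, div_eq_mul_one_div, hdu]; ring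
    rw [hεe]
    linarith
  have iw : ∀ k, n₀ ≤ k → Mv k - (ε + Cw * w) ≤ fw (k + 1) - fw k := fun k hk' => by
    have := hinc (-w) (hlamw.trans_le hw1) k hk'
    rw [hlamw] at this
    exact this
  have i0 : ∀ k, n₀ ≤ k → I - ε ≤ f0 (k + 1) - f0 k := fun k hk' => by
    have := hinc 0 (by simp) k hk'
    rw [abs_zero, mul_zero, add_zero] at this
    have := inf_le_mean hβ P (k + 1) hk 0
    simp only [hf0]
    linarith
  have hclose' : ∀ (m : ℕ) [NeZero m] (lam : ℝ),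
      |free P m β (ν ^ 44) lam - ∫ g : Edge m → ℝ, log (partition β g / 2 ^ m) ∂gauss (Edge m)| ≤
        P.cap + |lam| * (m * A) := fun m _ lam =>
    (free_close P m β hk lam).trans (by gcongr; exact hAk m)
  obtain ⟨v, ⟨R, r, hR', hr, hr1, rfl⟩, hv⟩ :=
    exists_lt_of_csInf_lt (skValues_nonempty β) (show sInf (skValues β) < I + ε by linarith)
  have hup : ∀ k : ℕ, f0 k ≤ ((k : ℝ) + 1) * (I + ε) + P.cap := fun k => by
    have h1 := (abs_le.1 (hclose' (k + 1) 0)).2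
    have h2 := (sk_upper hβ hR' hr hr1 (Nat.le_add_left 1 k)).trans
      (mul_le_mul_of_nonneg_left hv.le (Nat.cast_nonneg _))
    rw [abs_zero, zero_mul, add_zero] at h1
    push_cast at h2
    simp only [hf0]
    linarith
  have hclose : ∀ k : ℕ, |fw k - f0 k| ≤ 2 * P.cap + w * (((k : ℝ) + 1) * A) := fun k => by
    have h1 := hclose' (k + 1) (-w)
    have h2 := hclose' (k + 1) 0
    rw [abs_zero, zero_mul, add_zero, abs_sub_comm] at h2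
    rw [hlamw] at h1
    push_cast at h1
    exact (abs_sub_le _ _ _).trans ((add_le_add h1 h2).trans_eq (by ring))
  obtain ⟨Z, hZe⟩ : ∃ Z, Z = |f0 n₀| + n₀ * |I - ε| + |I| + ε + 5 * P.cap + 2 * A * w := ⟨_, rfl⟩
  have hZ : Z ≤ C3 * Eu := by
    have a1 : |f0 n₀| ≤ P.cap + CP * (n₀ + 1) := by
      have h1 := hclose' (n₀ + 1) 0
      have h2 := hplain (n₀ + 1) (by omega)
      rw [abs_zero, zero_mul, add_zero] at h1
      push_cast at h2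
      have := abs_sub_abs_le_abs_sub (f0 n₀)
        (∫ g : Edge (n₀ + 1) → ℝ, log (partition β g / 2 ^ (n₀ + 1)) ∂gauss (Edge (n₀ + 1)))
      simp only [hf0] at this ⊢
      linarith
    have a2 : (n₀ : ℝ) * |I - ε| ≤ (C2 ^ 2 + 2) * Eu * (|I| + (2 * CS + 1)) :=
      mul_le_mul (by linarith) ((abs_sub I ε).trans (by rw [abs_of_pos hε]; linarith)) (abs_nonneg _)
        (by positivity)
    have a3 : A * w ≤ 1 := by
      rw [hAe, hwe, show 1800 = 88 + 1712 by rfl, pow_add, ← mul_assoc, mul_comm (u ^ 88), huν, one_mul]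
      exact pow_le_one₀ hν.le hν1
    have a4 := mul_le_mul_of_nonneg_left hn₀u hCP
    have a5 : |I| ≤ |I| * Eu := le_mul_of_one_le_right (abs_nonneg _) hEu1
    have a6 : 2 * CS + 1 ≤ (2 * CS + 1) * Eu := le_mul_of_one_le_right (by positivity) hEu1
    rw [hZe, hC3e]
    linarith
  obtain ⟨hn0N, hqN, hεq, hwA, hZN, e1, e2⟩ := scale_num (C2 := C2) hν hν4 hNB hCS hCq hC3
    (fun C hC hC' => hsm C hC (hC'.trans_eq hCmaxe.symm)) hu hEue hδe hεe hwe hhe hAe hCwe hn₀u hq2 hZ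
  have l0 := telescope i0 le_rfl N hn0N
  obtain ⟨k, hk', hMk⟩ := window_pick hq hqN hn0N hε.le hw.le hA hCw (by positivity) iw hup hclose l0 hZe.ge
    hεq hwA hZN
  obtain ⟨hk1, hk2⟩ := mem_Ico.1 hk'
  have hNk : (N : ℝ) ≤ k := Nat.cast_le.2 hk1
  have hsq : δ + |(-w)| + 1 / √(((k + 1 : ℕ) : ℝ)) ≤ ν ^ 665 := by
    rw [hlamw, hδe, hwe]
    exact scale_err hν hν4 (hNB 1400 (by omega)) hNk
  have hT : h ≤ diag P (k + 1) β (ν ^ 44) (-w) 0 :=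
    hhe ▸ hdiag ν hν hνa P δ hδ.le hgoodP hR (k + 1) (-w) hsq hMk
  have d1 := free_drop_ge P (k + 1) β hk hw.le
  have d2 := drop_ge_pert P (N + 1) β hk w
  have d3 : ((k : ℝ) - N) * (I - ε - Cw * w) ≤ fw k - fw N :=
    telescope (fun i hi => by
      have := iw i hi
      have : I ≤ Mv i := inf_le_mean hβ P (i + 1) hk (-w)
      linarith) hn0N k hk1
  push_cast at d1
  have hG := carry_back (G := drop (N + 1) β (ν ^ 44) w / w) hq hk1 hk2 hε.le hw.le hCw hA hh.le hT d3 hup l0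
    hZe.ge hc0 d1 (by rw [mul_div_cancel₀ _ hw.ne']; simp only [hf0, hfw]; linarith)
  rw [mul_div_cancel₀ _ hw.ne'] at hG
  have e3 := mul_le_mul_of_nonneg_left (mul_le_mul_of_nonneg_left hCwq (Nat.cast_nonneg (α := ℝ) N)) hw.le
  have e4 : h₀ / 8 / ν ^ 45 * w = h * w / 8 := by rw [hhe]; ring
  have e5 := mul_le_mul_of_nonneg_left (show (N:ℝ) + 1 ≤ 2 * N by linarith) (show 0 ≤ h * w / 8 by positivity)
  rw [hwe] at e4 e5 hG e1 e2 e3
  rw [e4]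
  linarith [show 0 ≤ ν ^ 1800 * h * N by positivity]

/-- no interval of length `M` carries more than `O(ν M + ν)` -/
lemma concentration_le : ∃ B : ℕ, 0 < B ∧ ∀ β : ℝ, 1 < β → ∃ C ν₀ : ℝ, 0 < C ∧ 0 < ν₀ ∧
    ∀ (ν : ℝ) (n : ℕ), 0 < ν → ν ≤ ν₀ → 1 ≤ n → 1 ≤ ν ^ B * (n : ℝ) → ∀ c M : ℝ, 0 < M →
      (gauss (Edge n)).real {g | |Vale.Agent.P146.free β g - c| ≤ M} ≤ C * (ν * M + ν) := by
  obtain ⟨B, hB, hdrop⟩ := drop_low
  refine ⟨B, by omega, fun β hβ1 => ?_⟩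
  obtain ⟨h₀, ν₀, hh₀, hν₀, hν₀4, hd⟩ := hdrop β hβ1
  obtain ⟨CA, hCA, hanti⟩ := anti_bound (show 0 ≤ β by linarith)
  refine ⟨4 * (CA + 1) / (β * h₀), ν₀, by positivity, hν₀, fun ν n hν hν1' hn hnB c M hM => ?_⟩
  obtain ⟨N, rfl⟩ : ∃ N, n = N + 1 := ⟨n - 1, by omega⟩
  have hν4 := hν1'.trans hν₀4
  have hν1 : ν ≤ 1 := hν4.trans (by norm_num)
  push_cast at hnB
  have hD := hd ν N hν hν1' hnB
  have ha := hanti (N + 1) hn (ν ^ 44) (ν ^ 1800) (by positivity)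
    ((pow_le_of_le_one hν.le hν1 (by norm_num)).trans hν4) (by positivity) (pow_le_one₀ hν.le hν1) c M hM
  push_cast at ha
  set Pr := (gauss (Edge (N + 1))).real {g | |Vale.Agent.P146.free β g - c| ≤ M}
  have hP : 0 ≤ Pr := measureReal_nonneg
  have hsq : ∀ i : ℕ, i ≤ 3000 → 1 ≤ ν ^ i * √((N : ℝ) + 1) := fun i hi => by
    have h2 : 1 ≤ (ν ^ i) ^ 2 * ((N : ℝ) + 1) := hnB.trans (mul_le_mul_of_nonneg_right
      ((pow_le_pow_of_le_one hν.le hν1 (show i * 2 ≤ B by omega)).trans_eq (pow_mul ν i 2)) (by positivity))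
    have := Real.one_le_sqrt.2 h2
    rwa [Real.sqrt_mul (by positivity), Real.sqrt_sq (by positivity)] at this
  have r1 : 1 / ((ν ^ 44) ^ 20 * √((N : ℝ) + 1)) ≤ 1 := by
    rw [← pow_mul, div_le_one (by positivity)]; exact hsq _ (by norm_num)
  have r2 : 1 / (ν ^ 1800 * (ν ^ 44) ^ 20 * √((N : ℝ) + 1)) ≤ 1 := by
    rw [← pow_mul, ← pow_add, div_le_one (by positivity)]; exact hsq _ (by norm_num)
  have h1 : β / 2 * (h₀ / ν ^ 45) * Pr ≤
      β / (2 * ((N : ℝ) + 1) * ν ^ 1800) * drop (N + 1) β (ν ^ 44) (ν ^ 1800) * Pr := by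
    refine mul_le_mul_of_nonneg_right ?_ hP
    refine le_trans (le_of_eq ?_) (mul_le_mul_of_nonneg_left hD (by positivity))
    field_simp
  have h2 : β / 2 * (h₀ / ν ^ 45) * Pr ≤ (CA + 1) * (2 * (M / ν ^ 44) + 2) := by
    refine (h1.trans ha).trans (mul_le_mul (by linarith) ?_ (by positivity) (by positivity))
    have := mul_le_mul_of_nonneg_left r1 (show 0 ≤ M / ν ^ 44 by positivity)
    linarith
  have h3 := mul_le_mul_of_nonneg_left h2 (show 0 ≤ 2 * ν ^ 45 by positivity)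
  have e1 : 2 * ν ^ 45 * (β / 2 * (h₀ / ν ^ 45) * Pr) = Pr * (β * h₀) := by field_simp
  have e2 : 2 * ν ^ 45 * ((CA + 1) * (2 * (M / ν ^ 44) + 2)) = 4 * (CA + 1) * (ν * M + ν ^ 45) := by
    field_simp; ring
  rw [e1, e2] at h3
  rw [div_mul_eq_mul_div, le_div_iff₀ (by positivity)]
  refine h3.trans (mul_le_mul_of_nonneg_left ?_ (by positivity))
  linarith [pow_le_of_le_one hν.le hν1 (show (45:ℕ) ≠ 0 by norm_num)]

/-- **Polynomial anticoncentration** of the free energy at every `β` above `1` -/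
theorem power_lower : ∃ δ : ℝ, 0 < δ ∧ ∀ β : ℝ, 1 < β → ∃ C : ℝ, 0 < C ∧ ∀ (n : ℕ), 1 ≤ n → ∀ c : ℝ,
    (gauss (Edge n)).real {g | |Vale.Agent.P146.free β g - c| ≤ (n : ℝ) ^ δ} ≤ C / (n : ℝ) ^ δ := by
  obtain ⟨B, hB, hmain⟩ := concentration_le
  refine ⟨1 / (2 * B), by positivity, fun β hβ => ?_⟩
  obtain ⟨C, ν₀, hC, hν₀, h⟩ := hmain β hβ
  refine ⟨max (2 * C) √(1 / ν₀), by positivity, fun n hn c => ?_⟩
  have hn0 : (0:ℝ) < n := Nat.cast_pos.2 hn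
  obtain ⟨t, ht⟩ : ∃ t, t = (n : ℝ) ^ (1 / (2 * (B : ℝ))) := ⟨_, rfl⟩
  have ht0 : 0 < t := by rw [ht]; positivity
  have ht1 : 1 ≤ t := by rw [ht]; exact Real.one_le_rpow (Nat.one_le_cast.2 hn) (by positivity)
  have htB : (1 / t ^ 2) ^ B * (n : ℝ) = 1 := by
    rw [one_div, inv_pow, ← pow_mul, ht, ← Real.rpow_mul_natCast hn0.le]
    push_cast
    rw [show 1 / (2 * (B : ℝ)) * (2 * B) = 1 by field_simp, Real.rpow_one, inv_mul_cancel₀ hn0.ne']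
  rw [← ht, le_div_iff₀ ht0]
  rcases le_or_gt (1 / t ^ 2) ν₀ with hs | hs
  · have := h (1 / t ^ 2) n (by positivity) hs hn htB.ge c t ht0
    refine le_trans ?_ (le_max_left _ _)
    calc _ ≤ C * (1 / t ^ 2 * t + 1 / t ^ 2) * t := mul_le_mul_of_nonneg_right this ht0.le
      _ = C * (1 + 1 / t) := by field_simp
      _ ≤ 2 * C := by
          have : 1 / t ≤ 1 := by rw [div_le_one ht0]; exact ht1
          linarith [mul_le_mul_of_nonneg_left this hC.le]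
  · refine le_trans ?_ (le_max_right _ _)
    refine le_trans (mul_le_of_le_one_left ht0.le measureReal_le_one) (Real.le_sqrt_of_sq_le ?_)
    rw [lt_div_iff₀ (by positivity)] at hs
    rw [le_div_iff₀ hν₀]
    linarith

end Vale.Agent.P146.Lower.Res
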