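import Vale.Agent.P146.Lower.Res.Smooth
import Vale.Agent.P146.Lower.Drop

/-! P146, polynomial lower bound: the normalised trace of the resolvent is close to `1 / ζ`. -/

open MeasureTheory Finset Real Matrix
open Vale.Agent.P150 (gauss)

noncomputable section

namespace Vale.Agent.P146.Lower.Res

variable {n : ℕ}

/-- derivative of the normalised trace -/
def dtau (s : ℝ) (g : Edge n → ℝ) (e : Edge n) : ℂ :=
  ((Gc s g * Gc s g) e.1.2 e.1.1 + (Gc s g * Gc s g) e.1.1 e.1.2) / ((√(n : ℝ) : ℝ) : ℂ) / n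

section

variable {s : ℝ} (hs : 0 < kap s)
include hs

lemma hasDerivAt_tauC (g : Edge n → ℝ) (e : Edge n) :
    HasDerivAt (fun t => tauC s (Function.update g e t)) (dtau s g e) (g e) := by
  have h := (HasDerivAt.fun_sum (u := univ) fun a _ => hasDerivAt_Gc hs g e a a).div_const (n : ℂ)
  refine h.congr_deriv ?_
  rw [dtau, ← sum_div]
  congr 2
  rw [Matrix.mul_apply, Matrix.mul_apply, ← sum_add_distrib]
  refine sum_congr rfl fun a _ => ?_
  rw [Ee_sandwich]
  ring

lemma differentiable_tauC : Differentiable ℝ fun g : Edge n → ℝ => tauC s g := by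
  simp only [tauC, Matrix.trace, Matrix.diag_apply, div_eq_mul_inv]
  exact (Differentiable.fun_sum fun a _ => differentiable_Gc hs a a).mul_const _

lemma sum_dtau_sq_le (g : Edge n → ℝ) :
    ∑ e, ‖dtau s g e‖ ^ 2 ≤ 2 / ((n : ℝ) ^ 2 * kap s ^ 4) := by
  rcases Nat.eq_zero_or_pos n with rfl | hn
  · simp
  have hn' : (0 : ℝ) < n := Nat.cast_pos.2 hn
  set f : Fin n → Fin n → ℝ := fun a b => ‖(Gc s g * Gc s g) a b‖ ^ 2 + ‖(Gc s g * Gc s g) b a‖ ^ 2 with hf
  have h2 := Test.two_sum_edge_le f (fun a b => add_comm _ _) fun a => by positivity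
  have hsum : ∑ a, ∑ b, f a b ≤ 2 * (n / kap s ^ 4) := by
    simp only [hf, sum_add_distrib]
    rw [sum_comm (f := fun a b => ‖(Gc s g * Gc s g) b a‖ ^ 2)]
    linarith [sum_sq_sq_le hs g]
  have h1 : ∀ e : Edge n, ‖dtau s g e‖ ^ 2 ≤ 2 * f e.1.1 e.1.2 / ((n : ℝ) ^ 2 * n) := fun e => by
    rw [dtau, norm_div, norm_div, Complex.norm_real, Complex.norm_natCast, Real.norm_eq_abs,
      abs_of_nonneg (Real.sqrt_nonneg _), div_pow, div_pow, Real.sq_sqrt hn'.le, div_div, mul_comm (n : ℝ)]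
    refine div_le_div_of_nonneg_right ?_ (by positivity)
    refine (pow_le_pow_left₀ (norm_nonneg _) (norm_add_le _ _) 2).trans (add_sq_le.trans_eq ?_)
    simp only [hf]; ring
  refine (sum_le_sum fun e _ => h1 e).trans ?_
  rw [← sum_div, ← mul_sum]
  refine (div_le_div_of_nonneg_right (h2.trans hsum) (by positivity)).trans_eq ?_
  field_simp

lemma eb_tauC_part {L : ℂ → ℝ} (hL : Continuous L) (hb : ∀ x, |L x| ≤ ‖x‖) :
    EB fun g : Edge n → ℝ => L (tauC s g) := by
  refine EB.of_le (EB.const (1 / kap s)) (hL.comp (differentiable_tauC hs).continuous) fun g => (hb _).trans ?_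
  rw [tauC, norm_div, Complex.norm_natCast]
  refine div_le_of_le_mul₀ (Nat.cast_nonneg _) (by positivity) ?_
  refine (norm_sum_le _ _).trans ((sum_le_sum fun a _ => norm_Gc hs g a a).trans_eq ?_)
  simp [mul_comm]

lemma eb_dtau_part (e : Edge n) {L : ℂ → ℝ} (hL : Continuous L) (hb : ∀ x, |L x| ≤ ‖x‖) :
    EB fun g : Edge n → ℝ => L (dtau s g e) := by
  refine EB.of_le (EB.const (√(2 / ((n : ℝ) ^ 2 * kap s ^ 4)))) ?_ fun g => (hb _).trans ?_
  · refine hL.comp ?_
    simp only [dtau, Matrix.mul_apply]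
    exact ((continuous_finsetSum _ fun i _ => (continuous_Gc hs _ i).mul (continuous_Gc hs i _)).add
      (continuous_finsetSum _ fun i _ => (continuous_Gc hs _ i).mul (continuous_Gc hs i _))).div_const _
        |>.div_const _
  · exact Real.le_sqrt_of_sq_le
      ((single_le_sum (f := fun e => ‖dtau s g e‖ ^ 2) (fun _ _ => sq_nonneg _) (mem_univ e)).trans
        (sum_dtau_sq_le hs g))

omit hs in
lemma eb_re_cmul {F : (Edge n → ℝ) → ℂ} (c : ℂ) (hr : EB fun g => (F g).re) (hi : EB fun g => (F g).im) :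
    EB fun g => (c * F g).re := by
  simp only [Complex.mul_re]
  exact ((EB.const _).mul hr).sub ((EB.const _).mul hi)

/-- Gaussian Poincaré for a real part of the trace -/
lemma var_tauC_part (L : ℂ →L[ℝ] ℝ) (hb : ∀ x, |L x| ≤ ‖x‖) :
    ∫ g, (L (tauC s g) - ∫ z, L (tauC s z) ∂gauss (Edge n)) ^ 2 ∂gauss (Edge n) ≤
      2 / ((n : ℝ) ^ 2 * kap s ^ 4) := by
  refine (poincare_eb (f' := fun g e => L (dtau s g e)) (eb_tauC_part hs L.continuous hb)
    (fun e => eb_dtau_part hs e L.continuous hb) (L.differentiable.comp (differentiable_tauC hs))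
    fun g e => L.hasFDerivAt.comp_hasDerivAt (g e) (hasDerivAt_tauC hs g e)).trans ?_
  refine (integral_mono (EB.sum univ fun e _ => by
    simpa only [sq] using (eb_dtau_part hs e L.continuous hb).mul (eb_dtau_part hs e L.continuous hb)).integrable
    (integrable_const _) fun g => (sum_le_sum fun e _ => ?_).trans (sum_dtau_sq_le hs g)).trans_eq (by simp)
  rw [← sq_abs (L _)]
  exact pow_le_pow_left₀ (abs_nonneg _) (hb _) 2

/-- mean of the normalised trace -/
def mtau (s : ℝ) (n : ℕ) : ℂ :=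
  ⟨∫ g : Edge n → ℝ, (tauC s g).re ∂gauss (Edge n), ∫ g : Edge n → ℝ, (tauC s g).im ∂gauss (Edge n)⟩

lemma mtau_im_nonpos : (mtau s n).im ≤ 0 := by
  refine integral_nonpos fun g => ?_
  rw [tauC, Complex.div_natCast_im, Matrix.trace, Complex.im_sum]
  exact div_nonpos_of_nonpos_of_nonneg (sum_nonpos fun a _ => im_diag_nonpos hs g a) (Nat.cast_nonneg _)

lemma integral_re_cmul (c : ℂ) :
    ∫ g, (c * tauC s g).re ∂gauss (Edge n) = (c * mtau s n).re := by
  simp only [Complex.mul_re, mtau]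
  rw [integral_sub ((eb_re_tauC hs).integrable.const_mul _) ((eb_im_tauC hs).integrable.const_mul _),
    integral_const_mul, integral_const_mul]

lemma integral_sq_norm_sub_mtau :
    ∫ g, ‖tauC s g - mtau s n‖ ^ 2 ∂gauss (Edge n) ≤ 4 / ((n : ℝ) ^ 2 * kap s ^ 4) := by
  have e : ∀ g : Edge n → ℝ, ‖tauC s g - mtau s n‖ ^ 2 =
      ((tauC s g).re - (mtau s n).re) ^ 2 + ((tauC s g).im - (mtau s n).im) ^ 2 := fun g => by
    rw [Complex.sq_norm, Complex.normSq_apply, Complex.sub_re, Complex.sub_im]; ring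
  have i1 : EB fun g : Edge n → ℝ => ((tauC s g).re - (mtau s n).re) ^ 2 := by
    simpa only [sq] using ((eb_re_tauC hs).sub (EB.const _)).mul ((eb_re_tauC hs).sub (EB.const _))
  have i2 : EB fun g : Edge n → ℝ => ((tauC s g).im - (mtau s n).im) ^ 2 := by
    simpa only [sq] using ((eb_im_tauC hs).sub (EB.const _)).mul ((eb_im_tauC hs).sub (EB.const _))
  simp only [e]
  rw [integral_add i1.integrable i2.integrable]
  have h1 := var_tauC_part (n := n) hs Complex.reCLM Complex.abs_re_le_norm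
  have h2 := var_tauC_part (n := n) hs Complex.imCLM Complex.abs_im_le_norm
  simp only [Complex.reCLM_apply, Complex.imCLM_apply] at h1 h2
  calc _ ≤ 2 / ((n : ℝ) ^ 2 * kap s ^ 4) + 2 / ((n : ℝ) ^ 2 * kap s ^ 4) := add_le_add h1 h2
    _ = _ := by ring

omit hs in
/-- off-diagonal sums over pairs -/
lemma two_sum_edge_cmul (f : Fin n → Fin n → ℂ) (hf : ∀ a b, f a b = f b a) :
    2 * ∑ e : Edge n, f e.1.1 e.1.2 = (∑ a, ∑ b, f a b) - ∑ a, f a a := by
  apply Complex.ext
  · have h := Test.sum_pairs (fun a b => (f a b).re) fun a b => by rw [hf]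
    simp only [Complex.mul_re, Complex.sub_re, Complex.re_sum, Complex.re_ofNat, Complex.im_ofNat, zero_mul,
      sub_zero]
    linarith
  · have h := Test.sum_pairs (fun a b => (f a b).im) fun a b => by rw [hf]
    simp only [Complex.mul_im, Complex.sub_im, Complex.im_sum, Complex.re_ofNat, Complex.im_ofNat, zero_mul,
      add_zero]
    linarith

/-- the resolvent equation under the trace -/
lemma trace_eq (g : Edge n → ℝ) :
    2 * ∑ e : Edge n, (((g e / √(n : ℝ)) : ℝ) : ℂ) * Gc s g e.1.1 e.1.2 = zt s * (Gc s g).trace - n := by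
  have h := congrArg Matrix.trace (Gc_Am hs g)
  rw [Am, Matrix.mul_sub, Matrix.trace_sub, Matrix.mul_smul, mul_one, Matrix.trace_smul, smul_eq_mul,
    Matrix.trace_one, Fintype.card_fin] at h
  have h1 : (Gc s g * (Wm g).map Complex.ofReal).trace = zt s * (Gc s g).trace - n := by
    linear_combination -h
  rw [← h1]
  have h2 := two_sum_edge_cmul (fun a b => ((Wm g a b : ℝ) : ℂ) * Gc s g a b) fun a b => by
    rw [Wm_symm' g a b, Gc_symm hs g a b]
  have h3 : ∀ a : Fin n, ((Wm g a a : ℝ) : ℂ) = 0 := fun a => by simp [Wm, cpl]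
  simp only [h3, zero_mul, sum_const_zero, sub_zero] at h2
  have h4 : ∀ e : Edge n, Wm g e.1.1 e.1.2 = g e / √(n : ℝ) := fun e => by
    have := e.2
    simp [Wm, cpl, this]
  simp only [h4] at h2
  rw [h2, Matrix.trace]
  simp only [Matrix.diag_apply, Matrix.mul_apply, Matrix.map_apply]
  exact sum_congr rfl fun a _ => sum_congr rfl fun b _ => by rw [Wm_symm' g b a]; ring

lemma norm_pair_error (g : Edge n → ℝ) :
    ‖2 * (∑ e : Edge n, (Gc s g e.1.1 e.1.1 * Gc s g e.1.2 e.1.2 + Gc s g e.1.1 e.1.2 * Gc s g e.1.1 e.1.2)) -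
      (Gc s g).trace ^ 2‖ ≤ 3 * (n / kap s ^ 2) := by
  have h := two_sum_edge_cmul (fun a b => Gc s g a a * Gc s g b b + Gc s g a b * Gc s g a b) fun a b => by
    rw [Gc_symm hs g a b]; ring
  rw [h]
  simp only [sum_add_distrib, ← mul_sum, ← sum_mul]
  simp only [Matrix.trace, Matrix.diag_apply]
  rw [show ∀ T X Y : ℂ, T * T + X - (Y + Y) - T ^ 2 = X - (Y + Y) from fun T X Y => by ring]
  have hS := sum_sq_Gc_le hs g
  have h1 : ‖∑ a, ∑ b, Gc s g a b * Gc s g a b‖ ≤ n / kap s ^ 2 := by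
    refine ((norm_sum_le _ _).trans (sum_le_sum fun a _ => norm_sum_le _ _)).trans (le_of_eq_of_le ?_ hS)
    exact sum_congr rfl fun a _ => sum_congr rfl fun b _ => by rw [norm_mul, sq]
  have h2 : ‖∑ a, Gc s g a a * Gc s g a a‖ ≤ n / kap s ^ 2 := by
    refine (norm_sum_le _ _).trans (le_trans (sum_le_sum fun a _ => ?_) hS)
    rw [norm_mul, ← sq]
    exact single_le_sum (f := fun b => ‖Gc s g a b‖ ^ 2) (fun _ _ => sq_nonneg _) (mem_univ a)
  refine (norm_sub_le _ _).trans ?_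
  have := norm_add_le (∑ a, Gc s g a a * Gc s g a a) (∑ a, Gc s g a a * Gc s g a a)
  linarith

/-- Gaussian integration by parts in the resolvent equation -/
lemma mean_eq (hn : 1 ≤ n) :
    ‖zt s * mtau s n - 1 - mtau s n ^ 2‖ ≤ 3 / (n * kap s ^ 2) + 4 / ((n : ℝ) ^ 2 * kap s ^ 4) := by
  have hn0 : (0 : ℝ) < n := by exact_mod_cast hn
  set D := zt s * mtau s n - 1 - mtau s n ^ 2 with hD
  set c := (starRingEnd ℂ) D with hc
  set m := mtau s n with hm
  set B := 3 / (n * kap s ^ 2) + 4 / ((n : ℝ) ^ 2 * kap s ^ 4) with hB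
  have hG : ∀ a b, EB fun g : Edge n → ℝ => (c * Gc s g a b).re := fun a b =>
    eb_re_cmul c (eb_re_Gc hs a b) (eb_im_Gc hs a b)
  have hP : ∀ e : Edge n, EB fun g : Edge n → ℝ =>
      (c * (Gc s g e.1.1 e.1.1 * Gc s g e.1.2 e.1.2 + Gc s g e.1.1 e.1.2 * Gc s g e.1.1 e.1.2)).re / √(n : ℝ) :=
    fun e => by
      have hmul : ∀ {F H : (Edge n → ℝ) → ℂ}, (EB fun g => (F g).re) → (EB fun g => (F g).im) →
          (EB fun g => (H g).re) → (EB fun g => (H g).im) →
          (EB fun g => (F g * H g).re) ∧ EB fun g => (F g * H g).im := fun a1 a2 b1 b2 =>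
        ⟨by simp only [Complex.mul_re]; exact (a1.mul b1).sub (a2.mul b2),
          by simp only [Complex.mul_im]; exact (a1.mul b2).add (a2.mul b1)⟩
      obtain ⟨p1, p2⟩ := hmul (eb_re_Gc hs e.1.1 e.1.1) (eb_im_Gc hs e.1.1 e.1.1) (eb_re_Gc hs e.1.2 e.1.2)
        (eb_im_Gc hs e.1.2 e.1.2)
      obtain ⟨q1, q2⟩ := hmul (eb_re_Gc hs e.1.1 e.1.2) (eb_im_Gc hs e.1.1 e.1.2) (eb_re_Gc hs e.1.1 e.1.2)
        (eb_im_Gc hs e.1.1 e.1.2)
      simp only [div_eq_mul_inv]
      refine (eb_re_cmul c ?_ ?_).mul (EB.const _)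
      · simpa only [Complex.add_re] using p1.add q1
      · simpa only [Complex.add_im] using p2.add q2
  have ibp : ∀ e : Edge n, ∫ g, g e * (c * Gc s g e.1.1 e.1.2).re ∂gauss (Edge n) = ∫ g,
      (c * (Gc s g e.1.1 e.1.1 * Gc s g e.1.2 e.1.2 + Gc s g e.1.1 e.1.2 * Gc s g e.1.1 e.1.2)).re / √(n : ℝ)
        ∂gauss (Edge n) := fun e => by
    refine EB.ibp e (hG _ _) (hP e) fun z t => ?_
    refine (Complex.reCLM.hasFDerivAt.comp_hasDerivAt t ((hasDerivAt_Gc' hs z e t _ _).const_mul c)).congr_deriv ?_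
    rw [Complex.reCLM_apply, Ee_sandwich, ← mul_div_assoc, Complex.div_ofReal_re,
      Gc_symm hs (Function.update z e t) e.1.2 e.1.2]
  -- the two integrals
  have eL : ∀ g : Edge n → ℝ, (c * (zt s * tauC s g - 1)).re =
      ∑ e : Edge n, 2 / (n * √(n : ℝ)) * (g e * (c * Gc s g e.1.1 e.1.2).re) := fun g => by
    have h : zt s * tauC s g - 1 =
        (2 * ∑ e : Edge n, (((g e / √(n : ℝ)) : ℝ) : ℂ) * Gc s g e.1.1 e.1.2) / (n : ℂ) := by
      rw [trace_eq hs g, tauC, sub_div, div_self (by exact_mod_cast hn0.ne'), mul_div_assoc]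
    rw [h, ← mul_div_assoc, Complex.div_natCast_re, mul_sum, mul_sum, Complex.re_sum, sum_div]
    refine sum_congr rfl fun e _ => ?_
    rw [show c * (2 * ((((g e / √(n : ℝ)) : ℝ) : ℂ) * Gc s g e.1.1 e.1.2)) =
      ((2 * (g e / √(n : ℝ)) : ℝ) : ℂ) * (c * Gc s g e.1.1 e.1.2) by push_cast; ring, Complex.re_ofReal_mul]
    ring
  set R : (Edge n → ℝ) → ℝ := fun g => ∑ e : Edge n, 2 / (n * √(n : ℝ)) *
    ((c * (Gc s g e.1.1 e.1.1 * Gc s g e.1.2 e.1.2 + Gc s g e.1.1 e.1.2 * Gc s g e.1.1 e.1.2)).re / √(n : ℝ))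
    with hR
  have iR : EB R := EB.sum _ fun e _ => (EB.const _).mul (hP e)
  have e1 : ∫ g, R g ∂gauss (Edge n) = (c * (zt s * m - 1)).re := by
    have h : ∫ g, (c * (zt s * tauC s g - 1)).re ∂gauss (Edge n) = ∫ g, R g ∂gauss (Edge n) := by
      simp only [eL, hR]
      rw [integral_finsetSum _ fun e _ => ((EB.const _).mul ((EB.proj e).mul (hG _ _))).integrable,
        integral_finsetSum _ fun e _ => ((EB.const _).mul (hP e)).integrable]
      exact sum_congr rfl fun e _ => by rw [integral_const_mul, integral_const_mul, ibp e]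
    rw [← h]
    have e : ∀ x : ℂ, (c * (zt s * x - 1)).re = (c * zt s * x).re - c.re := fun x => by
      rw [mul_sub, mul_one, ← mul_assoc, Complex.sub_re]
    simp only [e]
    rw [integral_sub (eb_re_cmul _ (eb_re_tauC hs) (eb_im_tauC hs)).integrable (integrable_const _),
      integral_re_cmul hs, integral_const]
    simp [hm]
  -- the pointwise comparison
  have e2 : ∀ g : Edge n → ℝ, R g - (c * m ^ 2).re - 2 * ((c * m * tauC s g).re - (c * m * m).re) ≤
      ‖c‖ * (3 / (n * kap s ^ 2)) + ‖c‖ * ‖tauC s g - m‖ ^ 2 := fun g => by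
    have h : R g = (c * ((2 * (∑ e : Edge n, (Gc s g e.1.1 e.1.1 * Gc s g e.1.2 e.1.2 +
        Gc s g e.1.1 e.1.2 * Gc s g e.1.1 e.1.2))) / ((n : ℂ) * n))).re := by
      rw [show ((n : ℂ) * n) = (((n * n : ℕ) : ℂ)) by push_cast; rfl, ← mul_div_assoc, Complex.div_natCast_re,
        mul_sum, mul_sum, Complex.re_sum, sum_div]
      refine sum_congr rfl fun e _ => ?_
      rw [show ∀ X : ℂ, c * (2 * X) = ((2 : ℝ) : ℂ) * (c * X) from fun X => by push_cast; ring,
        Complex.re_ofReal_mul]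
      have := Real.mul_self_sqrt hn0.le
      push_cast
      field_simp
      rw [Real.sq_sqrt hn0.le]
    set S := 2 * (∑ e : Edge n, (Gc s g e.1.1 e.1.1 * Gc s g e.1.2 e.1.2 +
      Gc s g e.1.1 e.1.2 * Gc s g e.1.1 e.1.2))
    have hS : ‖S - (Gc s g).trace ^ 2‖ ≤ 3 * (n / kap s ^ 2) := norm_pair_error hs g
    have hn1 : (n : ℂ) ≠ 0 := by exact_mod_cast hn0.ne'
    have e : c * (S / ((n : ℂ) * n)) - c * m ^ 2 - 2 * (c * m * tauC s g - c * m * m) =
        c * ((S - (Gc s g).trace ^ 2) / ((n : ℂ) * n)) + c * (tauC s g - m) ^ 2 := by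
      rw [tauC]; field_simp; ring
    have e' := congrArg Complex.re e
    simp only [Complex.sub_re, Complex.mul_re 2, Complex.re_ofNat, Complex.im_ofNat, zero_mul, sub_zero] at e'
    rw [h, e']
    refine (Complex.re_le_norm _).trans ((norm_add_le _ _).trans (add_le_add ?_ ?_))
    · rw [norm_mul, norm_div, norm_mul, Complex.norm_natCast]
      refine mul_le_mul_of_nonneg_left ((div_le_div_of_nonneg_right hS (by positivity)).trans_eq ?_) (norm_nonneg _)
      field_simp
    · rw [norm_mul, norm_pow]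
  have i1 : EB fun g : Edge n → ℝ => R g - (c * m ^ 2).re - 2 * ((c * m * tauC s g).re - (c * m * m).re) :=
    (iR.sub (EB.const _)).sub ((EB.const 2).mul ((eb_re_cmul _ (eb_re_tauC hs) (eb_im_tauC hs)).sub (EB.const _)))
  have i2 : EB fun g : Edge n → ℝ => ‖tauC s g - m‖ ^ 2 := by
    simp only [Complex.sq_norm, Complex.normSq_apply, Complex.sub_re, Complex.sub_im]
    exact (((eb_re_tauC hs).sub (EB.const _)).mul ((eb_re_tauC hs).sub (EB.const _))).add
      (((eb_im_tauC hs).sub (EB.const _)).mul ((eb_im_tauC hs).sub (EB.const _)))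
  have hint := integral_mono i1.integrable
    (((EB.const (‖c‖ * (3 / (n * kap s ^ 2)))).add ((EB.const ‖c‖).mul i2)).integrable) e2
  have iT := (eb_re_cmul (c * m) (eb_re_tauC (n := n) hs) (eb_im_tauC hs))
  rw [integral_sub (iR.sub (EB.const _)).integrable ((EB.const 2).mul (iT.sub (EB.const _))).integrable,
    integral_sub iR.integrable (integrable_const _), integral_const_mul,
    integral_sub iT.integrable (integrable_const _), e1, integral_re_cmul hs,
    integral_add (integrable_const _) (i2.integrable.const_mul _), integral_const_mul] at hint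
  simp only [integral_const, probReal_univ, one_smul] at hint
  have hv := mul_le_mul_of_nonneg_left (integral_sq_norm_sub_mtau (n := n) hs) (norm_nonneg c)
  have e3 : (c * (zt s * m - 1)).re - (c * m ^ 2).re = ‖D‖ * ‖D‖ := by
    rw [← Complex.sub_re, ← mul_sub, ← hD, hc, ← Complex.normSq_eq_conj_mul_self, Complex.ofReal_re,
      Complex.normSq_eq_norm_sq, sq]
  have hcD : ‖c‖ = ‖D‖ := Complex.norm_conj D
  rw [e3, hcD] at hint
  rw [hcD, ← hm] at hv
  rw [integral_const_mul, ← hm] at hint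
  have hB0 : 0 ≤ B := by positivity
  rcases (norm_nonneg D).eq_or_lt with h | h
  · linarith
  · refine le_of_mul_le_mul_left ?_ h
    rw [hB, mul_add]; linarith

end

/-- **The trace of the resolvent is close to `1 / ζ`** -/
theorem tau_close : ∃ C : ℝ, 0 ≤ C ∧ ∀ (n : ℕ), 1 ≤ n → ∀ s : ℝ, 0 < s → s ≤ 1 / 4 →
    ∫ g : Edge n → ℝ, ‖tauC s g - (zeta s)⁻¹‖ ^ 2 ∂gauss (Edge n) ≤ C / (s ^ 20 * n) := by
  refine ⟨106, by norm_num, fun n hn s hs0 hs1 => ?_⟩
  obtain ⟨hk, -, hk0⟩ := kap_bounds hs0 hs1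
  have hn0 : (0 : ℝ) < n := by exact_mod_cast hn
  set m := mtau s n with hm
  set b := (zeta s)⁻¹ with hb
  have hD := mean_eq hk0 hn
  have e : zt s * m - 1 - m ^ 2 = -((m - zeta s) * (m - b)) := by
    rw [zt, hb]
    linear_combination mul_inv_cancel₀ (zeta_ne hs0)
  rw [← hm, e, norm_neg, norm_mul] at hD
  have h1 : s ≤ ‖m - zeta s‖ := by
    have h := Complex.abs_im_le_norm (m - zeta s)
    have := mtau_im_nonpos (n := n) hk0
    rw [abs_le, Complex.sub_im] at h
    simp only [hm, zeta] at h ⊢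
    linarith
  have hs2 : 3 / (n * kap s ^ 2) + 4 / ((n : ℝ) ^ 2 * kap s ^ 4) ≤ 7 / (n * s ^ 8) := by
    have k2 : (s ^ 2) ^ 2 ≤ kap s ^ 2 := pow_le_pow_left₀ (by positivity) hk 2
    have k4 : (s ^ 2) ^ 4 ≤ kap s ^ 4 := pow_le_pow_left₀ (by positivity) hk 4
    have hs4 : s ^ 8 ≤ (s ^ 2) ^ 2 := by
      rw [← pow_mul]; exact pow_le_pow_of_le_one hs0.le (by linarith) (by norm_num)
    have a1 : 3 / (n * kap s ^ 2) ≤ 3 / (n * s ^ 8) := by
      gcongr
      exact hs4.trans k2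
    have a2 : 4 / ((n : ℝ) ^ 2 * kap s ^ 4) ≤ 4 / (n * s ^ 8) := by
      gcongr
      · nlinarith [show (1 : ℝ) ≤ n by exact_mod_cast hn]
      · rw [← pow_mul] at k4; exact k4
    calc _ ≤ 3 / (n * s ^ 8) + 4 / (n * s ^ 8) := add_le_add a1 a2
      _ = _ := by ring
  have hq : ‖m - b‖ ≤ 7 / (n * s ^ 9) := by
    have h2 := ((mul_le_mul_of_nonneg_right h1 (norm_nonneg _)).trans hD).trans hs2
    rw [le_div_iff₀ (by positivity)] at h2 ⊢
    calc ‖m - b‖ * (n * s ^ 9) = s * ‖m - b‖ * (n * s ^ 8) := by ring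
      _ ≤ _ := h2
  have hsq : ‖m - b‖ ^ 2 ≤ 49 / (s ^ 20 * n) := by
    refine (pow_le_pow_left₀ (norm_nonneg _) hq 2).trans ?_
    have h' : s ^ 20 * (n : ℝ) ≤ ((n : ℝ) * s ^ 9) ^ 2 := by
      rw [mul_pow, ← pow_mul, mul_comm ((n : ℝ) ^ 2)]
      refine mul_le_mul (pow_le_pow_of_le_one hs0.le (by linarith) (by norm_num)) ?_ hn0.le (by positivity)
      nlinarith [show (1 : ℝ) ≤ n by exact_mod_cast hn]
    rw [div_pow, show (7 : ℝ) ^ 2 = 49 by norm_num]
    exact div_le_div_of_nonneg_left (by norm_num) (by positivity) h'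
  have hv := integral_sq_norm_sub_mtau (n := n) hk0
  have hv' : 4 / ((n : ℝ) ^ 2 * kap s ^ 4) ≤ 4 / (s ^ 20 * n) := by
    have k4 : (s ^ 2) ^ 4 ≤ kap s ^ 4 := pow_le_pow_left₀ (by positivity) hk 4
    rw [mul_comm ((n : ℝ) ^ 2)]
    gcongr
    · exact (le_trans (by rw [← pow_mul]; exact pow_le_pow_of_le_one hs0.le (by linarith) (by norm_num)) k4)
    · nlinarith [show (1 : ℝ) ≤ n by exact_mod_cast hn]
  have i : ∀ x : ℂ, EB fun g : Edge n → ℝ => ‖tauC s g - x‖ ^ 2 := fun x => by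
    simp only [Complex.sq_norm, Complex.normSq_apply, Complex.sub_re, Complex.sub_im]
    exact (((eb_re_tauC hk0).sub (EB.const _)).mul ((eb_re_tauC hk0).sub (EB.const _))).add
      (((eb_im_tauC hk0).sub (EB.const _)).mul ((eb_im_tauC hk0).sub (EB.const _)))
  refine (integral_mono (i b).integrable (((EB.const (2:ℝ)).mul (i m)).add (EB.const (2 * ‖m - b‖ ^ 2))).integrable
    fun g => ?_).trans ?_
  · refine (pow_le_pow_left₀ (norm_nonneg _) (norm_sub_le_norm_sub_add_norm_sub _ m _) 2).trans (add_sq_le.trans_eq ?_)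
    ring
  · rw [integral_add ((i m).integrable.const_mul _) (integrable_const _), integral_const_mul, integral_const]
    simp only [probReal_univ, one_smul]
    calc _ ≤ 2 * (4 / (s ^ 20 * n)) + 2 * (49 / (s ^ 20 * n)) := by
          have := hv.trans hv'
          linarith
      _ = _ := by ring

end Vale.Agent.P146.Lower.Res
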