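import Vale.Agent.P146.Lower.Res.RecMat
import Vale.Agent.P146.Lower.Res.Eb
import Vale.Agent.P146.Lower.Res.Tau
import Vale.Agent.P146.Lower.RecDer
import Vale.Agent.P146.Lower.Rec

/-! P146, polynomial lower bound, recursion: one integration by parts against a function of the mean overlaps turns
the residual of the level values of the resolvent into deviations of the overlaps. -/

open MeasureTheory Finset Real Matrix
open Vale.Agent.P150 (gauss)
open Vale.Agent.P168.MP (lin ET spinAt att sp Valid allBatch Mark)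
open Vale.Agent.P157.Par (qlev ovK ov adev lvlAvg)
open Vale.Agent.P146.Lower.Rec (sv)

noncomputable section

namespace Vale.Agent.P146.Lower.Res

set_option linter.unusedSectionVars false

variable {n : ℕ}

/-- the data of a perturbed system at a point of the grid -/
structure Dat (n : ℕ) where
  P : Par
  β : ℝ
  s : ℝ
  hs : 0 < kap s
  lam : ℝ
  v : Cfg n → ℝ
  u : P.Grid

variable [NeZero n] (D : Dat n)

/-- the levels of the perturbation -/
abbrev Dat.R : ℕ := D.P.R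

/-- the weight -/
def Dat.w (g : Edge n → ℝ) : List (Mark n D.P.S (allBatch D.P.R 2)) → ℝ :=
  D.P.wp (wgt D.β D.s D.lam D.v g) D.u

/-- expectation over two replicas splitting at level `l` -/
def Dat.E2 (g : Edge n → ℝ) (l : ℕ) (h : Cfg n → Cfg n → ℝ) : ℝ :=
  ET D.R (lin D.R) (D.w g) [(0, l), (0, 0)] fun ps =>
    h (spinAt D.R (ps.getD 0 [])) (spinAt D.R (ps.getD 1 []))

/-- signed sum over a third replica -/
def Dat.D3 (g : Edge n → ℝ) (l : ℕ) (h : Cfg n → Cfg n → Cfg n → ℝ) : ℝ :=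
  ((att D.R (lin D.R) [(0, l), (0, 0)]).map fun c => c.2 *
    ET D.R (lin D.R) (D.w g) (c.1 :: [(0, l), (0, 0)]) fun ps =>
      h (spinAt D.R (ps.getD 0 [])) (spinAt D.R (ps.getD 1 [])) (spinAt D.R (ps.getD 2 []))).sum

/-- mean overlaps -/
def Dat.q (g : Edge n → ℝ) : ℕ → ℝ := qlev D.R (D.w g) (spinAt D.R)

/-- deviation of the overlap from its mean -/
def Dat.dev (g : Edge n → ℝ) (l : ℕ) : ℝ := D.E2 g l fun x y => |ov x y - D.q g l|

/-- total deviation -/
def Dat.ad (g : Edge n → ℝ) : ℝ := adev D.R (D.w g) (ovK (spinAt D.R)) (D.q g)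

/-- logarithmic derivative of the weight -/
def Dat.xi (g : Edge n → ℝ) (e : Edge n) (z : Cfg n) : ℝ := xiw D.β D.s D.lam g e z

/-- derivative of the mean overlaps -/
def Dat.dq (g : Edge n → ℝ) (e : Edge n) (l : ℕ) : ℝ :=
  D.D3 g l fun x y z => (ov x y - D.q g l) * D.xi g e z

/-- level values of a part of `σ' G τ / n` -/
def Dat.tL (L : ℂ →L[ℝ] ℝ) (g : Edge n → ℝ) (l : ℕ) : ℝ := D.E2 g l (Bf L D.s g)

/-- the residual -/
def Dat.res (L : ℂ →L[ℝ] ℝ) (g : Edge n → ℝ) (l : ℕ) : ℝ :=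
  D.E2 g l (fun x y => L (zeta D.s * form D.s g x y) / n - ov x y * L 1) -
    D.β * conv D.R (D.q g) (D.tL L g) l

lemma Dat.w_pos (g : Edge n → ℝ) (p : List (Mark n D.P.S (allBatch D.P.R 2))) : 0 < D.w g p :=
  wp_pos D.P (wgt_pos D.β D.s D.lam D.v g) D.u p

lemma Dat.E2_one (g : Edge n → ℝ) (l : ℕ) (c : ℝ) : D.E2 g l (fun _ _ => c) = c :=
  Vale.Agent.P168.MP.ET_const (D.w_pos g) _ c

lemma Dat.E2_sum {ι : Type*} [Fintype ι] (g : Edge n → ℝ) (l : ℕ) (h : ι → Cfg n → Cfg n → ℝ) :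
    D.E2 g l (fun x y => ∑ i, h i x y) = ∑ i, D.E2 g l (h i) :=
  Vale.Agent.P168.MP.ET_sum _ _ _

lemma Dat.E2_const_mul (g : Edge n → ℝ) (l : ℕ) (c : ℝ) (h : Cfg n → Cfg n → ℝ) :
    D.E2 g l (fun x y => c * h x y) = c * D.E2 g l h :=
  Vale.Agent.P168.MP.ET_const_mul _ _ _

lemma Dat.E2_sub (g : Edge n → ℝ) (l : ℕ) (h h' : Cfg n → Cfg n → ℝ) :
    D.E2 g l (fun x y => h x y - h' x y) = D.E2 g l h - D.E2 g l h' :=
  Vale.Agent.P168.MP.ET_sub _ _ _

lemma Dat.E2_abs_le (g : Edge n → ℝ) (l : ℕ) {h : Cfg n → Cfg n → ℝ} {M : ℝ} (hh : ∀ x y, |h x y| ≤ M) :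
    |D.E2 g l h| ≤ M :=
  Vale.Agent.P168.MP.ET_bound (D.w_pos g) fun _ => hh _ _

lemma hd_w (g : Edge n → ℝ) (e : Edge n) (p : List (Mark n D.P.S (allBatch D.P.R 2))) :
    HasDerivAt (fun t => D.w (Function.update g e t) p) (D.w g p * D.xi g e (spinAt D.R p)) (g e) := by
  set x := spinAt D.R p
  have h : HasDerivAt (fun t => wgt D.β D.s D.lam D.v (Function.update g e t) x)
      (wgt D.β D.s D.lam D.v g x * D.xi g e x) (g e) := by
    refine ((((Vale.Agent.P146.hasDerivAt_energy g e x (g e)).const_mul D.β).add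
      ((hasDerivAt_pb D.hs g e x).const_mul D.lam)).add_const (D.v x)).exp.congr_deriv ?_
    simp only [Function.update_eq_self, wgt, Dat.xi, xiw, Pi.add_apply]
  unfold Dat.w Par.wp Vale.Agent.P168.MP.pw
  refine (h.mul_const _).congr_deriv ?_
  ring

lemma hd_E2 (g : Edge n → ℝ) (e : Edge n) {l : ℕ} (hl : l ≤ D.R) {f : ℝ → Cfg n → Cfg n → ℝ}
    {f' : Cfg n → Cfg n → ℝ} (hf : ∀ x y, HasDerivAt (fun t => f t x y) (f' x y) (g e)) :
    HasDerivAt (fun t => D.E2 (Function.update g e t) l (f t))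
      (D.D3 g l (fun x y z => f (g e) x y * D.xi g e z) + D.E2 g l f') (g e) := by
  have hT : Valid D.R [(0, l), (0, 0)] := Vale.Agent.P157.Par.valid_pair hl
  have he : D.w (Function.update g e (g e)) = D.w g := by rw [Function.update_eq_self]
  have h := Vale.Agent.P168.MP.hasDerivAt_ET (w := fun t => D.w (Function.update g e t)) (s := g e)
    (g := fun p => D.xi g e (spinAt D.R p))
    (by rw [he]; exact ok_wp D.P (wgt_pos D.β D.s D.lam D.v g) D.u)
    (fun p => by rw [he]; exact hd_w D g e p) hT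
    (F := fun t ps => f t (spinAt D.R (ps.getD 0 [])) (spinAt D.R (ps.getD 1 [])))
    (F' := fun ps => f' (spinAt D.R (ps.getD 0 [])) (spinAt D.R (ps.getD 1 []))) fun ps _ => hf _ _
  simp only [he] at h
  refine h.congr_deriv ?_
  refine congrArg₂ (· + ·) (congrArg List.sum (List.map_congr_left fun c hc => congrArg (c.2 * ·) ?_)) rfl
  refine Vale.Agent.P168.MP.ET_congr (Vale.Agent.P168.MP.att_valid hT hc) fun ps hs => ?_
  obtain ⟨p0, p1, p2, rfl⟩ := List.length_eq_three.1 (show ps.length = 3 from hs.1)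
  simp

lemma Dat.D3_const_mul (g : Edge n → ℝ) (l : ℕ) (c : ℝ) (h : Cfg n → Cfg n → Cfg n → ℝ) :
    D.D3 g l (fun x y z => c * h x y z) = c * D.D3 g l h := by
  simp only [Dat.D3, Vale.Agent.P168.MP.ET_const_mul, ← List.sum_map_mul_left]
  exact congrArg List.sum (List.map_congr_left fun _ _ => mul_left_comm _ _ _)

lemma Dat.D3_sub (g : Edge n → ℝ) (l : ℕ) (h h' : Cfg n → Cfg n → Cfg n → ℝ) :
    D.D3 g l (fun x y z => h x y z - h' x y z) = D.D3 g l h - D.D3 g l h' := by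
  simp only [Dat.D3, Vale.Agent.P168.MP.ET_sub, mul_sub, Rec.list_sum_sub]

lemma Dat.D3_sum {ι : Type*} [Fintype ι] (g : Edge n → ℝ) (l : ℕ) (h : ι → Cfg n → Cfg n → Cfg n → ℝ) :
    D.D3 g l (fun x y z => ∑ i, h i x y z) = ∑ i, D.D3 g l (h i) := by
  simp only [Dat.D3, Vale.Agent.P168.MP.ET_sum, mul_sum]
  exact Vale.Agent.P168.MP.list_sum_map_finset_sum _ _ _

lemma hd_q (g : Edge n → ℝ) (e : Edge n) {l : ℕ} (hl : l ≤ D.R) :
    HasDerivAt (fun t => D.q (Function.update g e t) l) (D.dq g e l) (g e) := by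
  have h1 := hd_E2 D g e hl (f := fun _ x y => ov x y) (f' := fun _ _ => 0) fun _ _ => hasDerivAt_const _ _
  have h2 := hd_E2 D g e hl (f := fun _ _ _ => (1:ℝ)) (f' := fun _ _ => 0) fun _ _ => hasDerivAt_const _ _
  simp only [D.E2_one, one_mul, add_zero] at h1 h2
  have h0 := h2.unique (hasDerivAt_const _ _)
  refine (h1 : HasDerivAt (fun t => D.q (Function.update g e t) l) _ _).congr_deriv ?_
  simp only [Dat.dq, sub_mul, D.D3_sub, D.D3_const_mul, h0, mul_zero, sub_zero]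

lemma eb_E2 {f : (Edge n → ℝ) → Cfg n → Cfg n → ℝ} (hf : ∀ x y, EB fun g => f g x y) (l : ℕ) :
    EB fun g => D.E2 g l (f g) :=
  eb_ET D.P D.β D.hs D.lam D.v D.u (fun _ => (hf _ _).1)
    (EB.sum univ fun x _ => EB.sum univ fun y _ => EB.abs' (hf x y)) fun g ps =>
    (single_le_sum (f := fun y => |f g (spinAt D.R (ps.getD 0 [])) y|) (fun _ _ => abs_nonneg _)
      (mem_univ (spinAt D.R (ps.getD 1 [])))).trans
      (single_le_sum (f := fun x => ∑ y, |f g x y|) (fun _ _ => sum_nonneg fun _ _ => abs_nonneg _)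
        (mem_univ (spinAt D.R (ps.getD 0 []))))

lemma eb_D3 {f : (Edge n → ℝ) → Cfg n → Cfg n → Cfg n → ℝ} (hf : ∀ x y z, EB fun g => f g x y z) (l : ℕ) :
    EB fun g => D.D3 g l (f g) :=
  Rec.eb_list _ fun c => (EB.const c.2).mul <|
    eb_ET D.P D.β D.hs D.lam D.v D.u (fun _ => (hf _ _ _).1)
    (EB.sum univ fun x _ => EB.sum univ fun y _ => EB.sum univ fun z _ => EB.abs' (hf x y z)) fun g ps =>
    (single_le_sum (f := fun z => |f g (spinAt D.R (ps.getD 0 [])) (spinAt D.R (ps.getD 1 [])) z|)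
      (fun _ _ => abs_nonneg _) (mem_univ (spinAt D.R (ps.getD 2 [])))).trans <|
    (single_le_sum (f := fun y => ∑ z, |f g (spinAt D.R (ps.getD 0 [])) y z|)
      (fun _ _ => sum_nonneg fun _ _ => abs_nonneg _) (mem_univ (spinAt D.R (ps.getD 1 [])))).trans
      (single_le_sum (f := fun x => ∑ y, ∑ z, |f g x y z|)
        (fun _ _ => sum_nonneg fun _ _ => sum_nonneg fun _ _ => abs_nonneg _)
        (mem_univ (spinAt D.R (ps.getD 0 []))))

lemma eb_q (l : ℕ) : EB fun g => D.q g l := eb_E2 D (f := fun _ x y => ov x y) (fun _ _ => EB.const _) l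

lemma eb_dq (e : Edge n) (l : ℕ) : EB fun g => D.dq g e l :=
  eb_D3 D (fun _ _ z => ((EB.const _).sub (eb_q D l)).mul (eb_xiw D.hs D.β D.lam e z)) l

lemma eb_dev (l : ℕ) : EB fun g => D.dev g l :=
  eb_E2 D (fun _ _ => EB.abs' ((EB.const _).sub (eb_q D l))) l

lemma Dat.ad_eq (g : Edge n → ℝ) : D.ad g = (∑ i ∈ range D.R, D.dev g i) / D.R + D.dev g D.R := rfl

lemma eb_ad : EB fun g => D.ad g := by
  simp only [Dat.ad_eq, div_eq_mul_inv]
  exact ((EB.sum _ fun i _ => eb_dev D i).mul (EB.const _)).add (eb_dev D _)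

lemma eb_tL (L : ℂ →L[ℝ] ℝ) (l : ℕ) : EB fun g => D.tL L g l := eb_E2 D (fun x y => eb_Bf L D.hs x y) l

lemma Dat.dev_nonneg (g : Edge n → ℝ) (l : ℕ) : 0 ≤ D.dev g l :=
  Vale.Agent.P168.MP.ET_nonneg (D.w_pos g) fun _ => abs_nonneg _

lemma Dat.ad_nonneg (g : Edge n → ℝ) : 0 ≤ D.ad g := by
  rw [D.ad_eq]
  exact add_nonneg (div_nonneg (sum_nonneg fun i _ => D.dev_nonneg g i) (Nat.cast_nonneg _)) (D.dev_nonneg g _)

lemma Dat.q_abs_le (g : Edge n → ℝ) (l : ℕ) : |D.q g l| ≤ 1 :=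
  Vale.Agent.P157.Par.abs_qlev_le (D.w_pos g) l

lemma sum_abs_att (l : ℕ) : ((att D.R (lin D.R) [(0, l), (0, 0)]).map fun c => |c.2|).sum ≤ 6 :=
  (Vale.Agent.P157.Par.att_abs_sum_le _).trans_eq (by norm_num)

lemma Dat.E_pair (g : Edge n → ℝ) {l : ℕ} (hl : l ≤ D.R) {c : (ℕ × ℕ) × ℝ}
    (hc : c ∈ att D.R (lin D.R) [(0, l), (0, 0)]) {i j : ℕ} (hi : i < 3) (hj : j < 3)
    (h : Cfg n → Cfg n → ℝ) :
    ET D.R (lin D.R) (D.w g) (c.1 :: [(0, l), (0, 0)])
        (fun ps => h (spinAt D.R (ps.getD i [])) (spinAt D.R (ps.getD j []))) =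
      D.E2 g (sp D.R (c.1 :: [(0, l), (0, 0)]) i j) h :=
  Vale.Agent.P157.Par.ET_two (D.w_pos g)
    (Vale.Agent.P168.MP.att_valid (Vale.Agent.P157.Par.valid_pair hl) hc) hi hj
    fun p p' => h (spinAt D.R p) (spinAt D.R p')

lemma Dat.abs_D3_le (g : Edge n → ℝ) {l : ℕ} (hl : l ≤ D.R) {h : Cfg n → Cfg n → Cfg n → ℝ}
    {k : Cfg n → Cfg n → ℝ} {M : ℝ} (hh : ∀ x y z, |h x y z| ≤ M * k x y) :
    |D.D3 g l h| ≤ 6 * (M * D.E2 g l k) := by
  have h0 : 0 ≤ M * D.E2 g l k := by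
    rw [← D.E2_const_mul]
    exact Vale.Agent.P168.MP.ET_nonneg (D.w_pos g) fun ps =>
      (abs_nonneg _).trans (hh _ _ (default : Cfg n))
  refine (Vale.Agent.P157.Par.abs_list_sum _ _).trans ((Vale.Agent.P157.Par.list_sum_le
    (g := fun c => |c.2| * (M * D.E2 g l k)) fun c hc => ?_).trans ?_)
  · rw [abs_mul]
    refine mul_le_mul_of_nonneg_left ((Vale.Agent.P168.MP.ET_abs_le (D.w_pos g) _ _).trans
      ((Vale.Agent.P168.MP.ET_mono (D.w_pos g) fun ps => hh _ _ _).trans_eq ?_)) (abs_nonneg _)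
    rw [Vale.Agent.P168.MP.ET_const_mul, D.E_pair g hl hc (i := 0) (j := 1) (by norm_num) (by norm_num) k]
    congr 2
    rw [Vale.Agent.P168.MP.sp_old D.R c.1 (by simp) (by simp)]
    simp [sp, min_eq_left hl]
  · rw [List.sum_map_mul_right]
    exact mul_le_mul_of_nonneg_right (sum_abs_att D l) h0

section ibp

variable (L : ℂ →L[ℝ] ℝ) (hL : ∀ z, |L z| ≤ ‖z‖)
include hL

/-- one derivative of a mean overlap against the integrand -/
lemma sum_dq_E2_le (g : Edge n → ℝ) {l : ℕ} (hl : l ≤ D.R) (i : ℕ) :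
    |∑ e : Edge n, D.dq g e l * D.E2 g i (fj L D.s g e)| ≤
      6 * ((2 * |D.β| / kap D.s + 8 * |D.lam| / kap D.s ^ 3) * D.dev g l) := by
  have e : ∑ e : Edge n, D.dq g e l * D.E2 g i (fj L D.s g e) = D.D3 g l fun x y z =>
      (ov x y - D.q g l) * D.E2 g i fun x' y' => ∑ e, fj L D.s g e x' y' * D.xi g e z := by
    simp only [D.E2_sum, mul_sum, D.D3_sum, Dat.dq]
    refine sum_congr rfl fun e _ => ?_
    rw [mul_comm, ← D.D3_const_mul]
    refine congrArg (D.D3 g l) (funext fun x => funext fun y => funext fun z => ?_)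
    rw [show (fun x' y' => fj L D.s g e x' y' * D.xi g e z) = fun x' y' => D.xi g e z * fj L D.s g e x' y' from
      funext fun _ => funext fun _ => mul_comm _ _, D.E2_const_mul]
    ring
  rw [e]
  refine D.abs_D3_le g hl (k := fun x y => |ov x y - D.q g l|) fun x y z => ?_
  rw [abs_mul, mul_comm (_ + _)]
  exact mul_le_mul_of_nonneg_left
    (D.E2_abs_le g i fun x' y' => fj_xi_le L hL D.hs D.β D.lam g x' y' z) (abs_nonneg _)

/-- the convolution with the deviation -/
lemma conv_close (g : Edge n → ℝ) {i : ℕ} (hi : i ≤ D.R) :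
    |D.D3 g i (fun x y z => ov x z * Bf L D.s g z y) - conv D.R (D.q g) (D.tL L g) i| ≤
      24 * (D.dev g i + D.ad g) / kap D.s := by
  unfold Dat.D3 conv
  rw [← Rec.list_sum_sub]
  refine (Vale.Agent.P157.Par.abs_list_sum _ _).trans ((Vale.Agent.P157.Par.list_sum_le
    (g := fun c => 1 / kap D.s * (|c.2| * D.dev g (sp D.R (c.1 :: [(0, i), (0, 0)]) 0 2))) fun c hc => ?_).trans ?_)
  · rw [← mul_sub, abs_mul, mul_left_comm]
    refine mul_le_mul_of_nonneg_left ?_ (abs_nonneg _)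
    rw [show D.tL L g (sp D.R (c.1 :: [(0, i), (0, 0)]) 2 1) = _ from
      (D.E_pair g hi hc (i := 2) (j := 1) (by norm_num) (by norm_num) (Bf L D.s g)).symm,
      ← Vale.Agent.P168.MP.ET_const_mul, ← Vale.Agent.P168.MP.ET_sub, Dat.dev, ← D.E2_const_mul,
      ← D.E_pair g hi hc (i := 0) (j := 2) (by norm_num) (by norm_num)]
    refine (Vale.Agent.P168.MP.ET_abs_le (D.w_pos g) _ _).trans
      (Vale.Agent.P168.MP.ET_mono (D.w_pos g) fun ps => ?_)
    rw [← sub_mul, abs_mul, mul_comm (1 / kap D.s)]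
    exact mul_le_mul_of_nonneg_left (abs_Bf_le L hL D.hs g _ _) (abs_nonneg _)
  · rw [List.sum_map_mul_left, mul_div_assoc, mul_comm]
    have hd : 0 ≤ 1 / kap D.s := (one_div_pos.2 D.hs).le
    refine (mul_le_mul_of_nonneg_right ?_ hd).trans_eq (by ring :
      24 * (D.dev g i + D.ad g) * (1 / kap D.s) = 24 * ((D.dev g i + D.ad g) / kap D.s))
    have hT : Valid D.R [(0, i), (0, 0)] := Vale.Agent.P157.Par.valid_pair hi
    refine le_of_eq_of_le (congrArg List.sum (List.map_congr_left fun c _ => ?_))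
      ((Vale.Agent.P157.Par.att_pair_le D.P.one_le (φ := D.dev g) (D.dev_nonneg g) hT (b := 0) (by simp)).trans ?_)
    · rw [Vale.Agent.P168.MP.sp_comm]
      rfl
    · rw [Vale.Agent.P157.Par.pairSum_two (D.dev g) hi]
      have h1 : D.dev g D.R ≤ D.ad g := le_add_of_nonneg_left
        (div_nonneg (sum_nonneg fun l _ => D.dev_nonneg g l) (Nat.cast_nonneg _))
      have h2 : lvlAvg D.R (D.dev g) = D.ad g := rfl
      have := D.dev_nonneg g i
      have := D.ad_nonneg g
      simp only [List.length_cons, List.length_nil] at *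
      norm_num
      linarith

/-- the derivative of the expectation against the resolvent equation -/
lemma sum_dA_close (g : Edge n → ℝ) {i : ℕ} (hi : i ≤ D.R) :
    |∑ e : Edge n, (D.D3 g i (fun x y z => fj L D.s g e x y * D.xi g e z) + D.E2 g i (dfj L D.s g e)) -
        D.E2 g i (fun x y => L ((zeta D.s)⁻¹ * form D.s g x y) / n) - D.β * conv D.R (D.q g) (D.tL L g) i| ≤
      6 * (|D.β| * (1 / kap D.s / n) + |D.lam| * (8 / kap D.s ^ 3)) +
        |D.β| * (24 * (D.dev g i + D.ad g) / kap D.s) +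
        (3 / kap D.s ^ 2 / n + ‖tauC D.s g - (zeta D.s)⁻¹‖ / kap D.s) := by
  have h1 : |D.D3 g i (fun x y z => ∑ e : Edge n, fj L D.s g e x y * D.xi g e z) -
      D.D3 g i (fun x y z => D.β * (ov x z * Bf L D.s g z y))| ≤
      6 * (|D.β| * (1 / kap D.s / n) + |D.lam| * (8 / kap D.s ^ 3)) := by
    rw [← D.D3_sub]
    refine (D.abs_D3_le g hi (k := fun _ _ => 1) fun x y z => ?_).trans_eq (by rw [D.E2_one, mul_one])
    rw [mul_one]
    exact fj_xi_close L hL D.hs D.β D.lam g x y z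
  have h2 : |D.D3 g i (fun x y z => D.β * (ov x z * Bf L D.s g z y)) - D.β * conv D.R (D.q g) (D.tL L g) i| ≤
      |D.β| * (24 * (D.dev g i + D.ad g) / kap D.s) := by
    rw [D.D3_const_mul, ← mul_sub, abs_mul]
    exact mul_le_mul_of_nonneg_left (conv_close D L hL g hi) (abs_nonneg _)
  have h3 : |D.E2 g i (fun x y => ∑ e : Edge n, dfj L D.s g e x y) -
      D.E2 g i (fun x y => L ((zeta D.s)⁻¹ * form D.s g x y) / n)| ≤
      3 / kap D.s ^ 2 / n + ‖tauC D.s g - (zeta D.s)⁻¹‖ / kap D.s := by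
    rw [← D.E2_sub]
    refine D.E2_abs_le g i fun x y => ?_
    refine (abs_sub_le _ (L (tauC D.s g * form D.s g x y) / n) _).trans
      (add_le_add (sum_dfj_close L hL D.hs g x y) ?_)
    rw [← sub_div, ← map_sub, ← sub_mul, abs_div, Nat.abs_cast, div_le_iff₀ npos']
    refine (hL _).trans ?_
    rw [norm_mul]
    refine (mul_le_mul_of_nonneg_left (norm_form D.hs g x y) (norm_nonneg _)).trans_eq ?_
    ring
  rw [sum_add_distrib, ← D.D3_sum, ← D.E2_sum]
  rw [abs_le] at h1 h2 h3 ⊢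
  constructor <;> linarith [h1.1, h1.2, h2.1, h2.2, h3.1, h3.2]

omit hL in
/-- the residual through the resolvent equation -/
lemma res_ibp_eq (g : Edge n → ℝ) (i : ℕ) :
    D.res L g i = ∑ e, g e * D.E2 g i (fj L D.s g e) -
      D.E2 g i (fun x y => L ((zeta D.s)⁻¹ * form D.s g x y) / n) - D.β * conv D.R (D.q g) (D.tL L g) i := by
  have e : (fun x y => L (zeta D.s * form D.s g x y) / n - ov x y * L 1) =
      fun x y => (∑ e, g e * fj L D.s g e x y) - L ((zeta D.s)⁻¹ * form D.s g x y) / n := by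
    funext x y
    have h := zt_form L D.hs g x y
    have h2 : L (cv x ⬝ᵥ cv y) = (sv x ⬝ᵥ sv y) * L 1 := by
      rw [show cv x ⬝ᵥ cv y = ((sv x ⬝ᵥ sv y : ℝ) : ℂ) * 1 by simp [dotProduct, cv, sv], L_ofReal_mul]
    rw [h2, zt, add_mul, map_add] at h
    have h4 : ∑ e, g e * fj L D.s g e x y =
        (∑ e, g e * (Rec.Fe e (sv x) (rL L D.s g y) / √(n : ℝ))) / n := by
      rw [sum_div]
      refine sum_congr rfl fun e _ => ?_
      rw [fj, mul_comm (n : ℝ), ← div_div, mul_div_assoc]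
    rw [h4, ← h, Rec.ov_eq_dot]
    ring
  simp only [Dat.res, e, D.E2_sub, D.E2_sum, D.E2_const_mul]

lemma eb_res (i : ℕ) : EB fun g => D.res L g i := by
  simp only [Dat.res]
  refine (eb_E2 D (fun x y => ?_) i).sub ((EB.const _).mul (Rec.eb_conv (eb_q D) (eb_tL D L) i))
  have hm : ∀ c : ℂ, EB fun g : Edge n → ℝ => L (c * form D.s g x y) := fun c => by
    have he : ∀ L' : ℂ →L[ℝ] ℝ, EB fun g : Edge n → ℝ => L' (form D.s g x y) := fun L' => by
      simp only [form, L_cdot]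
      simp only [dotProduct]
      exact EB.sum univ fun c _ => (EB.const _).mul (eb_rL L' D.hs y c)
    refine eb_L L ?_ ?_ <;> simp only [Complex.mul_re, Complex.mul_im]
    · exact ((EB.const _).mul (he Complex.reCLM)).sub ((EB.const _).mul (he Complex.imCLM))
    · exact ((EB.const _).mul (he Complex.imCLM)).add ((EB.const _).mul (he Complex.reCLM))
  simp only [div_eq_mul_inv]
  exact ((hm _).mul (EB.const _)).sub (EB.const _)

/-- **One integration by parts** of the residual at level `i`, against a function of the overlaps at level `l` -/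
theorem ibp_bound {φ a0 a1 a2 : (Edge n → ℝ) → ℝ} {B0 B1 : ℝ} (hφ : EB φ) (h0 : EB a0) (h1 : EB a1) (h2 : EB a2)
    (bφ : ∀ g, |φ g| ≤ B0) (b0 : ∀ g, |a0 g| ≤ B1) (b1 : ∀ g, |a1 g| ≤ B1) (b2 : ∀ g, |a2 g| ≤ B1)
    {i l : ℕ} (hi : i ≤ D.R) (hl : l ≤ D.R)
    (hd : ∀ g e, HasDerivAt (fun t => φ (Function.update g e t))
      (a0 g * dlev D.R (D.dq g e) 0 + a1 g * dlev D.R (D.dq g e) l + a2 g * D.dq g e l) (g e)) :
    |∫ g, φ g * D.res L g i ∂gauss (Edge n)| ≤
      B1 * (6 * (2 * |D.β| / kap D.s + 8 * |D.lam| / kap D.s ^ 3)) *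
          (2 * ∫ g, D.ad g ∂gauss (Edge n) + 2 * ∫ g, D.dev g l ∂gauss (Edge n)) +
        B0 * (6 * (|D.β| * (1 / kap D.s / n) + |D.lam| * (8 / kap D.s ^ 3)) +
          |D.β| * (24 / kap D.s) * (∫ g, D.dev g i ∂gauss (Edge n) + ∫ g, D.ad g ∂gauss (Edge n)) +
          (3 / kap D.s ^ 2 / n + (∫ g, ‖tauC D.s g - (zeta D.s)⁻¹‖ ∂gauss (Edge n)) / kap D.s)) := by
  set μ := gauss (Edge n)
  have hB0 : 0 ≤ B0 := (abs_nonneg _).trans (bφ 0)
  have hB1 : 0 ≤ B1 := (abs_nonneg _).trans (b0 0)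
  have hk := D.hs
  set A : Edge n → (Edge n → ℝ) → ℝ := fun e g => D.E2 g i (fj L D.s g e)
  set dA : Edge n → (Edge n → ℝ) → ℝ := fun e g =>
    D.D3 g i (fun x y z => fj L D.s g e x y * D.xi g e z) + D.E2 g i (dfj L D.s g e)
  set dφ : Edge n → (Edge n → ℝ) → ℝ := fun e g =>
    a0 g * dlev D.R (D.dq g e) 0 + a1 g * dlev D.R (D.dq g e) l + a2 g * D.dq g e l
  have eblev : ∀ (e : Edge n) k, EB fun g => dlev D.R (D.dq g e) k := fun e k => by
    simp only [dlev, div_eq_mul_inv]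
    exact (eb_dq D e _).sub ((((EB.const _).mul (eb_dq D e _)).add (EB.sum _ fun j _ => eb_dq D e j)).mul
      (EB.const _))
  have ebA : ∀ e, EB (A e) := fun e => eb_E2 D (fun x y => eb_fj L D.hs e x y) i
  have ebdA : ∀ e, EB (dA e) := fun e =>
    (eb_D3 D (fun x y z => (eb_fj L D.hs e x y).mul (eb_xiw D.hs D.β D.lam e z)) i).add
      (eb_E2 D (fun x y => eb_dfj L D.hs e x y) i)
  have ebdφ : ∀ e, EB (dφ e) := fun e =>
    ((h0.mul (eblev e 0)).add (h1.mul (eblev e l))).add (h2.mul (eb_dq D e l))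
  have ibp : ∀ e, ∫ g, g e * (φ g * A e g) ∂μ = ∫ g, (dφ e g * A e g + φ g * dA e g) ∂μ := fun e =>
    EB.ibp e (hφ.mul (ebA e)) (((ebdφ e).mul (ebA e)).add (hφ.mul (ebdA e))) (Rec.deriv_line (F := fun g => φ g * A e g)
      (F' := fun g => dφ e g * A e g + φ g * dA e g) (e := e) fun g => by
      refine ((hd g e).fun_mul (hd_E2 D g e hi (f := fun t => fj L D.s (Function.update g e t) e)
        fun x y => hd_fj L D.hs g e x y)).congr_deriv ?_
      simp only [Function.update_eq_self, dφ, dA, A])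
  set W : (Edge n → ℝ) → ℝ := fun g =>
    D.E2 g i (fun x y => L ((zeta D.s)⁻¹ * form D.s g x y) / n) + D.β * conv D.R (D.q g) (D.tL L g) i
  have ebW : EB W := by
    have h := (EB.sum univ fun e _ => (EB.proj e).mul (ebA e)).sub (eb_res D L hL i)
    simp only [res_ibp_eq D L, A] at h
    simpa only [W, sub_sub_cancel, sub_sub] using h
  set T : (Edge n → ℝ) → ℝ := fun g =>
    (∑ e, dφ e g * A e g) + φ g * ((∑ e, dA e g) - W g)
  have key : ∫ g, φ g * D.res L g i ∂μ = ∫ g, T g ∂μ := by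
    have e1 : ∀ g, φ g * D.res L g i = (∑ e, g e * (φ g * A e g)) - φ g * W g := fun g => by
      rw [res_ibp_eq D L, sub_sub, mul_sub, mul_sum]
      exact congrArg₂ (· - ·) (sum_congr rfl fun e _ => mul_left_comm _ _ _) rfl
    have e2 : ∀ g, (∑ e, (dφ e g * A e g + φ g * dA e g)) - φ g * W g = T g := fun g => by
      simp only [T, sum_add_distrib, ← mul_sum]
      ring
    simp only [e1]
    rw [integral_sub (EB.sum univ fun e _ => (EB.proj e).mul (hφ.mul (ebA e))).integrable (hφ.mul ebW).integrable,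
      integral_finsetSum _ fun e _ => ((EB.proj e).mul (hφ.mul (ebA e))).integrable,
      sum_congr rfl fun e _ => ibp e,
      ← integral_finsetSum _ fun e _ => (((ebdφ e).mul (ebA e)).add (hφ.mul (ebdA e))).integrable,
      ← integral_sub (EB.sum univ fun e _ => ((ebdφ e).mul (ebA e)).add (hφ.mul (ebdA e))).integrable
        (hφ.mul ebW).integrable]
    exact integral_congr_ae (Filter.Eventually.of_forall e2)
  set M := 2 * |D.β| / kap D.s + 8 * |D.lam| / kap D.s ^ 3
  have hM : 0 ≤ M := by positivity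
  set C0 := 6 * (|D.β| * (1 / kap D.s / n) + |D.lam| * (8 / kap D.s ^ 3))
  have hlev : ∀ g k, k ≤ D.R → |∑ e, dlev D.R (D.dq g e) k * A e g| ≤
      6 * (M * (D.ad g + if k = 0 then 0 else D.dev g k)) := fun g k hk => by
    set w : ℕ → ℝ := fun j => ∑ e, D.dq g e j * A e g
    have hw : ∀ j ≤ D.R, |w j| ≤ 6 * (M * D.dev g j) := fun j hj => sum_dq_E2_le D L hL g hj i
    have e : ∑ e, dlev D.R (D.dq g e) k * A e g =
        w D.R - ((k : ℝ) * w k + ∑ j ∈ Ico k D.R, w j) / D.R := by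
      simp only [dlev, w, sub_mul, div_mul_eq_mul_div, add_mul, sum_mul, sum_sub_distrib, ← sum_div,
        sum_add_distrib, mul_sum, mul_assoc]
      rw [sum_comm (t := Ico k D.R)]
    rw [e]
    refine (abs_sub _ _).trans ?_
    have hR : (0:ℝ) < D.R := Nat.cast_pos.2 D.P.one_le
    have hs1 : |(k : ℝ) * w k + ∑ j ∈ Ico k D.R, w j| / D.R ≤
        6 * (M * ((if k = 0 then 0 else D.dev g k) + (∑ j ∈ range D.R, D.dev g j) / D.R)) := by
      rw [div_le_iff₀ hR]
      refine (abs_add_le _ _).trans ?_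
      have b1 : |(k : ℝ) * w k| ≤ 6 * (M * ((if k = 0 then 0 else D.dev g k) * D.R)) := by
        split_ifs with h
        · simp [h]
        · rw [abs_mul, Nat.abs_cast]
          refine (mul_le_mul (Nat.cast_le.2 hk) (hw k hk) (abs_nonneg _) hR.le).trans_eq ?_
          ring
      have b2 : |∑ j ∈ Ico k D.R, w j| ≤ 6 * (M * ∑ j ∈ range D.R, D.dev g j) := by
        rw [mul_sum, mul_sum]
        refine ((abs_sum_le_sum_abs _ _).trans (sum_le_sum fun j hj => hw j (mem_Ico.1 hj).2.le)).trans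
          (sum_le_sum_of_subset_of_nonneg (fun j hj => mem_range.2 (mem_Ico.1 hj).2) fun j _ _ =>
            mul_nonneg (by norm_num) (mul_nonneg hM (D.dev_nonneg g j)))
      refine (add_le_add b1 b2).trans_eq ?_
      field_simp
      try ring
    rw [abs_div, Nat.abs_cast]
    refine (add_le_add (hw D.R le_rfl) hs1).trans_eq ?_
    rw [D.ad_eq]
    ring
  have hT : ∀ g, |T g| ≤ B1 * (6 * M) * (2 * D.ad g + 2 * D.dev g l) +
      B0 * (C0 + |D.β| * (24 / kap D.s) * (D.dev g i + D.ad g) +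
        (3 / kap D.s ^ 2 / n + ‖tauC D.s g - (zeta D.s)⁻¹‖ / kap D.s)) := fun g => by
    refine (abs_add_le _ _).trans (add_le_add ?_ ?_)
    · have e : ∑ e, dφ e g * A e g = a0 g * (∑ e, dlev D.R (D.dq g e) 0 * A e g) +
          a1 g * (∑ e, dlev D.R (D.dq g e) l * A e g) + a2 g * ∑ e, D.dq g e l * A e g := by
        simp only [dφ, mul_sum, ← sum_add_distrib]
        exact sum_congr rfl fun e _ => by ring
      have c0 := mul_le_mul (b0 g) (hlev g 0 (Nat.zero_le _)) (abs_nonneg _) hB1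
      have c1 : |a1 g| * |∑ e, dlev D.R (D.dq g e) l * A e g| ≤ B1 * (6 * (M * (D.ad g + D.dev g l))) := by
        refine mul_le_mul (b1 g) ((hlev g l hl).trans ?_) (abs_nonneg _) hB1
        refine mul_le_mul_of_nonneg_left (mul_le_mul_of_nonneg_left ?_ hM) (by norm_num)
        have := D.dev_nonneg g l
        split_ifs <;> linarith
      have c2 : |a2 g| * |∑ e, D.dq g e l * A e g| ≤ B1 * (6 * (M * D.dev g l)) :=
        mul_le_mul (b2 g) (sum_dq_E2_le D L hL g hl i) (abs_nonneg _) hB1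
      rw [if_pos rfl, add_zero] at c0
      rw [e]
      refine (abs_add_three _ _ _).trans ?_
      rw [abs_mul, abs_mul, abs_mul]
      linarith
    · rw [abs_mul]
      refine mul_le_mul (bφ g) ?_ (abs_nonneg _) hB0
      simp only [W, ← sub_sub]
      refine (sum_dA_close D L hL g hi).trans_eq ?_
      simp only [C0]
      ring
  have ebτ : EB fun g : Edge n → ℝ => ‖tauC D.s g - (zeta D.s)⁻¹‖ := by
    refine EB.of_le (EB.const (1 / kap D.s + ‖(zeta D.s)⁻¹‖))
      ((differentiable_tauC D.hs).continuous.sub continuous_const).norm fun g => ?_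
    rw [abs_of_nonneg (norm_nonneg _)]
    refine (norm_sub_le _ _).trans (add_le_add ?_ le_rfl)
    rw [tauC, norm_div, Complex.norm_natCast]
    refine div_le_of_le_mul₀ (Nat.cast_nonneg _) (by positivity) ?_
    refine (norm_sum_le _ _).trans ((sum_le_sum fun a _ => norm_Gc D.hs g a a).trans_eq ?_)
    simp [mul_comm]
  have i1 : Integrable (fun g => B1 * (6 * M) * (2 * D.ad g + 2 * D.dev g l)) μ :=
    ((((eb_ad D).integrable).const_mul 2).add ((eb_dev D l).integrable.const_mul 2)).const_mul _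
  have i2 : Integrable (fun g => |D.β| * (24 / kap D.s) * (D.dev g i + D.ad g)) μ :=
    ((eb_dev D i).integrable.add (eb_ad D).integrable).const_mul _
  have i3 : Integrable (fun g : Edge n → ℝ => ‖tauC D.s g - (zeta D.s)⁻¹‖ / kap D.s) μ := ebτ.integrable.div_const _
  have i5 : Integrable (fun g => C0 + |D.β| * (24 / kap D.s) * (D.dev g i + D.ad g)) μ :=
    (integrable_const C0).add i2
  have i6 : Integrable (fun g : Edge n → ℝ => 3 / kap D.s ^ 2 / n + ‖tauC D.s g - (zeta D.s)⁻¹‖ / kap D.s) μ :=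
    (integrable_const _).add i3
  have i4 : Integrable (fun g => C0 + |D.β| * (24 / kap D.s) * (D.dev g i + D.ad g) +
      (3 / kap D.s ^ 2 / n + ‖tauC D.s g - (zeta D.s)⁻¹‖ / kap D.s)) μ := i5.add i6
  rw [key]
  refine (abs_integral_le_integral_abs).trans ((integral_mono_of_nonneg
    (Filter.Eventually.of_forall fun g => abs_nonneg _) (i1.add (i4.const_mul B0))
    (Filter.Eventually.of_forall hT)).trans ?_)
  simp only [Pi.add_apply]
  rw [integral_add i1 (i4.const_mul B0), integral_const_mul, integral_const_mul,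
    integral_add (((eb_ad D).integrable).const_mul 2) ((eb_dev D l).integrable.const_mul 2), integral_const_mul,
    integral_const_mul, integral_add i5 i6,
    integral_add (integrable_const _) i2, integral_add (integrable_const _) i3, integral_const, integral_const,
    integral_const_mul, integral_add (eb_dev D i).integrable (eb_ad D).integrable, integral_div,
    probReal_univ, one_smul, one_smul]

end ibp

end Vale.Agent.P146.Lower.Res
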