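import Vale.Agent.P146.Lower.Res.Worth
import Vale.Agent.P146.Lower.Res.Basic

/-! P146, polynomial lower bound, recursion: the residual of the level values of the resolvent and the functions of
the mean overlaps it is tested against. -/

open Finset Real

noncomputable section

namespace Vale.Agent.P146.Lower.Res

/-- susceptibility of a complex level function -/
def cdlev (R : ℕ) (w : ℕ → ℂ) (l : ℕ) : ℂ := w R - ((l : ℂ) * w l + ∑ i ∈ Ico l R, w i) / R

/-- residual of complex level values against the replica convolution -/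
def cres (β s : ℝ) (R : ℕ) (q : ℕ → ℝ) (t : ℕ → ℂ) (l : ℕ) : ℂ :=
  ⟨(zeta s * t l).re - q l - β * conv R q (fun i => (t i).re) l,
    (zeta s * t l).im - β * conv R q (fun i => (t i).im) l⟩

/-- the denominator at a level -/
def den (β s : ℝ) (R : ℕ) (q : ℕ → ℝ) (l : ℕ) : ℂ := zeta s - ((β * dlev R q l : ℝ) : ℂ)

/-- derivative of the cutoff -/
def dcut (s K d : ℝ) : ℝ := -(2 * (d / (K * s))) / (1 + (d / (K * s)) ^ 2) ^ 2 / (K * s)

/-- the three tests at level `l` -/
def Tf (β s K : ℝ) (R : ℕ) (q : ℕ → ℝ) (l : ℕ) : Fin 3 → ℂ :=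
  ![(den β s R q l)⁻¹,
    (cut s K (dropD R q l) : ℂ) / den β s R q l,
    ((β * cut s K (dropD R q l) * q l : ℝ) : ℂ) / (den β s R q 0 * den β s R q l)]

/-- their partial derivatives in `D 0`, `D l` and `q l` -/
def Ta (β s K : ℝ) (R : ℕ) (q : ℕ → ℝ) (l : ℕ) : Fin 3 → Fin 3 → ℂ :=
  let c : ℂ := (cut s K (dropD R q l) : ℂ)
  let c' : ℂ := (dcut s K (dropD R q l) : ℂ)
  let u := den β s R q 0
  let v := den β s R q l
  let b : ℂ := (β : ℂ)
  ![![0, b / v ^ 2, 0],
    ![c' / v, -c' / v + b * c / v ^ 2, 0],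
    ![b * (q l : ℂ) * (c' / (u * v) + b * c / (u ^ 2 * v)),
      b * (q l : ℂ) * (-c' / (u * v) + b * c / (u * v ^ 2)), b * c / (u * v)]]

end Vale.Agent.P146.Lower.Res
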