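import Vale.Agent.P146.Lower.Res.Smooth
import Vale.Agent.P146.Lower.Res.Drop
import Vale.Agent.P146.Lower.RecMat
import Vale.Agent.P157.Par.GridRep

/-! P146, polynomial lower bound, recursion: edge sums of the resolvent fields. All bounds depend on the spectral
parameter only. `L` is the real or imaginary part. -/

open MeasureTheory Finset Real Matrix
open Vale.Agent.P150 (gauss)
open Vale.Agent.P157.Par (ov)
open Vale.Agent.P146.Lower.Rec (Fe sv nr)

noncomputable section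

namespace Vale.Agent.P146.Lower.Res

variable {n : ℕ}

/-- the complex edge form -/
def Fc (e : Edge n) (p r : Fin n → ℂ) : ℂ := p e.1.1 * r e.1.2 + p e.1.2 * r e.1.1

/-- `σ' G τ` -/
def form (s : ℝ) (g : Edge n → ℝ) (x y : Cfg n) : ℂ := cv x ⬝ᵥ (Gc s g *ᵥ cv y)

/-- a part of `G τ` -/
def rL (L : ℂ →L[ℝ] ℝ) (s : ℝ) (g : Edge n → ℝ) (y : Cfg n) : Fin n → ℝ := fun c => L ((Gc s g *ᵥ cv y) c)

/-- a part of `σ' G τ / n` -/
def Bf (L : ℂ →L[ℝ] ℝ) (s : ℝ) (g : Edge n → ℝ) (x y : Cfg n) : ℝ := L (form s g x y) / n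

/-- the integrand of the integration by parts -/
def fj (L : ℂ →L[ℝ] ℝ) (s : ℝ) (g : Edge n → ℝ) (e : Edge n) (x y : Cfg n) : ℝ :=
  Fe e (sv x) (rL L s g y) / ((n : ℝ) * √(n : ℝ))

/-- its derivative -/
def dfj (L : ℂ →L[ℝ] ℝ) (s : ℝ) (g : Edge n → ℝ) (e : Edge n) (x y : Cfg n) : ℝ :=
  L (Fc e (cv x) ((Gc s g * Ee e * Gc s g) *ᵥ cv y)) / √(n : ℝ) / ((n : ℝ) * √(n : ℝ))

/-- logarithmic derivative of the weight -/
def xiw (β s lam : ℝ) (g : Edge n → ℝ) (e : Edge n) (z : Cfg n) : ℝ :=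
  β * (bond z e / √(n : ℝ)) + lam * (dpb s g e z / √(n : ℝ))

section lin

variable (L : ℂ →L[ℝ] ℝ)

lemma L_ofReal_mul (a : ℝ) (z : ℂ) : L ((a : ℂ) * z) = a * L z := by
  rw [← Complex.real_smul, map_smul, smul_eq_mul]

lemma L_cdot (x : Cfg n) (v : Fin n → ℂ) : L (cv x ⬝ᵥ v) = sv x ⬝ᵥ fun c => L (v c) := by
  simp only [dotProduct, map_sum, cv]
  exact sum_congr rfl fun a _ => by rw [L_ofReal_mul]; rfl

lemma L_Wm (g : Edge n → ℝ) (r : Fin n → ℂ) :
    (fun c => L (((Wm g).map Complex.ofReal *ᵥ r) c)) = Wm g *ᵥ fun c => L (r c) := by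
  funext c
  simp only [Matrix.mulVec, dotProduct, map_sum, Matrix.map_apply]
  exact sum_congr rfl fun a _ => L_ofReal_mul L _ _

lemma L_Fc (e : Edge n) (x : Cfg n) (r : Fin n → ℂ) :
    L (Fc e (cv x) r) = Fe e (sv x) fun c => L (r c) := by
  simp only [Fc, Fe, map_add]
  unfold cv
  rw [L_ofReal_mul, L_ofReal_mul]
  rfl

lemma nr_L_le (hL : ∀ z, |L z| ≤ ‖z‖) (v : Fin n → ℂ) : nr (fun c => L (v c)) ≤ cn v := by
  refine le_of_pow_le_pow_left₀ two_ne_zero (cn_nonneg v) ?_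
  rw [Rec.nr_sq, cn_sq, dotProduct]
  refine sum_le_sum fun c _ => ?_
  rw [← sq, ← sq_abs]
  exact pow_le_pow_left₀ (abs_nonneg _) (hL _) 2

lemma eb_L {F : (Edge n → ℝ) → ℂ} (hr : EB fun g => (F g).re) (hi : EB fun g => (F g).im) :
    EB fun g => L (F g) := by
  have e : ∀ z : ℂ, L z = z.re * L 1 + z.im * L Complex.I := fun z => by
    conv_lhs => rw [← Complex.re_add_im z]
    rw [map_add, L_ofReal_mul, ← mul_one (z.re : ℂ), L_ofReal_mul]
  rw [show (fun g => L (F g)) = fun g => (F g).re * L 1 + (F g).im * L Complex.I from funext fun g => e _]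
  exact (hr.mul (EB.const _)).add (hi.mul (EB.const _))

end lin

/-- the edge sum against the derivative of `V r`, complex -/
lemma sum_edge_ctrace (V : Matrix (Fin n) (Fin n) ℂ) (x r : Fin n → ℂ) :
    ∑ e : Edge n, (x e.1.1 * Fc e (V e.1.2) r + x e.1.2 * Fc e (V e.1.1) r) =
      r ⬝ᵥ (V *ᵥ x) + V.trace * (x ⬝ᵥ r) - 2 * ∑ a, x a * V a a * r a := by
  have hs : ∀ h : Fin n → Fin n → ℂ,
      ∑ a, ∑ b, h a b = ∑ e : Edge n, (h e.1.1 e.1.2 + h e.1.2 e.1.1) + ∑ a, h a a := fun h => by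
    apply Complex.ext
    · simp only [Complex.re_sum, Complex.add_re]
      exact Rec.sum_all_split fun a b => (h a b).re
    · simp only [Complex.im_sum, Complex.add_im]
      exact Rec.sum_all_split fun a b => (h a b).im
  have h := hs fun a b => x a * V b a * r b + x a * V b b * r a
  have e1 : ∀ e : Edge n, x e.1.1 * V e.1.2 e.1.1 * r e.1.2 + x e.1.1 * V e.1.2 e.1.2 * r e.1.1 +
      (x e.1.2 * V e.1.1 e.1.2 * r e.1.1 + x e.1.2 * V e.1.1 e.1.1 * r e.1.2) =
      x e.1.1 * Fc e (V e.1.2) r + x e.1.2 * Fc e (V e.1.1) r := fun e => by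
    simp only [Fc]; ring
  have e2 : ∑ a, ∑ b, (x a * V b a * r b + x a * V b b * r a) =
      r ⬝ᵥ (V *ᵥ x) + V.trace * (x ⬝ᵥ r) := by
    simp only [sum_add_distrib]
    congr 1
    · rw [sum_comm]
      simp only [dotProduct, Matrix.mulVec, mul_sum]
      exact sum_congr rfl fun a _ => sum_congr rfl fun b _ => by ring
    · simp only [Matrix.trace, Matrix.diag, dotProduct]
      rw [sum_mul_sum]
      conv_rhs => rw [sum_comm]
      exact sum_congr rfl fun a _ => sum_congr rfl fun b _ => by ring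
  simp only [e1] at h
  rw [e2] at h
  rw [h, mul_sum]
  have e3 : ∑ a, (x a * V a a * r a + x a * V a a * r a) = ∑ a, 2 * (x a * V a a * r a) :=
    sum_congr rfl fun a _ => by ring
  rw [e3]
  ring

variable [NeZero n]

lemma npos' : (0:ℝ) < n := by exact_mod_cast NeZero.pos n

variable (L : ℂ →L[ℝ] ℝ) (hL : ∀ z, |L z| ≤ ‖z‖) {s : ℝ} (hs : 0 < kap s)
include hs

omit [NeZero n] in
lemma norm_form (g : Edge n → ℝ) (x y : Cfg n) : ‖form s g x y‖ ≤ n / kap s := by
  refine (abs_cdot_le _ _).trans ((mul_le_mul_of_nonneg_left (cn_Gc hs g (cv y)) (cn_nonneg _)).trans_eq ?_)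
  rw [cn_cv, cn_cv, ← mul_div_assoc, Real.mul_self_sqrt (Nat.cast_nonneg _)]

include hL in
lemma abs_Bf_le (g : Edge n → ℝ) (x y : Cfg n) : |Bf L s g x y| ≤ 1 / kap s := by
  rw [Bf, abs_div, Nat.abs_cast, div_le_iff₀ npos', one_div_mul_eq_div]
  exact (hL _).trans (norm_form hs g x y)

include hL in
omit [NeZero n] in
lemma nr_rL (g : Edge n → ℝ) (y : Cfg n) : nr (rL L s g y) ≤ √(n : ℝ) / kap s := by
  refine (nr_L_le L hL _).trans ((cn_Gc hs g (cv y)).trans_eq ?_)
  rw [cn_cv]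

omit [NeZero n] in
/-- the resolvent equation: `z σ'Gτ - σ'τ` is linear in the disorder -/
lemma zt_form (g : Edge n → ℝ) (x y : Cfg n) :
    L (zt s * form s g x y) - L (cv x ⬝ᵥ cv y) = ∑ e, g e * (Fe e (sv x) (rL L s g y) / √(n : ℝ)) := by
  rw [← map_sub, form, ← smul_eq_mul, ← dotProduct_smul, ← dotProduct_sub, ← res_eq hs, L_cdot, L_Wm,
    Rec.dot_Wm]
  rfl

/-- the integrand against the derivative of the coupling energy -/
lemma sum_bond_close (g : Edge n → ℝ) (x y z : Cfg n) (hL : ∀ z, |L z| ≤ ‖z‖) :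
    |∑ e : Edge n, fj L s g e x y * (bond z e / √(n : ℝ)) - ov x z * Bf L s g z y| ≤ 1 / kap s / n := by
  have hn : (0:ℝ) < n := npos'
  have hb : ∀ e : Edge n, bond z e = Fe e (sv z) (sv z) / 2 := fun e => by simp only [bond, Fe, sv]; ring
  have hz : ∀ a, sv z a * sv z a = 1 := fun a => by cases h : z a <;> simp [sv, spin, h]
  set r := rL L s g y with hr
  have e1 : ∑ e : Edge n, fj L s g e x y * (bond z e / √(n : ℝ)) =
      ((sv x ⬝ᵥ sv z) * (r ⬝ᵥ sv z) - sv x ⬝ᵥ r) / (n:ℝ) ^ 2 := by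
    have h := Rec.sum_Fe_Fe (sv x) r (sv z) (sv z)
    simp only [hz, mul_one] at h
    rw [show (sv x ⬝ᵥ sv z) * (r ⬝ᵥ sv z) - sv x ⬝ᵥ r = (∑ e, Fe e (sv x) r * Fe e (sv z) (sv z)) / 2 from by
      rw [h, show ∑ a, sv x a * r a = sv x ⬝ᵥ r from rfl]; ring, sum_div, sum_div]
    refine sum_congr rfl fun e _ => ?_
    rw [hb, fj, ← hr]
    field_simp
    rw [Real.sq_sqrt hn.le]
  have e3 : ov x z = (sv x ⬝ᵥ sv z) / n := by
    rw [Vale.Agent.P157.Par.ov, Vale.Agent.P168.MP.avg, Fintype.card_fin]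
    rfl
  have e2 : ∀ w : Cfg n, L (form s g w y) = sv w ⬝ᵥ r := fun w => L_cdot L w _
  rw [e1, e3, Bf, e2, dotProduct_comm r, div_mul_div_comm, ← sq,
    sub_div, sub_sub_cancel_left, abs_neg, abs_div, abs_of_pos (pow_pos hn 2), div_div,
    div_le_div_iff₀ (pow_pos hn 2) (by positivity)]
  have h := (hL _).trans (norm_form hs g x y)
  rw [e2, le_div_iff₀ hs] at h
  nlinarith [mul_le_mul_of_nonneg_right h hn.le]

include hL in
/-- the integrand against the derivative of the deformation -/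
lemma sum_dpb_le (g : Edge n → ℝ) (x y z : Cfg n) :
    |∑ e : Edge n, fj L s g e x y * (dpb s g e z / √(n : ℝ))| ≤ 8 / kap s ^ 3 := by
  have hn : (0:ℝ) < n := npos'
  set u1 := rL Complex.reCLM s g z with hu1
  set u2 := rL Complex.imCLM s g z with hu2
  have hd : ∀ e : Edge n, dpb s g e z = -2 * Fe e u1 u2 := fun e => by
    simp only [dpb, Fe, hu1, hu2, rL, Complex.reCLM_apply, Complex.imCLM_apply, Complex.mul_im, Complex.re_ofNat,
      Complex.im_ofNat]
    ring
  have e1 : ∑ e : Edge n, fj L s g e x y * (dpb s g e z / √(n : ℝ)) =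
      -2 * (∑ e : Edge n, Fe e (sv x) (rL L s g y) * Fe e u1 u2) / (n:ℝ) ^ 2 := by
    rw [mul_sum, sum_div]
    refine sum_congr rfl fun e _ => ?_
    rw [hd, fj]
    field_simp
    rw [Real.sq_sqrt hn.le]
  have h1 := nr_rL Complex.reCLM (fun w => Complex.abs_re_le_norm w) hs g z
  have h2 := nr_rL Complex.imCLM (fun w => Complex.abs_im_le_norm w) hs g z
  have h3 := nr_rL L hL hs g y
  have h := (Rec.abs_sum_Fe_Fe_le (sv x) (rL L s g y) u1 u2).trans (mul_le_mul_of_nonneg_left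
    (mul_le_mul (mul_le_mul_of_nonneg_left h3 (Rec.nr_nonneg _))
      (mul_le_mul h1 h2 (Rec.nr_nonneg _) (by positivity))
      (mul_nonneg (Rec.nr_nonneg _) (Rec.nr_nonneg _)) (mul_nonneg (Rec.nr_nonneg _) (by positivity)))
    (by norm_num))
  rw [e1, abs_div, abs_mul, abs_of_pos (pow_pos hn 2), div_le_iff₀ (pow_pos hn 2)]
  refine (mul_le_mul_of_nonneg_left h (abs_nonneg _)).trans_eq ?_
  rw [Rec.nr_sv, show |(-2:ℝ)| = 2 by norm_num]
  field_simp
  rw [show √(n:ℝ) ^ 4 = (√(n:ℝ) ^ 2) ^ 2 by ring, Real.sq_sqrt hn.le]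
  ring

include hL in
lemma fj_xi_close (β lam : ℝ) (g : Edge n → ℝ) (x y z : Cfg n) :
    |∑ e : Edge n, fj L s g e x y * xiw β s lam g e z - β * (ov x z * Bf L s g z y)| ≤
      |β| * (1 / kap s / n) + |lam| * (8 / kap s ^ 3) := by
  have e : ∑ e : Edge n, fj L s g e x y * xiw β s lam g e z =
      β * ∑ e : Edge n, fj L s g e x y * (bond z e / √(n : ℝ)) +
        lam * ∑ e : Edge n, fj L s g e x y * (dpb s g e z / √(n : ℝ)) := by
    simp only [xiw, mul_sum, ← sum_add_distrib]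
    exact sum_congr rfl fun e _ => by ring
  rw [e, add_sub_right_comm, ← mul_sub]
  refine (abs_add_le _ _).trans (add_le_add ?_ ?_) <;> rw [abs_mul]
  · exact mul_le_mul_of_nonneg_left (sum_bond_close L hs g x y z hL) (abs_nonneg _)
  · exact mul_le_mul_of_nonneg_left (sum_dpb_le L hL hs g x y z) (abs_nonneg _)

include hL in
lemma fj_xi_le (β lam : ℝ) (g : Edge n → ℝ) (x y z : Cfg n) :
    |∑ e : Edge n, fj L s g e x y * xiw β s lam g e z| ≤ 2 * |β| / kap s + 8 * |lam| / kap s ^ 3 := by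
  have h1 := fj_xi_close L hL hs β lam g x y z
  have h2 : |β * (ov x z * Bf L s g z y)| ≤ |β| * (1 / kap s) := by
    rw [abs_mul, abs_mul]
    exact mul_le_mul_of_nonneg_left
      ((mul_le_of_le_one_left (abs_nonneg _) (Vale.Agent.P157.Par.abs_ov_le _ _)).trans (abs_Bf_le L hL hs g z y))
      (abs_nonneg _)
  have h3 := mul_le_mul_of_nonneg_left
    (div_le_self (by positivity : (0:ℝ) ≤ 1 / kap s) (Nat.one_le_cast.2 (NeZero.one_le (n := n)))) (abs_nonneg β)
  have := abs_sub_abs_le_abs_sub (∑ e : Edge n, fj L s g e x y * xiw β s lam g e z) (β * (ov x z * Bf L s g z y))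
  have e1 : |β| * (1 / kap s) + |β| * (1 / kap s) + |lam| * (8 / kap s ^ 3) =
      2 * |β| / kap s + 8 * |lam| / kap s ^ 3 := by ring
  linarith

include hL in
/-- the derivative of the resolvent: the trace times the form -/
lemma sum_dfj_close (g : Edge n → ℝ) (x y : Cfg n) :
    |∑ e : Edge n, dfj L s g e x y - L (tauC s g * form s g x y) / n| ≤ 3 / kap s ^ 2 / n := by
  have hn : (0:ℝ) < n := npos'
  set G := Gc s g with hG
  set r := G *ᵥ cv y with hr
  set rest : ℂ := r ⬝ᵥ (G *ᵥ cv x) - 2 * ∑ a, cv x a * G a a * r a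
  have hw : ∀ (e : Edge n) c, ((G * Ee e * G) *ᵥ cv y) c = Fc e (G c) r := fun e c => by
    simp only [hr, Fc, Matrix.mulVec, dotProduct, Ee_sandwich, mul_sum, ← sum_add_distrib]
    exact sum_congr rfl fun i _ => by ring
  have e1 : ∑ e : Edge n, dfj L s g e x y = L (G.trace * form s g x y + rest) / (n:ℝ) ^ 2 := by
    have h := sum_edge_ctrace G (cv x) r
    have : G.trace * form s g x y + rest = ∑ e : Edge n, Fc e (cv x) ((G * Ee e * G) *ᵥ cv y) := by
      simp only [Fc, hw, form, ← hG, ← hr]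
      simp only [Fc] at h
      rw [h]
      simp only [rest]
      ring
    rw [this, map_sum, sum_div]
    refine sum_congr rfl fun e _ => ?_
    rw [dfj, ← hG, div_div, mul_left_comm, Real.mul_self_sqrt hn.le, ← sq]
  have hv : cn (fun a => cv x a * G a a) ≤ √(n : ℝ) / kap s := by
    refine le_of_pow_le_pow_left₀ two_ne_zero (by positivity) ?_
    rw [cn_sq, div_pow, Real.sq_sqrt hn.le]
    refine (sum_le_sum (g := fun _ => (1 / kap s) ^ 2) fun a _ => ?_).trans_eq (by simp; ring)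
    refine pow_le_pow_left₀ (norm_nonneg _) ?_ 2
    rw [norm_mul, cv, Complex.norm_real, Real.norm_eq_abs, Vale.Agent.P146.abs_spin, one_mul]
    exact norm_Gc hs g a a
  have hr' : cn r ≤ √(n : ℝ) / kap s := (cn_Gc hs g (cv y)).trans_eq (by rw [cn_cv])
  have hrest : ‖rest‖ ≤ 3 * (n / kap s ^ 2) := by
    have hx : cn (G *ᵥ cv x) ≤ √(n : ℝ) / kap s := (cn_Gc hs g (cv x)).trans_eq (by rw [cn_cv])
    have e2 : √(n : ℝ) / kap s * (√(n : ℝ) / kap s) = n / kap s ^ 2 := by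
      rw [div_mul_div_comm, Real.mul_self_sqrt hn.le, sq]
    have b1 := (abs_cdot_le r (G *ᵥ cv x)).trans
      ((mul_le_mul hr' hx (cn_nonneg _) (by positivity)).trans_eq e2)
    have b2 := (abs_cdot_le (fun a => cv x a * G a a) r).trans
      ((mul_le_mul hv hr' (cn_nonneg _) (by positivity)).trans_eq e2)
    refine (norm_sub_le _ _).trans ?_
    rw [norm_mul, Complex.norm_ofNat]
    simp only [dotProduct] at b2
    linarith
  have e3 : L (tauC s g * form s g x y) / n = L (G.trace * form s g x y) / (n:ℝ) ^ 2 := by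
    rw [tauC, ← hG, div_mul_eq_mul_div, div_eq_inv_mul (G.trace * _), show ((n:ℂ))⁻¹ = (((n:ℝ)⁻¹ : ℝ) : ℂ) by simp,
      L_ofReal_mul]
    field_simp
  rw [e1, e3, map_add, add_div, add_sub_cancel_left, abs_div, abs_of_pos (pow_pos hn 2),
    div_le_iff₀ (pow_pos hn 2)]
  refine ((hL _).trans hrest).trans_eq ?_
  field_simp

omit [NeZero n] in
lemma hd_fj (g : Edge n → ℝ) (e : Edge n) (x y : Cfg n) :
    HasDerivAt (fun t => fj L s (Function.update g e t) e x y) (dfj L s g e x y) (g e) := by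
  have h : ∀ c, HasDerivAt (fun t => rL L s (Function.update g e t) y c)
      (L (((Gc s g * Ee e * Gc s g) *ᵥ cv y) c) / √(n : ℝ)) (g e) := fun c => by
    have h1 := HasDerivAt.fun_sum (u := univ) fun i _ => (hasDerivAt_Gc hs g e c i).mul_const (cv y i)
    refine (L.hasFDerivAt.comp_hasDerivAt (g e) h1).congr_deriv ?_
    simp only [Matrix.mulVec, dotProduct, map_sum, sum_div]
    refine sum_congr rfl fun i _ => ?_
    rw [div_mul_eq_mul_div, div_eq_inv_mul, show (((√(n:ℝ) : ℝ) : ℂ))⁻¹ = (((√(n:ℝ))⁻¹ : ℝ) : ℂ) by simp,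
      L_ofReal_mul, div_eq_inv_mul]
  refine ((((h e.1.2).const_mul (sv x e.1.1)).add ((h e.1.1).const_mul (sv x e.1.2))).div_const _).congr_deriv ?_
  rw [dfj, L_Fc, Fe]
  ring

omit [NeZero n] in
lemma eb_rL (y : Cfg n) (c : Fin n) : EB fun g : Edge n → ℝ => rL L s g y c := by
  simp only [rL, Matrix.mulVec, dotProduct, map_sum, cv, mul_comm (Gc s _ c _), L_ofReal_mul]
  exact EB.sum univ fun i _ => (EB.const _).mul (eb_L L (eb_re_Gc hs c i) (eb_im_Gc hs c i))

omit [NeZero n] in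
lemma eb_fj (e : Edge n) (x y : Cfg n) : EB fun g : Edge n → ℝ => fj L s g e x y := by
  simp only [fj, Fe, div_eq_mul_inv]
  exact (((EB.const _).mul (eb_rL L hs y _)).add ((EB.const _).mul (eb_rL L hs y _))).mul (EB.const _)

omit [NeZero n] in
lemma eb_dfj (e : Edge n) (x y : Cfg n) : EB fun g : Edge n → ℝ => dfj L s g e x y := by
  have h : ∀ a b c d : Fin n, EB (fun g : Edge n → ℝ => (Gc s g a b * Gc s g c d).re) ∧
      EB fun g : Edge n → ℝ => (Gc s g a b * Gc s g c d).im := fun a b c d => by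
    simp only [Complex.mul_re, Complex.mul_im]
    exact ⟨((eb_re_Gc hs a b).mul (eb_re_Gc hs c d)).sub ((eb_im_Gc hs a b).mul (eb_im_Gc hs c d)),
      ((eb_re_Gc hs a b).mul (eb_im_Gc hs c d)).add ((eb_im_Gc hs a b).mul (eb_re_Gc hs c d))⟩
  have hm : ∀ (r : ℝ) (a b c d : ℂ), L ((a * b + c * d) * (r : ℂ)) = r * (L (a * b) + L (c * d)) :=
    fun r a b c d => by rw [mul_comm, L_ofReal_mul, map_add]
  have h2 : ∀ c, EB fun g : Edge n → ℝ => L (((Gc s g * Ee e * Gc s g) *ᵥ cv y) c) := fun c => by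
    simp only [Matrix.mulVec, dotProduct, map_sum, Ee_sandwich, cv, hm]
    exact EB.sum univ fun i _ => (EB.const _).mul
      ((eb_L L (h _ _ _ _).1 (h _ _ _ _).2).add (eb_L L (h _ _ _ _).1 (h _ _ _ _).2))
  simp only [dfj, L_Fc, Fe, div_eq_mul_inv]
  exact ((((EB.const _).mul (h2 _)).add ((EB.const _).mul (h2 _))).mul (EB.const _)).mul (EB.const _)

omit [NeZero n] in
lemma eb_Bf (x y : Cfg n) : EB fun g : Edge n → ℝ => Bf L s g x y := by
  simp only [Bf, form, L_cdot]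
  simp only [dotProduct, div_eq_mul_inv]
  exact (EB.sum univ fun c _ => (EB.const _).mul (eb_rL L hs y c)).mul (EB.const _)

omit [NeZero n] in
lemma eb_xiw (β lam : ℝ) (e : Edge n) (z : Cfg n) : EB fun g : Edge n → ℝ => xiw β s lam g e z := by
  have h : ∀ g : Edge n → ℝ, dpb s g e z =
      -2 * (rL Complex.reCLM s g z e.1.1 * rL Complex.imCLM s g z e.1.2 +
        rL Complex.reCLM s g z e.1.2 * rL Complex.imCLM s g z e.1.1) := fun g => by
    simp only [dpb, rL, Complex.reCLM_apply, Complex.imCLM_apply, Complex.mul_im, Complex.re_ofNat, Complex.im_ofNat]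
    ring
  simp only [xiw, h, div_eq_mul_inv]
  exact (EB.const _).add ((EB.const _).mul (((EB.const _).mul
    (((eb_rL _ hs z _).mul (eb_rL _ hs z _)).add ((eb_rL _ hs z _).mul (eb_rL _ hs z _)))).mul (EB.const _)))

end Vale.Agent.P146.Lower.Res
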