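import Vale.Agent.P146.Lower.Res.Basic
import Vale.Agent.P146.Lower.Test

/-! P146, polynomial lower bound: smoothness of the resolvent entries and their Hilbert–Schmidt sums. -/

open MeasureTheory Finset Real Matrix
open Vale.Agent.P150 (gauss)

noncomputable section

namespace Vale.Agent.P146.Lower.Res

variable {n : ℕ}

lemma differentiable_det {E : Type*} [NormedAddCommGroup E] [NormedSpace ℝ E]
    {A : E → Matrix (Fin n) (Fin n) ℂ} (h : ∀ a b, Differentiable ℝ fun g => A g a b) :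
    Differentiable ℝ fun g => (A g).det := by
  simp only [det_apply]
  refine Differentiable.fun_sum fun p _ => (?_ : Differentiable ℝ fun g => ∏ i, A g (p i) i).const_smul _
  exact fun x => (HasFDerivAt.finsetProd fun i _ => ((h _ _) x).hasFDerivAt).differentiableAt

variable {s : ℝ} (hs : 0 < kap s)
include hs

lemma differentiable_Gc (a b : Fin n) : Differentiable ℝ fun g : Edge n → ℝ => Gc s g a b := by
  have hw : ∀ i j, Differentiable ℝ fun g : Edge n → ℝ => ((Wm g i j : ℝ) : ℂ) := fun i j => by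
    refine Complex.ofRealCLM.differentiable.comp (?_ : Differentiable ℝ fun g : Edge n → ℝ => Wm g i j)
    unfold Wm cpl
    split_ifs <;> fun_prop
  have hA : ∀ i j, Differentiable ℝ fun g : Edge n → ℝ => Am s (Wm g) i j := fun i j => by
    simp only [Am_apply]
    exact (hw i j).const_sub _
  have hd : Differentiable ℝ fun g : Edge n → ℝ => ((Am s (Wm g)).det)⁻¹ := fun g =>
    ((differentiable_det hA) g).inv (isUnit_det_Am hs (Wm_symm' g)).ne_zero
  have ha : Differentiable ℝ fun g : Edge n → ℝ => (Am s (Wm g)).adjugate a b := by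
    simp only [adjugate_apply]
    refine differentiable_det fun i j => ?_
    rcases eq_or_ne i b with h | h
    · subst h; simp only [updateRow_self]; exact differentiable_const _
    · simp only [updateRow_ne h]; exact hA i j
  simp only [Gc, Matrix.inv_def, Ring.inverse_eq_inv', Matrix.smul_apply, smul_eq_mul]
  exact hd.fun_mul ha

/-- one column: `κ ∑_i |G_ia|² = -Im G_aa` -/
lemma sum_col_sq (g : Edge n → ℝ) (a : Fin n) :
    kap s * ∑ i, ‖Gc s g i a‖ ^ 2 = -(Gc s g a a).im := by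
  have h := im_form s (Wm_symm' g) (Gc s g *ᵥ Pi.single a 1)
  rw [Am_Gc_vec hs, Matrix.mulVec_single_one, cn_sq] at h
  rw [show (∑ i, ‖Gc s g i a‖ ^ 2) = ∑ i, ‖(Gc s g).col a i‖ ^ 2 from rfl, ← h]
  simp [dotProduct, Pi.single_apply]

lemma im_diag_nonpos (g : Edge n → ℝ) (a : Fin n) : (Gc s g a a).im ≤ 0 := by
  have := sum_col_sq hs g a
  have : 0 ≤ kap s * ∑ i, ‖Gc s g i a‖ ^ 2 := by positivity
  linarith

/-- `κ ∑ |G_ab|² = -n Im τ` -/
lemma sum_sq_Gc (g : Edge n → ℝ) :
    kap s * ∑ a, ∑ b, ‖Gc s g a b‖ ^ 2 = n * -(tauC s g).im := by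
  rw [sum_comm, mul_sum, sum_congr rfl fun a _ => sum_col_sq hs g a]
  rcases Nat.eq_zero_or_pos n with rfl | hn
  · simp
  · rw [tauC, Complex.div_natCast_im, Matrix.trace, Complex.im_sum, sum_neg_distrib, mul_neg,
      mul_div_cancel₀ _ (Nat.cast_ne_zero.2 hn.ne')]
    rfl

lemma sum_sq_Gc_le (g : Edge n → ℝ) : ∑ a, ∑ b, ‖Gc s g a b‖ ^ 2 ≤ n / kap s ^ 2 := by
  rw [sum_comm]
  refine (sum_le_sum (g := fun _ => 1 / kap s ^ 2) fun b _ => ?_).trans_eq (by simp [div_eq_mul_inv])
  have h := pow_le_pow_left₀ (cn_nonneg _) (cn_Gc hs g (Pi.single b 1)) 2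
  rw [Matrix.mulVec_single_one, show cn (Pi.single b (1:ℂ) : Fin n → ℂ) = 1 by simp [cn], cn_sq, div_pow, one_pow] at h
  exact h

lemma sum_sq_sq_le (g : Edge n → ℝ) : ∑ a, ∑ b, ‖(Gc s g * Gc s g) a b‖ ^ 2 ≤ n / kap s ^ 4 := by
  rw [sum_comm]
  refine (sum_le_sum (g := fun _ => 1 / kap s ^ 4) fun b _ => ?_).trans_eq (by simp [div_eq_mul_inv])
  have h1 := (cn_Gc hs g (Gc s g *ᵥ Pi.single b 1)).trans
    (div_le_div_of_nonneg_right (cn_Gc hs g (Pi.single b 1)) hs.le)
  have h := pow_le_pow_left₀ (cn_nonneg _) h1 2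
  rw [Matrix.mulVec_mulVec, Matrix.mulVec_single_one, show cn (Pi.single b (1:ℂ) : Fin n → ℂ) = 1 by simp [cn],
    cn_sq] at h
  exact h.trans_eq (by field_simp)

omit hs in
/-- derivative of an entry, written out -/
lemma Ee_sandwich (A B : Matrix (Fin n) (Fin n) ℂ) (e : Edge n) (x y : Fin n) :
    (A * Ee e * B) x y = A x e.1.1 * B e.1.2 y + A x e.1.2 * B e.1.1 y := by
  simp [Ee, Matrix.mul_add, Matrix.mul_apply, Matrix.single_apply, ite_and, add_mul, sum_add_distrib]

lemma hasDerivAt_Gc' (z : Edge n → ℝ) (e : Edge n) (t : ℝ) (a b : Fin n) :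
    HasDerivAt (fun r => Gc s (Function.update z e r) a b)
      ((Gc s (Function.update z e t) * Ee e * Gc s (Function.update z e t)) a b / ((√(n : ℝ) : ℝ) : ℂ)) t := by
  simpa using hasDerivAt_Gc hs (Function.update z e t) e a b

end Vale.Agent.P146.Lower.Res
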