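import Vale.Agent.P146.Lower.Res.Main

/-! P146, polynomial lower bound: the variance. -/

open MeasureTheory Finset Real Filter ProbabilityTheory
open Vale.Agent.P150 (gauss)

noncomputable section

namespace Vale.Agent.P146.Lower.Res

/-- no interval of length `n^δ` keeps mass, and the variance is at least `n^{2δ}/2` -/
theorem power_fluctuations : ∃ δ : ℝ, 0 < δ ∧ ∀ β : ℝ, 1 < β →
    (∃ C : ℝ, 0 < C ∧ ∀ (n : ℕ), 1 ≤ n → ∀ c : ℝ,
      (gauss (Edge n)).real {g | |Vale.Agent.P146.free β g - c| ≤ (n : ℝ) ^ δ} ≤ C / (n : ℝ) ^ δ) ∧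
    ∀ᶠ n : ℕ in atTop, (n : ℝ) ^ (2 * δ) / 2 ≤ Var[Vale.Agent.P146.free (n := n) β; gauss (Edge n)] := by
  obtain ⟨δ, hδ, h⟩ := power_lower
  refine ⟨δ, hδ, fun β hβ => ?_⟩
  obtain ⟨C, hC, hb⟩ := h β hβ
  refine ⟨⟨C, hC, hb⟩, ?_⟩
  filter_upwards [eventually_ge_atTop 1,
    ((tendsto_rpow_atTop hδ).comp tendsto_natCast_atTop_atTop).eventually_ge_atTop (2 * C)] with n hn hN
  simp only [Function.comp] at hN
  set t := (n : ℝ) ^ δ with ht
  have ht0 : 0 < t := by linarith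
  set F := Vale.Agent.P146.free (n := n) β
  have hm : MemLp F 2 (gauss (Edge n)) := (eb_dFree β [] : EB F).memLp
  set E := {g | |F g - ∫ g, F g ∂gauss (Edge n)| ≤ t}
  have hE : (gauss (Edge n)).real E ≤ 1 / 2 := by
    refine (hb n hn _).trans ?_
    rw [← ht, div_le_iff₀ ht0]
    linarith
  have hmeas : MeasurableSet E :=
    measurableSet_le (((eb_dFree β [] : EB F).1.sub continuous_const).abs.measurable) measurable_const
  have hch := meas_ge_le_variance_div_sq hm ht0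
  have hsub : Eᶜ ⊆ {g | t ≤ |F g - ∫ g, F g ∂gauss (Edge n)|} := fun g (hg : ¬|F g - ∫ g, F g ∂gauss (Edge n)| ≤ t) => (not_le.1 hg).le
  have h2 := ENNReal.toReal_mono ENNReal.ofReal_ne_top ((measure_mono hsub).trans hch)
  rw [ENNReal.toReal_ofReal (div_nonneg (variance_nonneg _ _) (by positivity)), ← measureReal_def,
    measureReal_compl hmeas, probReal_univ] at h2
  rw [mul_comm 2 δ, Real.rpow_mul (Nat.cast_nonneg _), Real.rpow_two, ← ht]
  have h3 : (1:ℝ) / 2 ≤ Var[F; gauss (Edge n)] / t ^ 2 := by linarith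
  rw [le_div_iff₀ (by positivity)] at h3
  linarith

end Vale.Agent.P146.Lower.Res
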