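import Vale.Agent.P146.Lower.Res.Defs

/-! P146, polynomial lower bound, deterministic side: at a marginal profile whose levels `[2L, 3L)` are not small,
either the susceptibility drops across the block or the flat part pays. -/

open Finset Real
open Vale.Agent.P157.Par (Prof)

noncomputable section

namespace Vale.Agent.P146.Lower.Res

variable {β s : ℝ}

/-- the distance to the edge at susceptibility `b` -/
def xd (β s b : ℝ) : ℝ := 1 + s - β * b

lemma hk_eq (β s b : ℝ) : hk β s b = b * s / (xd β s b ^ 2 + s ^ 2) := by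
  simp [hk, xd, zeta, Complex.div_im, Complex.normSq_apply]
  ring

lemma flat_eq (β s : ℝ) (R : ℕ) (q : ℕ → ℝ) (l : ℕ) :
    flat β s R q l = q l * ((1 + s) * s * (xd β s (dlev R q 0) + xd β s (dlev R q l)) -
      s * (xd β s (dlev R q 0) * xd β s (dlev R q l) - s ^ 2)) /
        ((xd β s (dlev R q 0) ^ 2 + s ^ 2) * (xd β s (dlev R q l) ^ 2 + s ^ 2)) := by
  simp [flat, xd, zeta, Complex.div_im, Complex.normSq_apply, Complex.mul_re, Complex.mul_im]
  ring

lemma abs_hk_le (hs : 0 < s) {b : ℝ} (hb : 0 ≤ b) (hb1 : b ≤ 1) : |hk β s b| ≤ 1 / s := by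
  rw [hk_eq, abs_of_nonneg (by positivity), div_le_div_iff₀ (by positivity) hs]
  nlinarith [sq_nonneg (xd β s b), mul_le_mul_of_nonneg_right hb1 (sq_nonneg s)]

lemma abs_flat_le (hs : 0 < s) (hs1 : s ≤ 1 / 4) (R : ℕ) (q : ℕ → ℝ) (l : ℕ) (hq : 0 ≤ q l)
    (hq1 : q l ≤ 1) : |flat β s R q l| ≤ 2 / s ^ 2 := by
  have hn : ∀ b : ℝ, s ≤ ‖zeta s - ((β * b : ℝ) : ℂ)‖ := fun b => by
    refine le_trans (le_abs_self s) ?_
    simpa [zeta] using Complex.abs_im_le_norm (zeta s - ((β * b : ℝ) : ℂ))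
  have hz : ‖zeta s‖ ≤ 2 := by
    refine (Complex.norm_le_abs_re_add_abs_im _).trans ?_
    simp only [zeta]
    rw [abs_of_pos (by linarith), abs_of_pos hs]
    linarith
  rw [flat, abs_neg]
  refine (Complex.abs_im_le_norm _).trans ?_
  rw [norm_div, norm_mul, norm_mul, Complex.norm_real, Real.norm_eq_abs, abs_of_nonneg hq, sq]
  exact div_le_div₀ two_pos.le (by nlinarith [norm_nonneg (zeta s)]) (by positivity)
    (mul_le_mul (hn _) (hn _) hs.le (norm_nonneg _))

lemma cut_mem (s K d : ℝ) : 0 ≤ cut s K d ∧ cut s K d ≤ 1 := by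
  refine ⟨by unfold cut; positivity, ?_⟩
  unfold cut
  rw [div_le_one (by positivity)]
  nlinarith [sq_nonneg (d / (K * s))]

lemma dlev_anti {R : ℕ} {q : ℕ → ℝ} (hq : Prof R q 1) : ∀ l ≤ R, dlev R q l ≤ dlev R q 0
  | 0, _ => le_rfl
  | l + 1, hl => by
    have h := dlev_step q (show l < R from hl)
    have : 0 ≤ ((l:ℝ) + 1) / R * (q (l + 1) - q l) :=
      mul_nonneg (by positivity) (sub_nonneg.2 (hq.mono l hl))
    linarith [dlev_anti hq l (by omega)]

/-- a drop of susceptibility of size `K s` lowers the top value by `K / s` -/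
lemma hk_drop (hβ : 1 ≤ β) (hs : 0 < s) (hs1 : s ≤ 1 / 8) {b b' K : ℝ} (hK : 0 < K) (hK1 : β * K ≤ 1)
    (hb' : 0 ≤ b') (hb : |β * b - 1| ≤ s / 8) (hd : K * s ≤ b - b') :
    1 / (32 * β) * (β * K / s) ≤ hk β s b - hk β s b' := by
  set x := xd β s b
  set y := xd β s b'
  have hx : 7 / 8 * s ≤ x ∧ x ≤ 9 / 8 * s := by
    have := abs_le.1 hb; simp only [x, xd]; constructor <;> linarith
  have hy : x + β * K * s ≤ y := by
    have := mul_le_mul_of_nonneg_left hd (zero_le_one.trans hβ)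
    simp only [x, y, xd]; linarith
  have hbl : 1 / (2 * β) ≤ b := by
    rw [div_le_iff₀ (by linarith)]
    linarith [(abs_le.1 hb).1]
  have hb'b : b' ≤ b := by nlinarith [mul_pos hK hs]
  have hX : 0 < x ^ 2 + s ^ 2 := by positivity
  set y0 := x + β * K * s with hy0
  have hbk : 0 < β * K := by nlinarith
  have h1 : hk β s b' ≤ b * s / (y0 ^ 2 + s ^ 2) := by
    rw [hk_eq]
    exact div_le_div₀ (by nlinarith) (mul_le_mul_of_nonneg_right hb'b hs.le) (by positivity)
      (add_le_add (pow_le_pow_left₀ (by nlinarith) hy 2) le_rfl)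
  have h2 : b * s / (x ^ 2 + s ^ 2) - b * s / (y0 ^ 2 + s ^ 2) =
      b * s * ((y0 - x) * (y0 + x)) / ((x ^ 2 + s ^ 2) * (y0 ^ 2 + s ^ 2)) := by
    field_simp; ring
  have h3 : (x ^ 2 + s ^ 2) * (y0 ^ 2 + s ^ 2) ≤ 14 * s ^ 4 := by
    have a1 : x ^ 2 ≤ (81 / 64) * s ^ 2 := by nlinarith [hx.1, hx.2]
    have a2 : y0 ≤ 17 / 8 * s := by
      rw [hy0]; nlinarith [mul_le_mul_of_nonneg_right hK1 hs.le]
    have a3 : y0 ^ 2 ≤ (289 / 64) * s ^ 2 := by
      have : 0 ≤ y0 := by rw [hy0]; nlinarith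
      nlinarith
    nlinarith [mul_le_mul (add_le_add a1 le_rfl) (add_le_add a3 (le_refl (s ^ 2)))
      (by positivity) (by positivity)]
  have h4 : b * s * (β * K * s * s) / (14 * s ^ 4) ≤
      b * s * ((y0 - x) * (y0 + x)) / ((x ^ 2 + s ^ 2) * (y0 ^ 2 + s ^ 2)) := by
    refine div_le_div₀ ?_ (mul_le_mul_of_nonneg_left ?_ (by nlinarith)) (by positivity) h3
    · rw [hy0, add_sub_cancel_left]; have : 0 ≤ b := by linarith [show 0 < 1 / (2 * β) by positivity]
      have : 0 ≤ x := by linarith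
      positivity
    · rw [hy0, add_sub_cancel_left]
      exact mul_le_mul_of_nonneg_left (by nlinarith) (by positivity)
  refine le_trans ?_ (le_trans h4 (by rw [← h2, ← hk_eq]; linarith))
  rw [show b * s * (β * K * s * s) / (14 * s ^ 4) = b / 14 * (β * K / s) by field_simp]
  refine mul_le_mul_of_nonneg_right ?_ (by positivity)
  have : 1 / (2 * β) / 14 ≤ b / 14 := by linarith
  refine le_trans ?_ this
  rw [div_div, div_le_div_iff₀ (by positivity) (by positivity)]
  linarith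

/-- the flat part pays `q / s²` while the susceptibility stays at the edge -/
lemma flat_ge (hs : 0 < s) (hs1 : s ≤ 1 / 8) (R : ℕ) (q : ℕ → ℝ) (l : ℕ) (hq : 0 ≤ q l)
    (hx : 7 / 8 * s ≤ xd β s (dlev R q 0)) (hxy : xd β s (dlev R q 0) ≤ xd β s (dlev R q l))
    (hy : xd β s (dlev R q l) ≤ 3 * s) : 1 / 100 * (q l / s ^ 2) ≤ flat β s R q l := by
  rw [flat_eq]
  set x := xd β s (dlev R q 0)
  set y := xd β s (dlev R q l)
  have hN : s ^ 2 ≤ (1 + s) * s * (x + y) - s * (x * y - s ^ 2) := by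
    have h1 : 0 ≤ x := by linarith
    have h2 : y * (5 / 8) ≤ y * (1 - x) := mul_le_mul_of_nonneg_left (by linarith [hxy.trans hy]) (h1.trans hxy)
    have h3 : s ≤ x + y - x * y := by linarith
    nlinarith [mul_le_mul_of_nonneg_left h3 hs.le, mul_nonneg (mul_nonneg hs.le hs.le) (add_nonneg h1 (h1.trans hxy)),
      pow_pos hs 3]
  have hD : (x ^ 2 + s ^ 2) * (y ^ 2 + s ^ 2) ≤ 100 * s ^ 4 := by
    have a : ∀ z, 0 ≤ z → z ≤ 3 * s → z ^ 2 + s ^ 2 ≤ 10 * s ^ 2 := fun z h0 h => by nlinarith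
    nlinarith [mul_le_mul (a x (by linarith) (hxy.trans hy)) (a y (by linarith) hy) (by positivity) (by positivity)]
  refine le_trans (le_of_eq ?_) (div_le_div₀ ?_ (mul_le_mul_of_nonneg_left hN hq) (by positivity) hD)
  · field_simp
  · exact mul_nonneg hq (le_trans (sq_nonneg s) hN)

/-- the flat part is nonnegative beyond the edge -/
lemma flat_nonneg (hβ : 0 ≤ β) (hs : 0 < s) (R : ℕ) (q : ℕ → ℝ) (l : ℕ) (hq : 0 ≤ q l)
    (hl0 : 0 ≤ dlev R q l) (hx : 0 ≤ xd β s (dlev R q 0))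
    (hxy : xd β s (dlev R q 0) ≤ xd β s (dlev R q l)) : 0 ≤ flat β s R q l := by
  rw [flat_eq]
  set x := xd β s (dlev R q 0)
  set y := xd β s (dlev R q l)
  have hy1 : y ≤ 1 + s := by simp only [y, xd]; nlinarith
  have : x * y ≤ (1 + s) * (x + y) := by
    have := mul_le_mul_of_nonneg_left hy1 hx
    nlinarith
  refine div_nonneg (mul_nonneg hq ?_) (by positivity)
  nlinarith [mul_le_mul_of_nonneg_left this hs.le, pow_pos hs 3]

/-- **What the test is worth at a marginal profile** -/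
theorem worth_low {β : ℝ} (hβ : 1 ≤ β) : ∃ c : ℝ, 0 < c ∧ ∀ (R L : ℕ) (q : ℕ → ℝ) (s K γ a μ' : ℝ),
    0 < s → s ≤ c → 0 < K → K ≤ c → 0 ≤ γ → γ ≤ 1 → Prof R q 1 → q R = 1 → 0 < L → 3 * L ≤ R →
    |β * top R q - 1| ≤ s / 8 → 3 * (L : ℝ) ≤ μ' * R → (∀ l ∈ Ico (2 * L) (3 * L), a ≤ q l) → 0 ≤ a →
      c * min (K / (s * μ')) (γ * a / s ^ 2) ≤ Yf β s K γ R L q := by
  have hβ0 : 0 < β := by linarith
  refine ⟨1 / (200 * β), by positivity, fun R L q s K γ a μ' hs hsc hK hKc hγ hγ1 hq hq1 hL hLR hT hμ ha ha0 => ?_⟩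
  have hc : 1 / (200 * β) ≤ 1 / 200 := by
    rw [div_le_div_iff₀ (by positivity) (by norm_num)]; nlinarith
  have hs1 : s ≤ 1 / 8 := by linarith
  have hK1 : β * K ≤ 1 := by
    have := mul_le_mul_of_nonneg_left hKc hβ0.le
    rw [show β * (1 / (200 * β)) = 1 / 200 by field_simp] at this
    linarith
  have hR : 1 ≤ R := by omega
  have h0 : dlev R q 0 = top R q := dlev_top_eq hR hq1
  have hR0 : (0:ℝ) < R := Nat.cast_pos.2 hR
  have hL0 : (0:ℝ) < L := Nat.cast_pos.2 hL
  have hμ0 : 0 < μ' := by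
    by_contra h
    push Not at h
    linarith [mul_nonpos_of_nonpos_of_nonneg h hR0.le]
  set c := 1 / (200 * β)
  set mn := min (K / (s * μ')) (γ * a / s ^ 2)
  have hmn : 0 ≤ mn := le_min (by positivity) (by positivity)
  have hterm : ∀ l ∈ Ico (2 * L) (3 * L), c * mn ≤ worth β s K γ R q l := by
    intro l hl
    obtain ⟨hl2, hl3⟩ := mem_Ico.1 hl
    have hlR : l ≤ R := by omega
    have hd0 := (dlev_mem hR hq hlR).1
    have hdl := dlev_anti hq l hlR
    have hx : 7 / 8 * s ≤ xd β s (dlev R q 0) := by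
      rw [h0, xd]; linarith [(abs_le.1 hT).2]
    have hxy : xd β s (dlev R q 0) ≤ xd β s (dlev R q l) := by
      simp only [xd]; linarith [mul_le_mul_of_nonneg_left hdl hβ0.le]
    have hl0 : (0:ℝ) < l := Nat.cast_pos.2 (by omega)
    have hRl : 1 / μ' ≤ (R : ℝ) / l := by
      rw [div_le_div_iff₀ hμ0 hl0, one_mul]
      have : (l:ℝ) ≤ 3 * L := by exact_mod_cast hl3.le
      linarith
    have hfl := flat_nonneg hβ0.le hs R q l ((hq.upper hlR).1) hd0 (by linarith) hxy
    have hcut := cut_mem s K (dropD R q l)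
    rw [worth]
    rcases le_or_gt (K * s) (dropD R q l) with h | h
    · have hb : |β * dlev R q 0 - 1| ≤ s / 8 := by rw [h0]; exact hT
      have hh := hk_drop hβ hs hs1 hK hK1 hd0 hb h
      have hh0 : 0 ≤ hk β s (dlev R q 0) - hk β s (dlev R q l) := le_trans (by positivity) hh
      have h1 := mul_le_mul hRl hh (by positivity) (by positivity)
      have h2 : c * mn ≤ 1 / μ' * (1 / (32 * β) * (β * K / s)) := by
        refine (mul_le_mul_of_nonneg_left (min_le_left _ _) (by positivity)).trans ?_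
        rw [show 1 / μ' * (1 / (32 * β) * (β * K / s)) = 1 / 32 * (K / (s * μ')) by field_simp]
        exact mul_le_mul_of_nonneg_right (by linarith) (by positivity)
      have : 0 ≤ γ * (cut s K (dropD R q l) * flat β s R q l) := mul_nonneg hγ (mul_nonneg hcut.1 hfl)
      linarith
    · have hdrop : 0 ≤ dropD R q l := by simp only [dropD]; linarith
      have hy : xd β s (dlev R q l) ≤ 3 * s := by
        have e : xd β s (dlev R q l) = xd β s (dlev R q 0) + β * dropD R q l := by simp only [xd, dropD]; ring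
        have h9 : xd β s (dlev R q 0) ≤ 9 / 8 * s := by rw [h0, xd]; linarith [(abs_le.1 hT).1]
        have := mul_le_mul_of_nonneg_left h.le hβ0.le
        have := mul_le_mul_of_nonneg_right hK1 hs.le
        linarith
      have hf := flat_ge hs hs1 R q l ((hq.upper hlR).1) hx hxy hy
      have hch : 1 / 2 ≤ cut s K (dropD R q l) := by
        unfold cut
        refine one_div_le_one_div_of_le (by positivity) ?_
        have : (dropD R q l / (K * s)) ^ 2 ≤ 1 :=
          pow_le_one₀ (by positivity) (by rw [div_le_one (by positivity)]; exact h.le)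
        linarith
      have hk0 : 0 ≤ hk β s (dlev R q 0) - hk β s (dlev R q l) := by
        rw [hk_eq, hk_eq, sub_nonneg]
        exact div_le_div₀ (mul_nonneg (hd0.trans hdl) hs.le) (mul_le_mul_of_nonneg_right hdl hs.le)
          (by positivity) (add_le_add (pow_le_pow_left₀ (by linarith) hxy 2) le_rfl)
      have h3 : c * mn ≤ γ * (1 / 2 * (1 / 100 * (q l / s ^ 2))) := by
        refine (mul_le_mul (show c ≤ 1 / 200 from hc) (min_le_right _ _) hmn (by norm_num)).trans ?_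
        rw [show γ * (1 / 2 * (1 / 100 * (q l / s ^ 2))) = 1 / 200 * (γ * q l / s ^ 2) by ring]
        exact mul_le_mul_of_nonneg_left (div_le_div_of_nonneg_right
          (mul_le_mul_of_nonneg_left (ha l hl) hγ) (sq_nonneg s)) (by norm_num)
      have h4 : γ * (1 / 2 * (1 / 100 * (q l / s ^ 2))) ≤
          γ * (cut s K (dropD R q l) * flat β s R q l) :=
        mul_le_mul_of_nonneg_left (mul_le_mul hch hf
          (mul_nonneg (by norm_num) (div_nonneg (hq.upper hlR).1 (sq_nonneg s))) hcut.1) hγ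
      have : 0 ≤ (R:ℝ) / l * (hk β s (dlev R q 0) - hk β s (dlev R q l)) := mul_nonneg (by positivity) hk0
      linarith
  rw [Yf, le_div_iff₀ hL0]
  refine le_trans (le_of_eq ?_) (card_nsmul_le_sum _ _ _ hterm)
  rw [Nat.card_Ico, show 3 * L - 2 * L = L by omega, nsmul_eq_mul, mul_comm]

/-- the test is polynomially bounded on every profile -/
theorem worth_bound (β : ℝ) : ∃ C : ℝ, 0 ≤ C ∧ ∀ (R L : ℕ) (q : ℕ → ℝ) (s K γ : ℝ), 0 < s → s ≤ 1 / 4 →
    0 ≤ γ → γ ≤ 1 → Prof R q 1 → 0 < L → 3 * L ≤ R → |Yf β s K γ R L q| ≤ C * ((R : ℝ) / L) / s ^ 2 := by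
  refine ⟨3, by norm_num, fun R L q s K γ hs hs1 hγ hγ1 hq hL hLR => ?_⟩
  have hR : 1 ≤ R := by omega
  have hL0 : (0:ℝ) < L := Nat.cast_pos.2 hL
  have hRL : 1 ≤ (R : ℝ) / L := by rw [one_le_div hL0]; exact_mod_cast (show L ≤ R by omega)
  have hterm : ∀ l ∈ Ico (2 * L) (3 * L), |worth β s K γ R q l| ≤ 3 * ((R : ℝ) / L) / s ^ 2 := by
    intro l hl
    obtain ⟨hl2, hl3⟩ := mem_Ico.1 hl
    have hlR : l ≤ R := by omega
    have hl0 : 2 * (L:ℝ) ≤ l := by exact_mod_cast hl2
    have hRl : (R : ℝ) / l ≤ (R : ℝ) / L / 2 := by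
      rw [div_div, mul_comm (L:ℝ)]; exact div_le_div_of_nonneg_left (Nat.cast_nonneg R) (by positivity) hl0
    have m0 := dlev_mem hR hq (Nat.zero_le R)
    have ml := dlev_mem hR hq hlR
    have hs2 : 1 / s ≤ 1 / s ^ 2 := one_div_le_one_div_of_le (pow_pos hs 2) (by nlinarith)
    have hA : |(R : ℝ) / l * (hk β s (dlev R q 0) - hk β s (dlev R q l))| ≤ (R : ℝ) / L / s ^ 2 := by
      rw [abs_mul, abs_of_nonneg (show (0:ℝ) ≤ R / l by positivity)]
      refine (mul_le_mul hRl ((abs_sub _ _).trans (add_le_add ((abs_hk_le hs m0.1 m0.2).trans hs2)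
        ((abs_hk_le hs ml.1 ml.2).trans hs2))) (abs_nonneg _) (by positivity)).trans_eq ?_
      ring
    have hB : |γ * (cut s K (dropD R q l) * flat β s R q l)| ≤ 2 * ((R : ℝ) / L) / s ^ 2 := by
      rw [abs_mul, abs_mul, abs_of_nonneg hγ, abs_of_nonneg (cut_mem s K _).1]
      refine (mul_le_of_le_one_left (by have := (cut_mem s K (dropD R q l)).1; positivity) hγ1).trans ?_
      refine (mul_le_of_le_one_left (abs_nonneg _) (cut_mem s K _).2).trans ?_
      refine (abs_flat_le hs hs1 R q l (hq.upper hlR).1 (hq.upper hlR).2).trans ?_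
      exact div_le_div_of_nonneg_right (by linarith) (sq_nonneg s)
    refine (abs_add_le _ _).trans ((add_le_add hA hB).trans_eq ?_)
    ring
  rw [Yf, abs_div, Nat.abs_cast, div_le_iff₀ hL0]
  refine ((abs_sum_le_sum_abs _ _).trans (sum_le_card_nsmul _ _ _ hterm)).trans_eq ?_
  rw [Nat.card_Ico, show 3 * L - 2 * L = L by omega, nsmul_eq_mul, mul_comm]

end Vale.Agent.P146.Lower.Res
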